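import Mathlib
import Vale.Agent.P205.Defs

/-!
# P205: the jet functions of the closure criterion

All functions are functions of the map `F`; divisions are regularised by `rinv η`, which is the
plain inverse where `η = 1`.  The unknown of the adjoint equation is a triple
`(σ₁₁, 2 σ₁₂, σ₂₂)`, paired with the rows of the linearised equation.  With
`n0` the normal part of `F_yy` and `n1 = *(F_x, F_y, n0)` the second fundamental rows divided by
`W² = ‖n0‖²` are `(-a, -b/2, 1)` and `(P, R/2, 0)`.  Pairs are coefficient vectors of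
`U = (σ₁₁, σ₁₂)` or of its `y`-derivative.
-/

namespace Vale.Agent.P205.Algebra

open scoped RealInnerProductSpace

noncomputable section

/-- The target space. -/
abbrev V4 := EuclideanSpace ℝ (Fin 4)

/-- Derivative in the first variable. -/
def dx {U : Type*} [NormedAddCommGroup U] [NormedSpace ℝ U] (c : R2 → U) (p : R2) : U :=
  fderiv ℝ c p (1, 0)

/-- Derivative in the second variable. -/
def dy {U : Type*} [NormedAddCommGroup U] [NormedSpace ℝ U] (c : R2 → U) (p : R2) : U :=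
  fderiv ℝ c p (0, 1)

/-- Regularised inverse: the inverse where `η = 1`. -/
def rinv (η x : R2 → ℝ) (p : R2) : ℝ := (x p + (1 - η p))⁻¹

/-- The generalised cross product of three vectors. -/
def cross4 (x y z : V4) : V4 :=
  !₂[x 1 * (y 2 * z 3 - y 3 * z 2) - x 2 * (y 1 * z 3 - y 3 * z 1) + x 3 * (y 1 * z 2 - y 2 * z 1),
    -(x 0 * (y 2 * z 3 - y 3 * z 2) - x 2 * (y 0 * z 3 - y 3 * z 0)
      + x 3 * (y 0 * z 2 - y 2 * z 0)),
    x 0 * (y 1 * z 3 - y 3 * z 1) - x 1 * (y 0 * z 3 - y 3 * z 0) + x 3 * (y 0 * z 1 - y 1 * z 0),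
    -(x 0 * (y 1 * z 2 - y 2 * z 1) - x 1 * (y 0 * z 2 - y 2 * z 0)
      + x 2 * (y 0 * z 1 - y 1 * z 0))]

variable (η : R2 → ℝ) (F : R2 → V4)

/-- Metric coefficient. -/
def g11 (p : R2) : ℝ := ⟪dx F p, dx F p⟫
/-- Metric coefficient. -/
def g12 (p : R2) : ℝ := ⟪dx F p, dy F p⟫
/-- Metric coefficient. -/
def g22 (p : R2) : ℝ := ⟪dy F p, dy F p⟫
/-- Determinant of the metric. -/
def detg (p : R2) : ℝ := g11 F p * g22 F p - g12 F p ^ 2

/-- The tangential vector dual to `F_x`. -/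
def v1 (p : R2) : V4 := rinv η (detg F) p • (g22 F p • dx F p - g12 F p • dy F p)
/-- The tangential vector dual to `F_y`. -/
def v2 (p : R2) : V4 := rinv η (detg F) p • (g11 F p • dy F p - g12 F p • dx F p)

/-- Second derivative. -/
def F11 (p : R2) : V4 := dx (dx F) p
/-- Second derivative. -/
def F12 (p : R2) : V4 := dy (dx F) p
/-- Second derivative. -/
def F22 (p : R2) : V4 := dy (dy F) p

/-- The normal part of `F_yy`. -/
def n0 (p : R2) : V4 :=
  F22 F p - ⟪F22 F p, dx F p⟫ • v1 η F p - ⟪F22 F p, dy F p⟫ • v2 η F p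
/-- The second normal. -/
def n1 (p : R2) : V4 := cross4 (dx F p) (dy F p) (n0 η F p)
/-- `W²`. -/
def Wsq (p : R2) : ℝ := ⟪n0 η F p, n0 η F p⟫
/-- Regularised `W⁻²`. -/
def iW (p : R2) : ℝ := rinv η (Wsq η F) p

/-- `-II₀(x, x) / W²`. -/
def ca (p : R2) : ℝ := -(⟪F11 F p, n0 η F p⟫ * iW η F p)
/-- `-2 II₀(x, y) / W²`. -/
def cb (p : R2) : ℝ := -(2 * ⟪F12 F p, n0 η F p⟫ * iW η F p)
/-- `II₁(x, x) / W²`. -/
def cP (p : R2) : ℝ := ⟪F11 F p, n1 η F p⟫ * iW η F p
/-- `2 II₁(x, y) / W²`. -/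
def cR (p : R2) : ℝ := 2 * ⟪F12 F p, n1 η F p⟫ * iW η F p
/-- The pair `(P, R)`. -/
def cc (p : R2) : R2 := (cP η F p, cR η F p)

/-- Christoffel symbol. -/
def G111 (p : R2) : ℝ := ⟪F11 F p, v1 η F p⟫
/-- Christoffel symbol. -/
def G112 (p : R2) : ℝ := ⟪F12 F p, v1 η F p⟫
/-- Christoffel symbol. -/
def G122 (p : R2) : ℝ := ⟪F22 F p, v1 η F p⟫
/-- Christoffel symbol. -/
def G211 (p : R2) : ℝ := ⟪F11 F p, v2 η F p⟫
/-- Christoffel symbol. -/
def G212 (p : R2) : ℝ := ⟪F12 F p, v2 η F p⟫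
/-- Christoffel symbol. -/
def G222 (p : R2) : ℝ := ⟪F22 F p, v2 η F p⟫

/-- First row of the zero order matrix of the closed system. -/
def N1 (p : R2) : R2 :=
  (-(G111 η F p + ca η F p * G122 η F p), -(2 * G112 η F p + cb η F p * G122 η F p))
/-- Second row of the zero order matrix of the closed system. -/
def N2 (p : R2) : R2 :=
  (-(G211 η F p + ca η F p * G222 η F p) - dy (ca η F) p,
    -(2 * G212 η F p + cb η F p * G222 η F p) - dy (cb η F) p)

/-- `u ↦ u N`. -/
def mulN (u : R2 → R2) (p : R2) : R2 := (u p).1 • N1 η F p + (u p).2 • N2 η F p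
/-- `u ↦ u M` for `M = [[0, -1], [-a, -b]]`. -/
def mulM (u : R2 → R2) (p : R2) : R2 :=
  (-ca η F p * (u p).2, -(u p).1 - cb η F p * (u p).2)

/-- A known combination `u · U + v · U_y`. -/
structure Row where
  /-- coefficient of `U` -/
  u : R2 → R2
  /-- coefficient of `U_y` -/
  v : R2 → R2

/-- `U` part of the `x`-derivative of a row, reduced by the closed system. -/
def dXu (E : Row) (p : R2) : R2 :=
  dx E.u p + mulN η F E.u p + ((E.v p).1 • dy (N1 η F) p + (E.v p).2 • dy (N2 η F) p)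
/-- `U_y` part of the `x`-derivative of a row, reduced by the closed system. -/
def dXv (E : Row) (p : R2) : R2 :=
  mulM η F E.u p + dx E.v p + mulN η F E.v p
    + (-dy (ca η F) p * (E.v p).2, -dy (cb η F) p * (E.v p).2)
/-- `U` part of the `y`-derivative of a row. -/
def dYu (E : Row) (p : R2) : R2 := dy E.u p
/-- `U_y` part of the `y`-derivative of a row. -/
def dYv (E : Row) (p : R2) : R2 := E.u p + dy E.v p

/-- The row of `(c · U)_x`. -/
def rowX : Row := ⟨fun p => dx (cc η F) p + mulN η F (cc η F) p, mulM η F (cc η F)⟩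
/-- The row of `(c · U)_y`. -/
def rowY : Row := ⟨dy (cc η F), cc η F⟩
/-- The row of `(c · U)_xx + b (c · U)_xy - a (c · U)_yy`. -/
def rowBox : Row where
  u p := dXu η F (rowX η F) p + cb η F p • dYu (rowX η F) p - ca η F p • dYu (rowY η F) p
  v p := dXv η F (rowX η F) p + cb η F p • dYv (rowX η F) p - ca η F p • dYv (rowY η F) p

/-- The determinant of four rows. -/
def det4 (E1 E2 E3 E4 : Row) (p : R2) : ℝ :=
  Matrix.det !![(E1.u p).1, (E1.u p).2, (E1.v p).1, (E1.v p).2;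
    (E2.u p).1, (E2.u p).2, (E2.v p).1, (E2.v p).2;
    (E3.u p).1, (E3.u p).2, (E3.v p).1, (E3.v p).2;
    (E4.u p).1, (E4.u p).2, (E4.v p).1, (E4.v p).2]

/-- The row of `c · U`. -/
def rowC : Row := ⟨cc η F, fun _ => 0⟩

/-- The multiplier `δ₄`. -/
def delta4 : R2 → ℝ := det4 (rowC η F) (rowX η F) (rowY η F) (rowBox η F)

/-- The vector orthogonal to `(P, R)`. -/
def perp (p : R2) : R2 := (-cR η F p, cP η F p)
/-- `det (π, c) = -(P² + R²)`. -/
def k1 (p : R2) : ℝ := det2 (perp η F p) (cc η F p)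
/-- `det (π M, c)`. -/
def k2 (p : R2) : ℝ := det2 (mulM η F (perp η F) p) (cc η F p)

/-- A row with its `U_y` part made parallel to `π`. -/
def norm1 (E : Row) : Row where
  u p := k1 η F p • E.u p - det2 (perp η F p) (E.v p) • dy (cc η F) p
  v p := k1 η F p • E.v p - det2 (perp η F p) (E.v p) • cc η F p

/-- The next row: the `X`-derivative, cleared of denominators. -/
def next (E : Row) : Row where
  u p := k1 η F p • dXu η F (norm1 η F E) p - k2 η F p • dYu (norm1 η F E) p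
    - (det2 (E.v p) (cc η F p) * det2 (perp η F p) (mulM η F (perp η F) p))
      • dy (dy (cc η F)) p
  v p := k1 η F p • dXv η F (norm1 η F E) p - k2 η F p • dYv (norm1 η F E) p
    - (det2 (E.v p) (cc η F p) * det2 (perp η F p) (mulM η F (perp η F) p))
      • ((2 : ℝ) • dy (cc η F) p)

/-- The chain of rows starting from `(c · U)_x`. -/
def chain : ℕ → Row
  | 0 => rowX η F
  | k + 1 => next η F (chain k)

/-- `|c|ⁿ det (r_j, r_k)`. -/
def detChain (j k : ℕ) : R2 → ℝ :=
  det4 (rowC η F) (rowY η F) (chain η F j) (chain η F k)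

/-- Covariant second derivative. -/
def hess11 (φ : R2 → ℝ) (p : R2) : ℝ :=
  dx (dx φ) p - G111 η F p * dx φ p - G211 η F p * dy φ p
/-- Covariant second derivative. -/
def hess12 (φ : R2 → ℝ) (p : R2) : ℝ :=
  dy (dx φ) p - G112 η F p * dx φ p - G212 η F p * dy φ p
/-- Covariant second derivative. -/
def hess22 (φ : R2 → ℝ) (p : R2) : ℝ :=
  dy (dy φ) p - G122 η F p * dx φ p - G222 η F p * dy φ p

/-- The closure step `φ ↦ P : Hess φ`. -/
def pHess (φ : R2 → ℝ) (p : R2) : ℝ :=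
  -cR η F p * hess11 η F φ p + 2 * cP η F p * hess12 η F φ p
    + (cb η F p * cP η F p - ca η F p * cR η F p) * hess22 η F φ p

/-- The closure step `φ ↦ 2 det [II₀, dφ ∘ e₁, dφ ∘ e₂] = q (dφ)`. -/
def m0 (φ : R2 → ℝ) (p : R2) : ℝ :=
  dx φ p ^ 2 + cb η F p * dx φ p * dy φ p - ca η F p * dy φ p ^ 2

/-- The closed multiplier `q (d (P : Hess δ₄))`. -/
def mainMult : R2 → ℝ := m0 η F (pHess η F (delta4 η F))

/-- The sum of squares of the multipliers of the criterion. -/
def criterion (p : R2) : ℝ :=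
  mainMult η F p ^ 2 + ∑ k ∈ Finset.range 6, ∑ j ∈ Finset.range k, detChain η F j k p ^ 2

end

end Vale.Agent.P205.Algebra
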