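import Vale.Agent.P205.Correction.Seminorm
import Vale.Agent.P205.Full.Algebra.Jets

/-!
# P205: bookkeeping for tame estimates

`Base` fixes the order `a`, the constants of the base data, the cut function and a condition on the
map.  `Good` is the situation in which the estimates are claimed: the derivatives of order `j` of
the map are at most `K j * Lam ^ j * t ^ (j - a)`.
-/

namespace Vale.Agent.P205.Algebra

open scoped ContDiff
open Finset Correction

noncomputable section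

/-- The fixed data of the calculus. -/
structure Base where
  /-- number of derivatives which cost no power of the frequency -/
  a : ℕ
  /-- constants of the map -/
  K : ℕ → ℝ
  /-- the set on which the identities hold -/
  O : Set R2
  isOpen_O : IsOpen O
  /-- the cut function -/
  η : R2 → ℝ
  η_smooth : Smooth2 η
  η_eq : ∀ p ∈ O, η p = 1
  η_le : ∀ p, η p ≤ 1
  /-- condition on the map -/
  adm : (R2 → V4) → ℝ → Prop

namespace Base

/-- The situation in which the estimates are claimed. -/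
structure Good (B : Base) (F : R2 → V4) (Lam t : ℝ) (N : ℕ) : Prop where
  smooth : Smooth2 F
  one_le : 1 ≤ Lam
  le_t : Lam ≤ t
  adm : B.adm F Lam
  bound : ∀ j ≤ N, pn j F ≤ B.K j * (Lam ^ j * t ^ (j - B.a))

variable {B : Base} {F : R2 → V4} {Lam t : ℝ} {N : ℕ}

lemma Good.one_le_t (h : B.Good F Lam t N) : 1 ≤ t := h.one_le.trans h.le_t

lemma Good.nonneg (h : B.Good F Lam t N) : 0 ≤ Lam ∧ 0 ≤ t :=
  ⟨by linarith [h.one_le], by linarith [h.one_le_t]⟩

lemma Good.mono_N (h : B.Good F Lam t N) {N' : ℕ} (hN : N' ≤ N) : B.Good F Lam t N' :=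
  { h with bound := fun j hj => h.bound j (hj.trans hN) }

end Base

lemma pn_congr {U : Type*} [NormedAddCommGroup U] [NormedSpace ℝ U] {u v : R2 → U}
    (h : ∀ p, u p = v p) (j : ℕ) : pn j u = pn j v := congrArg (pn j) (funext h)

lemma pn_const_le {U : Type*} [NormedAddCommGroup U] [NormedSpace ℝ U] (v : U) (j : ℕ) :
    pn j (fun _ : R2 => v) ≤ (j + 1) * ‖v‖ := by
  refine (pn_le_of_supD (C := fun _ => ‖v‖) fun m _ => supD_le fun x => ?_).trans
    (le_of_eq (by rw [sum_const, card_range, nsmul_eq_mul]; push_cast; ring))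
  rcases Nat.eq_zero_or_pos m with rfl | hm
  · simp
  · simp [iteratedFDeriv_const_of_ne (Nat.pos_iff_ne_zero.mp hm) v]

lemma smooth2_const {U : Type*} [NormedAddCommGroup U] [NormedSpace ℝ U] (v : U) :
    Smooth2 (fun _ : R2 => v) := ⟨contDiff_const, fun _ => rfl, fun _ => rfl⟩

lemma pn_succ {U : Type*} [NormedAddCommGroup U] [NormedSpace ℝ U] (u : R2 → U) (j : ℕ) :
    pn (j + 1) u = supD 0 u + pn j (fderiv ℝ u) := by
  have h : ∀ m, supD m (fderiv ℝ u) = supD (m + 1) u := fun m => by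
    simp only [supD, norm_iteratedFDeriv_fderiv]
  rw [pn, pn, sum_range_succ' _ (j + 1), add_comm]
  simp only [h]

/-- The operator norm of a bilinear map. -/
def bilNorm {X Y Z : Type*} [NormedAddCommGroup X] [NormedSpace ℝ X] [NormedAddCommGroup Y]
    [NormedSpace ℝ Y] [NormedAddCommGroup Z] [NormedSpace ℝ Z] (β : X →L[ℝ] Y →L[ℝ] Z) : ℝ := ‖β‖

lemma bilNorm_nonneg {X Y Z : Type*} [NormedAddCommGroup X] [NormedSpace ℝ X]
    [NormedAddCommGroup Y] [NormedSpace ℝ Y] [NormedAddCommGroup Z] [NormedSpace ℝ Z]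
    (β : X →L[ℝ] Y →L[ℝ] Z) : 0 ≤ bilNorm β := norm_nonneg β

/-- The product estimate with monomial bounds. -/
lemma pn_bilin_bound {X Y Z : Type*} [NormedAddCommGroup X] [NormedSpace ℝ X]
    [NormedAddCommGroup Y] [NormedSpace ℝ Y] [NormedAddCommGroup Z] [NormedSpace ℝ Z]
    (β : X →L[ℝ] Y →L[ℝ] Z) {u : R2 → X} {v : R2 → Y} (hu : Smooth2 u) (hv : Smooth2 v) (j : ℕ)
    {A A' : ℕ → ℝ} {Lam t : ℝ} (hL : 1 ≤ Lam) (ht : 1 ≤ t) {e1 e2 f1 f2 : ℕ → ℕ} {e f : ℕ}
    (hA : ∀ i, 0 ≤ A i) (hA' : ∀ i, 0 ≤ A' i)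
    (h1 : ∀ i ≤ j, pn i u ≤ A i * (Lam ^ e1 i * t ^ f1 i))
    (h2 : ∀ i ≤ j, pn i v ≤ A' i * (Lam ^ e2 i * t ^ f2 i))
    (he : ∀ i ≤ j, e1 i + e2 (j - i) ≤ e) (hf : ∀ i ≤ j, f1 i + f2 (j - i) ≤ f) :
    pn j (fun x => β (u x) (v x)) ≤
      (bilNorm β * (j + 1) * 2 ^ j * ∑ i ∈ range (j + 1), A i * A' (j - i)) * (Lam ^ e * t ^ f) := by
  refine (pn_bilin_le hu hv β j).trans ?_
  change bilNorm β * (j + 1) * 2 ^ j * _ ≤ _
  rw [mul_assoc (bilNorm β * (j + 1) * 2 ^ j), sum_mul]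
  refine mul_le_mul_of_nonneg_left (sum_le_sum fun i hi => ?_)
    (by have := bilNorm_nonneg β; positivity)
  have hi' : i ≤ j := Nat.lt_succ_iff.mp (mem_range.mp hi)
  refine (mul_le_mul (h1 i hi') (h2 (j - i) (Nat.sub_le _ _)) (pn_nonneg _ _)
    ((pn_nonneg _ _).trans (h1 i hi'))).trans ?_
  calc A i * (Lam ^ e1 i * t ^ f1 i) * (A' (j - i) * (Lam ^ e2 (j - i) * t ^ f2 (j - i)))
      = A i * A' (j - i) * (Lam ^ (e1 i + e2 (j - i)) * t ^ (f1 i + f2 (j - i))) := by
        rw [pow_add, pow_add]; ring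
    _ ≤ _ := mul_le_mul_of_nonneg_left (mul_le_mul (pow_le_pow_right₀ hL (he i hi'))
        (pow_le_pow_right₀ ht (hf i hi')) (by positivity) (by positivity))
          (mul_nonneg (hA i) (hA' (j - i)))

lemma mono_bound {Lam t x C : ℝ} {e e' f f' : ℕ} (hL : 1 ≤ Lam) (ht : 1 ≤ t) (hC : 0 ≤ C)
    (he : e ≤ e') (hf : f ≤ f') (h : x ≤ C * (Lam ^ e * t ^ f)) :
    x ≤ C * (Lam ^ e' * t ^ f') :=
  h.trans (mul_le_mul_of_nonneg_left (mul_le_mul (pow_le_pow_right₀ hL he)
    (pow_le_pow_right₀ ht hf) (by positivity) (by positivity)) hC)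

end

end Vale.Agent.P205.Algebra
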