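import Vale.Agent.P205.Full.Algebra.Regular

/-!
# P205: pointwise identities on the set where the divisions are exact
-/

namespace Vale.Agent.P205.Algebra

open scoped ContDiff Topology RealInnerProductSpace
open Finset Correction

noncomputable section

variable {U : Type*} [NormedAddCommGroup U] [NormedSpace ℝ U]

lemma Smooth2.diffAt {u : R2 → U} (h : Smooth2 u) (p : R2) : DifferentiableAt ℝ u p :=
  h.1.differentiable (by simp) p

lemma smooth2_dx {u : R2 → U} (h : Smooth2 u) : Smooth2 (dx u) :=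
  h.fderiv.clm (ContinuousLinearMap.apply ℝ U ((1, 0) : R2))

lemma smooth2_dy {u : R2 → U} (h : Smooth2 u) : Smooth2 (dy u) :=
  h.fderiv.clm (ContinuousLinearMap.apply ℝ U ((0, 1) : R2))

lemma smooth2_smul {f : R2 → ℝ} {u : R2 → U} (hf : Smooth2 f) (hu : Smooth2 u) :
    Smooth2 (fun q => f q • u q) := hf.bilin hu (ContinuousLinearMap.lsmul ℝ ℝ)

lemma smooth2_mul {f g : R2 → ℝ} (hf : Smooth2 f) (hg : Smooth2 g) :
    Smooth2 (fun q => f q * g q) := hf.bilin hg (ContinuousLinearMap.mul ℝ ℝ)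

lemma dx_smul {f : R2 → ℝ} {u : R2 → U} (hf : Smooth2 f) (hu : Smooth2 u) (p : R2) :
    dx (fun q => f q • u q) p = dx f p • u p + f p • dx u p := by
  simp [dx, fderiv_fun_smul (Smooth2.diffAt hf p) (Smooth2.diffAt hu p), add_comm]

lemma dy_smul {f : R2 → ℝ} {u : R2 → U} (hf : Smooth2 f) (hu : Smooth2 u) (p : R2) :
    dy (fun q => f q • u q) p = dy f p • u p + f p • dy u p := by
  simp [dy, fderiv_fun_smul (Smooth2.diffAt hf p) (Smooth2.diffAt hu p), add_comm]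

lemma dx_add {u v : R2 → U} (hu : Smooth2 u) (hv : Smooth2 v) (p : R2) :
    dx (fun q => u q + v q) p = dx u p + dx v p := by
  simp [dx, fderiv_fun_add (Smooth2.diffAt hu p) (Smooth2.diffAt hv p)]

lemma dy_add {u v : R2 → U} (hu : Smooth2 u) (hv : Smooth2 v) (p : R2) :
    dy (fun q => u q + v q) p = dy u p + dy v p := by
  simp [dy, fderiv_fun_add (Smooth2.diffAt hu p) (Smooth2.diffAt hv p)]

lemma d_comm {u : R2 → U} (hu : Smooth2 u) (p : R2) : dx (dy u) p = dy (dx u) p := by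
  have hd : DifferentiableAt ℝ (fderiv ℝ u) p := Smooth2.diffAt hu.fderiv p
  have e : ∀ z w : R2, fderiv ℝ (fun q => fderiv ℝ u q z) p w
      = fderiv ℝ (fderiv ℝ u) p w z := fun z w => by
    rw [fderiv_clm_apply hd (differentiableAt_const z)]
    simp
  show fderiv ℝ (fun q => fderiv ℝ u q (0, 1)) p (1, 0)
    = fderiv ℝ (fun q => fderiv ℝ u q (1, 0)) p (0, 1)
  rw [e, e]
  exact (hu.1.contDiffAt.isSymmSndFDerivAt (by simp; norm_cast)).eq _ _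

lemma dx_inner {u v : R2 → V4} (hu : Smooth2 u) (hv : Smooth2 v) (p : R2) :
    dx (fun q => ⟪u q, v q⟫) p = ⟪u p, dx v p⟫ + ⟪dx u p, v p⟫ :=
  fderiv_inner_apply ℝ (Smooth2.diffAt hu p) (Smooth2.diffAt hv p) _

lemma dy_inner {u v : R2 → V4} (hu : Smooth2 u) (hv : Smooth2 v) (p : R2) :
    dy (fun q => ⟪u q, v q⟫) p = ⟪u p, dy v p⟫ + ⟪dy u p, v p⟫ :=
  fderiv_inner_apply ℝ (Smooth2.diffAt hu p) (Smooth2.diffAt hv p) _

variable {B : Base} {F : R2 → V4} {Lam t : ℝ} {N : ℕ} {p : R2}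

lemma rinv_eq (hp : p ∈ B.O) (x : R2 → ℝ) : rinv B.η x p = (x p)⁻¹ := by
  simp [rinv, B.η_eq p hp]

lemma detg_pos (hg : DetLow B) (hF : B.Good F Lam t N) (hp : p ∈ B.O) : 0 < detg F p := by
  have h := hg hF p
  rw [B.η_eq p hp] at h
  have : 0 < Lam⁻¹ := inv_pos.2 (by linarith [hF.one_le])
  linarith

lemma Wsq_pos (hw : WLow B) (hF : B.Good F Lam t N) (hp : p ∈ B.O) : 0 < Wsq B.η F p := by
  have h := hw hF p
  rw [B.η_eq p hp] at h
  have : 0 < Lam⁻¹ := inv_pos.2 (by linarith [hF.one_le])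
  linarith

lemma dual_frame (hg : DetLow B) (hF : B.Good F Lam t N) (hp : p ∈ B.O) :
    ⟪dx F p, v1 B.η F p⟫ = 1 ∧ ⟪dy F p, v1 B.η F p⟫ = 0 ∧ ⟪dx F p, v2 B.η F p⟫ = 0 ∧
      ⟪dy F p, v2 B.η F p⟫ = 1 := by
  have hd := (detg_pos hg hF hp).ne'
  have e := real_inner_comm (dx F p) (dy F p)
  refine ⟨?_, ?_, ?_, ?_⟩ <;>
  · simp only [v1, v2, rinv_eq hp, inner_smul_right, inner_sub_right, g11, g12, g22, e]
    simp only [detg, g11, g12, g22] at hd ⊢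
    first
    | (field_simp; done)
    | (field_simp; ring_nf)

lemma n0_orth (hg : DetLow B) (hF : B.Good F Lam t N) (hp : p ∈ B.O) :
    ⟪dx F p, n0 B.η F p⟫ = 0 ∧ ⟪dy F p, n0 B.η F p⟫ = 0 := by
  obtain ⟨e1, e2, e3, e4⟩ := dual_frame hg hF hp
  constructor <;>
    simp [n0, inner_sub_right, inner_smul_right, e1, e2, e3, e4, real_inner_comm (F22 F p)]

lemma cross4_orth (x y z : V4) :
    ⟪x, cross4 x y z⟫ = 0 ∧ ⟪y, cross4 x y z⟫ = 0 ∧ ⟪z, cross4 x y z⟫ = 0 := by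
  refine ⟨?_, ?_, ?_⟩ <;> simp [cross4, PiLp.inner_apply, Fin.sum_univ_four] <;> ring

lemma F22_n0 (hg : DetLow B) (hF : B.Good F Lam t N) (hp : p ∈ B.O) :
    ⟪F22 F p, n0 B.η F p⟫ = Wsq B.η F p ∧ ⟪F22 F p, n1 B.η F p⟫ = 0 := by
  obtain ⟨o1, o2⟩ := n0_orth hg hF hp
  obtain ⟨c1, c2, c3⟩ := cross4_orth (dx F p) (dy F p) (n0 B.η F p)
  have e : F22 F p = n0 B.η F p + ⟪F22 F p, dx F p⟫ • v1 B.η F p
      + ⟪F22 F p, dy F p⟫ • v2 B.η F p := by rw [n0]; abel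
  have o1' : ⟪v1 B.η F p, n0 B.η F p⟫ = 0 ∧ ⟪v2 B.η F p, n0 B.η F p⟫ = 0 := by
    simp [v1, v2, inner_smul_left, inner_sub_left, o1, o2]
  have c1' : ⟪v1 B.η F p, n1 B.η F p⟫ = 0 ∧ ⟪v2 B.η F p, n1 B.η F p⟫ = 0 := by
    simp [v1, v2, n1, inner_smul_left, inner_sub_left, c1, c2]
  constructor <;> nth_rw 1 [e] <;>
    simp [inner_add_left, inner_smul_left, o1'.1, o1'.2, c1'.1, c1'.2, Wsq]
  exact c3

/-- The linearised metric of `ψ v` for a field with constant pairings with the tangent frame. -/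
lemma linM_field {v : R2 → V4} (hv : Smooth2 v) (hF : Smooth2 F) {O : Set R2} (hO : IsOpen O)
    {α β : ℝ} (h1 : ∀ q ∈ O, ⟪dx F q, v q⟫ = α) (h2 : ∀ q ∈ O, ⟪dy F q, v q⟫ = β) (hp : p ∈ O)
    {ψ : R2 → ℝ} (hψ : Smooth2 ψ) :
    linM F (fun q => ψ q • v q) p =
      ![2 * (α * dx ψ p - ψ p * ⟪F11 F p, v p⟫),
        α * dy ψ p + β * dx ψ p - 2 * (ψ p * ⟪F12 F p, v p⟫),
        2 * (β * dy ψ p - ψ p * ⟪F22 F p, v p⟫)] := by
  have key : ∀ {w : R2 → V4} (γ : ℝ), Smooth2 w → (∀ q ∈ O, ⟪w q, v q⟫ = γ) →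
      ⟪w p, dx v p⟫ = -⟪dx w p, v p⟫ ∧ ⟪w p, dy v p⟫ = -⟪dy w p, v p⟫ := fun {w} γ hw h => by
    have e : (fun q => ⟪w q, v q⟫) =ᶠ[𝓝 p] fun _ => γ := by
      filter_upwards [hO.mem_nhds hp] with q hq using h q hq
    have ex := dx_inner hw hv p
    have ey := dy_inner hw hv p
    simp only [dx, dy, e.fderiv_eq] at ex ey ⊢
    simp at ex ey
    exact ⟨by linarith, by linarith⟩
  obtain ⟨a1, a2⟩ := key α (smooth2_dx hF) h1
  obtain ⟨b1, b2⟩ := key β (smooth2_dy hF) h2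
  have hc : dx (dy F) p = F12 F p := d_comm hF p
  funext k
  fin_cases k <;>
    simp [linM, dx_smul hψ hv, dy_smul hψ hv, inner_add_right, inner_smul_right, h1 p hp, h2 p hp,
      a1, a2, b1, b2, hc, F11, F12, F22] <;> ring

end

end Vale.Agent.P205.Algebra
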