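import Vale.Agent.P205.Full.Algebra.Multipliers
import Vale.Agent.P205.Correction.Main

/-!
# P205: the right inverse and exact correction from the criterion

`exact_correction` turns an approximate solution of the metric equation into an exact one when the
regularised denominators `det g`, `W²` and the criterion are bounded below by a power of the large
parameter and the initial error is small.
-/

namespace Vale.Agent.P205.Algebra

open scoped ContDiff Topology RealInnerProductSpace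
open Finset Correction

noncomputable section

/-- The induced metric in the components `(xx, xy, yy)`. -/
def metF (F : R2 → V4) (p : R2) : Fin 3 → ℝ := ![g11 F p, g12 F p, g22 F p]

/-- The metric as a bilinear map of first derivatives. -/
def metB : (R2 →L[ℝ] V4) →L[ℝ] (R2 →L[ℝ] V4) →L[ℝ] (Fin 3 → ℝ) :=
  LinearMap.toContinuousBilinearMap
    (LinearMap.mk₂ ℝ (fun A A' : R2 →L[ℝ] V4 =>
      (![⟪A (1, 0), A' (1, 0)⟫, ⟪A (1, 0), A' (0, 1)⟫, ⟪A (0, 1), A' (0, 1)⟫] : Fin 3 → ℝ))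
    (fun A B C => by funext k; fin_cases k <;> simp [inner_add_left])
    (fun c A B => by funext k; fin_cases k <;> simp [inner_smul_left])
    (fun A B C => by funext k; fin_cases k <;> simp [inner_add_right])
    (fun c A B => by funext k; fin_cases k <;> simp [inner_smul_right]))

lemma metB_apply (A A' : R2 →L[ℝ] V4) :
    metB A A' = ![⟪A (1, 0), A' (1, 0)⟫, ⟪A (1, 0), A' (0, 1)⟫, ⟪A (0, 1), A' (0, 1)⟫] := rfl

lemma metB_self (F : R2 → V4) (p : R2) : metB (fderiv ℝ F p) (fderiv ℝ F p) = metF F p := rfl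

/-- Right inverses up to a factor. -/
def Inv1 (B : Base) (c : (R2 → V4) → R2 → ℝ) : Prop :=
  ∃ M : (R2 → V4) → (R2 → Fin 3 → ℝ) → R2 → V4, Op B M ∧ ∀ {F Lam t N}, B.Good F Lam t N →
    ∀ h, Smooth2 h → ∀ p ∈ B.O, linM F (M F h) p = c F p • h p

section
variable {B : Base} {r : ℕ} {c d : (R2 → V4) → R2 → ℝ}

lemma Mult.inv1 (h : Mult B c) : Inv1 B c := by
  choose M hM hL using h
  set P : Fin 3 → (Fin 3 → ℝ) →L[ℝ] ℝ := fun k =>
    ContinuousLinearMap.proj (R := ℝ) (φ := fun _ : Fin 3 => ℝ) k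
  have o : ∀ k, Op B (fun F (h : R2 → Fin 3 → ℝ) => M k F (fun q => P k (h q))) := fun k =>
    (hM k).comp ((Op.id (B := B) (X := Fin 3 → ℝ)).clm (P k))
  refine ⟨_, ((o 0).add (o 1)).add (o 2), fun {F Lam t N} hF h hh p hp => ?_⟩
  have hs : ∀ k, Smooth2 (fun q => P k (h q)) := fun k => hh.clm (P k)
  show linM F (fun q => (M 0 F (fun q => P 0 (h q)) q + M 1 F (fun q => P 1 (h q)) q)
    + M 2 F (fun q => P 2 (h q)) q) p = _
  rw [linM_add F p (((hM 0).smooth hF (hs 0)).add ((hM 1).smooth hF (hs 1)))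
      ((hM 2).smooth hF (hs 2)),
    linM_add F p ((hM 0).smooth hF (hs 0)) ((hM 1).smooth hF (hs 1)),
    hL 0 hF _ (hs 0) p hp, hL 1 hF _ (hs 1) p hp, hL 2 hF _ (hs 2) p hp]
  funext l
  fin_cases l <;> simp [P]

lemma Inv1.mul (h : Inv1 B c) (hd : Tame B r d) (hr : r ≤ B.a) :
    Inv1 B (fun F p => c F p * d F p) := by
  obtain ⟨M, hM, hL⟩ := h
  have o : Op B (fun F (h : R2 → Fin 3 → ℝ) q => d F q • h q) := Op.id.smulc hd hr
  refine ⟨_, hM.comp o, fun {F Lam t N} hF h hh p hp => ?_⟩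
  rw [mul_smul]
  exact hL hF _ (o.smooth hF hh) p hp

lemma Inv1.add (h : Inv1 B c) (h' : Inv1 B d) : Inv1 B (fun F p => c F p + d F p) := by
  obtain ⟨M, hM, hL⟩ := h
  obtain ⟨M', hM', hL'⟩ := h'
  refine ⟨_, hM.add hM', fun {F Lam t N} hF h hh p hp => ?_⟩
  show linM F (fun q => M F h q + M' F h q) p = _
  rw [linM_add F p (hM.smooth hF hh) (hM'.smooth hF hh), hL hF h hh p hp, hL' hF h hh p hp,
    add_smul]

lemma Inv1.congr (h : Inv1 B c)
    (he : ∀ {F Lam t N}, B.Good F Lam t N → ∀ p ∈ B.O, c F p = d F p) : Inv1 B d := by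
  obtain ⟨M, hM, hL⟩ := h
  exact ⟨M, hM, fun hF h hh p hp => by rw [hL hF h hh p hp, he hF p hp]⟩

lemma Inv1.zero : Inv1 B (fun _ _ => 0) := by
  refine ⟨fun _ _ _ => 0, Op.zero, fun _ h _ p _ => ?_⟩
  funext k
  fin_cases k <;> simp [linM, Algebra.dx, Algebra.dy]

lemma Inv1.fin_sum {ι : Type*} (s : Finset ι) {c : ι → (R2 → V4) → R2 → ℝ}
    (h : ∀ i ∈ s, Inv1 B (c i)) : Inv1 B (fun F p => ∑ i ∈ s, c i F p) := by
  classical
  induction s using Finset.induction_on with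
  | empty => exact Inv1.zero.congr fun _ _ _ => by simp
  | insert i s his ih =>
    exact ((h i (mem_insert_self i s)).add (ih fun k hk => h k (mem_insert_of_mem hk))).congr
      fun {F Lam t N} _ p _ => (sum_insert (f := fun k => c k F p) his).symm

/-- The criterion is a multiplier. -/
theorem inv1_criterion (ha : 9 ≤ B.a) (hg : DetLow B) (hw : WLow B) :
    Inv1 B (fun F p => criterion B.η F p) := by
  have hs : Inv1 B (fun F p =>
      ∑ k ∈ range 6, ∑ j ∈ range k, detChain B.η F j k p * detChain B.η F j k p) :=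
    Inv1.fin_sum (range 6) (c := fun k F p =>
        ∑ j ∈ range k, detChain B.η F j k p * detChain B.η F j k p) fun k hk =>
      Inv1.fin_sum (range k) (c := fun j F p => detChain B.η F j k p * detChain B.η F j k p)
        fun j hj => by
        have := mem_range.1 hk; have := mem_range.1 hj
        exact (mult_detChain ha hg hw (by omega) (by omega)).inv1.mul
          (t_detChain ha hg hw (by omega) (by omega)) (by omega)
  exact (((mult_mainMult ha hg hw).inv1.mul (t_mainMult ha hg hw) (by omega)).add hs).congr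
      fun {F Lam t N} _ p _ => by simp only [criterion, pow_two]

/-- A tame function plus a fixed cut. -/
lemma t_cut {c : (R2 → V4) → R2 → ℝ} (hc : Tame B r c) {η : R2 → ℝ} (hη : Smooth2 η) :
    Tame B r (fun F p => c F p + (1 - η p)) :=
  hc.add (((Tame.const (1 : ℝ)).sub (Tame.fix hη)).mono (Nat.zero_le r))

/-- The right inverse where the criterion is bounded below; the last denominator has its own cut
`η'`, which may be supported inside the set where the cut of the jets equals one. -/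
theorem exists_inverse (ha : 9 ≤ B.a) (hg : DetLow B) (hw : WLow B) {η' : R2 → ℝ}
    (hη' : Smooth2 η') (hη'O : ∀ p ∈ B.O, η' p = 1)
    (hc : ∀ {F Lam t N}, B.Good F Lam t N → ∀ p, Lam⁻¹ ≤ criterion B.η F p + (1 - η' p)) :
    Inv1 B (fun _ _ => 1) := by
  have hden : Tame B 8 (fun F p => (criterion B.η F p + (1 - η' p))⁻¹) :=
    (t_cut (t_criterion ha hg hw) hη').inv (by omega) 1 fun hF p => by simpa using hc hF p
  have h1 := inv1_criterion ha hg hw
  refine (h1.mul hden (by omega)).congr fun {F Lam t N} hF p hp => ?_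
  have h := hc hF p
  have hL : 0 < Lam⁻¹ := inv_pos.2 (by linarith [hF.one_le])
  rw [mul_inv_eq_one₀ (by linarith), hη'O p hp, sub_self, add_zero]

/-- A lower bound survives a small perturbation. -/
lemma stable {c : (R2 → V4) → R2 → ℝ} (hc : Tame B r c) (hr : r ≤ B.a) :
    ∃ (q : ℕ) (C : ℝ), 0 ≤ C ∧ ∀ {F F' Lam}, B.Good F Lam Lam B.a → B.Good F' Lam Lam B.a →
      ∀ p, c F' p - C * (Lam ^ q * pn B.a (fun p => F p - F' p)) ≤ c F p := by
  obtain ⟨q, C, hC, hl⟩ := hc.lip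
  refine ⟨q, C 0, hC 0, fun hF hF' p => ?_⟩
  have h := (norm_le_pn ((hc.smooth hF).sub (hc.smooth hF')) 0 p).trans (hl hF hF' 0 (by omega))
  rw [Real.norm_eq_abs, abs_le] at h
  linarith [h.1]

end

/-- The calculus in a cell whose map is a perturbation of a map bounded by `K`. -/
def cellBase (K : ℕ → ℝ) {η : R2 → ℝ} (hη : Smooth2 η) (hη1 : ∀ p, η p ≤ 1) {O : Set R2}
    (hO : IsOpen O) (hηO : ∀ p ∈ O, η p = 1) (adm : (R2 → V4) → ℝ → Prop) : Base :=
  ⟨9, fun j => |K j| + 1, O, hO, η, hη, hηO, hη1, adm⟩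

section

variable (K : ℕ → ℝ) {η : R2 → ℝ} (hη : Smooth2 η) (hη1 : ∀ p, η p ≤ 1) {O : Set R2}
  (hO : IsOpen O) (hηO : ∀ p ∈ O, η p = 1)

lemma good_cell (adm : (R2 → V4) → ℝ → Prop) {L t : ℝ} (hL : 2 ≤ L) {F0 x : R2 → V4} {N : ℕ}
    (hF0 : Smooth2 F0) (hF0K : ∀ i, pn i F0 ≤ K i * L ^ i) (hx : Smooth2 x) (ht : L ^ 2 ≤ t)
    (hxt : ∀ j ≤ N, pn j x ≤ t ^ (j - 9)) (hadm : adm (fun q => F0 q + x q) (L ^ 2)) :
    (cellBase K hη hη1 hO hηO adm).Good (fun q => F0 q + x q) (L ^ 2) t N where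
  smooth := hF0.add hx
  one_le := one_le_pow₀ (by linarith)
  le_t := ht
  adm := hadm
  bound j hj := by
    have hM1 : (1 : ℝ) ≤ L ^ 2 := one_le_pow₀ (by linarith)
    have h1 : pn j F0 ≤ |K j| * (L ^ 2) ^ j := (hF0K j).trans (mul_le_mul (le_abs_self _)
      (pow_le_pow_left₀ (by linarith) (le_self_pow₀ (by linarith) (by norm_num)) j) (by positivity)
      (abs_nonneg _))
    have h2 : (1 : ℝ) ≤ t ^ (j - 9) := one_le_pow₀ (hM1.trans ht)
    refine (pn_add_le hF0 hx j).trans ?_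
    show _ ≤ (|K j| + 1) * ((L ^ 2) ^ j * t ^ (j - 9))
    rw [add_mul, one_mul]
    exact add_le_add (h1.trans (mul_le_mul_of_nonneg_left
      (le_mul_of_one_le_right (pow_nonneg (by linarith) j) h2) (abs_nonneg _)))
      ((hxt j hj).trans (le_mul_of_one_le_left (by linarith) (one_le_pow₀ hM1)))

/-- A lower bound of a tame function survives a small correction. -/
lemma lower_step (adm : (R2 → V4) → ℝ → Prop) {r : ℕ} {c : (R2 → V4) → R2 → ℝ}
    (hc : Tame (cellBase K hη hη1 hO hηO adm) r c) (hr : r ≤ 9) :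
    ∃ (q : ℕ) (C : ℝ), 0 ≤ C ∧ ∀ (q' : ℕ) (L : ℝ) (F0 x : R2 → V4), q ≤ q' → 2 + C ≤ L →
      Smooth2 F0 → Smooth2 x → (∀ i, pn i F0 ≤ K i * L ^ i) → pn 9 x ≤ ((L ^ 2) ^ q')⁻¹ →
      adm F0 (L ^ 2) → adm (fun p => F0 p + x p) (L ^ 2) → ∀ p, L⁻¹ ≤ c F0 p →
      (L ^ 2)⁻¹ ≤ c (fun p => F0 p + x p) p := by
  obtain ⟨e, C, hC, st⟩ := stable hc hr
  refine ⟨e + 2, C, hC, fun q' L F0 x hq hL hF0 hx hK hx9 ha0 hax p hp => ?_⟩
  set Mm := L ^ 2
  have hL0 : 0 < L := by linarith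
  have hM1 : 1 ≤ Mm := one_le_pow₀ (by linarith)
  have hLM : L ≤ Mm := le_self_pow₀ (by linarith) (by norm_num)
  have hx9' : pn 9 x ≤ ((Mm) ^ (e + 2))⁻¹ :=
    hx9.trans (inv_anti₀ (by positivity) (pow_le_pow_right₀ hM1 hq))
  have hxt : ∀ j ≤ 9, pn j x ≤ Mm ^ (j - 9) := fun j hj => by
    rw [Nat.sub_eq_zero_of_le hj, pow_zero]
    exact ((pn_mono hj x).trans hx9').trans (inv_le_one_of_one_le₀ (one_le_pow₀ hM1))
  have g0 : (cellBase K hη hη1 hO hηO adm).Good F0 Mm Mm 9 := by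
    have h := good_cell K hη hη1 hO hηO adm (show 2 ≤ L by linarith) hF0 hK
      (x := fun _ => 0) (t := Mm) (N := 9) Smooth2.zero le_rfl (fun j _ => ?_) (by simpa using ha0)
    · simpa using h
    · refine (pn_const_le (0 : V4) j).trans ?_
      rw [norm_zero, mul_zero]
      positivity
  have h1 := st (good_cell K hη hη1 hO hηO adm (show 2 ≤ L by linarith) hF0 hK hx le_rfl hxt hax)
    g0 p
  have hdiff : pn 9 (fun p => (F0 p + x p) - F0 p) ≤ ((Mm) ^ (e + 2))⁻¹ := by simpa using hx9'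
  have h3 : C * (Mm ^ e * pn 9 (fun p => (F0 p + x p) - F0 p)) ≤ Mm⁻¹ := by
    refine (mul_le_mul_of_nonneg_left (mul_le_mul_of_nonneg_left hdiff (by positivity)) hC).trans ?_
    rw [← mul_assoc, ← div_eq_mul_inv, div_le_iff₀ (by positivity), inv_mul_eq_div,
      le_div_iff₀ (by linarith)]
    calc C * Mm ^ e * Mm = C * Mm ^ (e + 1) := by ring
      _ ≤ Mm * Mm ^ (e + 1) := mul_le_mul_of_nonneg_right (by linarith) (by positivity)
      _ = Mm ^ (e + 2) := by ring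
  have h2 : 2 * Mm⁻¹ ≤ L⁻¹ := by
    rw [show Mm = L * L from pow_two L, mul_inv, ← mul_assoc]
    refine mul_le_of_le_one_left (inv_nonneg.2 hL0.le) ?_
    rw [← div_eq_mul_inv, div_le_one hL0]
    linarith
  have h4 : c F0 p - C * (Mm ^ e * pn 9 (fun p => (F0 p + x p) - F0 p)) ≤ c (fun p => F0 p + x p) p :=
    h1
  linarith

/-- Exact correction from a tame right inverse which is valid near the approximate solution. -/
theorem exact_correction_core (adm H0 : (R2 → V4) → ℝ → Prop)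
    (hinvB : Inv1 (cellBase K hη hη1 hO hηO adm) fun _ _ => 1)
    (hstB : ∃ (q : ℕ) (C : ℝ), 0 ≤ C ∧ ∀ (L : ℝ) (F0 x : R2 → V4), 2 + C ≤ L → Smooth2 F0 →
      Smooth2 x → (∀ i, pn i F0 ≤ K i * L ^ i) → H0 F0 L → pn 9 x ≤ ((L ^ 2) ^ q)⁻¹ →
      adm (fun p => F0 p + x p) (L ^ 2))
    {radial : R2 → ℝ} (hrad : Smooth2 radial) {R : ℝ} (hR : 0 < R)
    (hsub : ∀ p, radial p ≤ 2 * R → p ∈ O) (m k : ℕ) :
    ∃ (a n : ℕ) (L₀ : ℝ), ∀ E : ℕ → ℝ, ∃ G : ℕ → ℕ → ℝ, ∀ L : ℝ, L₀ ≤ L → ∀ (F0 : R2 → V4) (g : R2 → Fin 3 → ℝ),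
      Smooth2 F0 → Smooth2 g → (∀ i, pn i F0 ≤ K i * L ^ i) → (∀ i, pn i g ≤ K i * L ^ i) →
      (∀ p, R * (2 - 1 / L) < radial p → metF F0 p = g p) →
      H0 F0 L →
      (∀ i ≤ a, pn i (fun p => metF F0 p - g p) * L ^ n ≤ 1) →
      (∀ N, ∀ i ≤ a, pn i (fun p => metF F0 p - g p) * L ^ N ≤ E N) →
      ∃ x : R2 → V4, Smooth2 x ∧ (∀ p, 2 * R ≤ radial p → x p = 0) ∧ pn m x ≤ (L ^ k)⁻¹ ∧
        (∀ i N, pn i x * L ^ N ≤ G i N) ∧
        ∀ p, metF (fun q => F0 q + x q) p = g p := by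
  obtain ⟨M, hM, hinv⟩ := hinvB
  obtain ⟨q0, C0, hC0, hst⟩ := hstB
  obtain ⟨r, qM, CM, hCM, hb⟩ := hM.bound
  set a := max (max 9 m) r
  set q := q0 + qM + k + 1
  set P : Setup V4 (Fin 3 → ℝ) :=
    ⟨metB, radial, R, a, fun j => |K j|, CM, hrad, hR, by omega⟩
  obtain ⟨Lam₀, hex⟩ := exists_exact_bound P
  refine ⟨a, 2 * q * Newton.smallExp a, 2 + C0 + |Lam₀|,
    fun E => ?_⟩
  obtain ⟨G, hG⟩ := hex fun N => E (2 * q * N)
  refine ⟨fun i N => G i N, fun L hL F0 g hF0 hg hF0K hgK hsupp hH hsmall hE => ?_⟩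
  have hL2 : 2 ≤ L := by linarith [abs_nonneg Lam₀]
  set Mm := L ^ 2
  set Lam := Mm ^ q
  have hLM : L ≤ Mm := le_self_pow₀ (by linarith) (by norm_num)
  have hM1 : 1 ≤ Mm := by linarith
  have hMLam : Mm ≤ Lam := le_self_pow₀ hM1 (by omega)
  have hLam1 : 1 ≤ Lam := hM1.trans hMLam
  have hL0 : 0 ≤ L := by linarith
  have hadm : ∀ x : R2 → V4, Smooth2 x → pn a x ≤ Lam⁻¹ → adm (fun q => F0 q + x q) Mm :=
    fun x hx hxa => hst L F0 x (by linarith [abs_nonneg Lam₀]) hF0 hx hF0K hH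
      (((pn_mono (show 9 ≤ a by omega) x).trans hxa).trans
        (inv_anti₀ (by positivity) (pow_le_pow_right₀ hM1 (by omega))))
  have good : ∀ (x : R2 → V4) (t : ℝ) (N : ℕ), Smooth2 x → Lam ≤ t → pn a x ≤ Lam⁻¹ →
      (∀ j ≤ N, pn j x ≤ t ^ (j - a)) → (cellBase K hη hη1 hO hηO adm).Good (fun q => F0 q + x q) Mm t N :=
    fun x t N hx ht hxa hxt => good_cell K hη hη1 hO hηO adm hL2 hF0 hF0K hx (hMLam.trans ht)
      (fun j hj => (hxt j hj).trans (pow_le_pow_right₀ (hLam1.trans ht) (by omega)))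
      (hadm x hx hxa)
  have good0 : ∀ x : R2 → V4, Smooth2 x → pn a x ≤ Lam⁻¹ → (cellBase K hη hη1 hO hηO adm).Good (fun q => F0 q + x q) Mm Lam a :=
    fun x hx hxa => good x Lam a hx le_rfl hxa fun j hj => by
      rw [Nat.sub_eq_zero_of_le hj, pow_zero]
      exact ((pn_mono hj x).trans hxa).trans (inv_le_one_of_one_le₀ hLam1)
  have herr : ∀ (x : R2 → V4) (s : ℝ), Smooth2 x → L ≤ s →
      (∀ p, R * (2 - 1 / s) < radial p → x p = 0) → ∀ p, R * (2 - 1 / s) < radial p →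
      P.errMap F0 g x =ᶠ[𝓝 p] 0 := by
    intro x s hx hs hsup p hp
    have hop : IsOpen {q | R * (2 - 1 / s) < radial q} :=
      isOpen_lt continuous_const hrad.1.continuous
    filter_upwards [hop.mem_nhds hp] with q hq
    have e : (fun y => F0 y + x y) =ᶠ[𝓝 q] F0 := by
      filter_upwards [hop.mem_nhds hq] with y hy
      rw [hsup y hy, add_zero]
    show metB (fderiv ℝ (fun y => F0 y + x y) q) (fderiv ℝ (fun y => F0 y + x y) q) - g q = 0
    rw [e.fderiv_eq, metB_self, hsupp q ?_, sub_self]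
    refine lt_of_le_of_lt (mul_le_mul_of_nonneg_left ?_ hR.le) hq
    linarith [one_div_le_one_div_of_le (by linarith : (0 : ℝ) < L) hs]
  have hfar : ∀ p, 2 * R < radial p → ∀ s : ℝ, 1 ≤ s → R * (2 - 1 / s) < radial p :=
    fun p hp s hs => by
      have : 0 < 1 / s := by positivity
      nlinarith
  have herr2 : ∀ x : P.corrSub, ∀ p, 2 * R < radial p → P.errMap F0 g x.1 =ᶠ[𝓝 p] 0 := by
    intro x p hp
    have hop : IsOpen {q | 2 * R < radial q} := isOpen_lt continuous_const hrad.1.continuous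
    filter_upwards [hop.mem_nhds hp] with q hq
    have e : (fun y => F0 y + x.1 y) =ᶠ[𝓝 q] F0 := by
      filter_upwards [hop.mem_nhds hq] with y hy
      rw [x.2.2 y hy, add_zero]
    show metB (fderiv ℝ (fun y => F0 y + x.1 y) q) (fderiv ℝ (fun y => F0 y + x.1 y) q) - g q = 0
    rw [e.fderiv_eq, metB_self, hsupp q (hfar q hq L (by linarith)), sub_self]
  have hsm : ∀ x : P.corrSub, Smooth2 (P.errMap F0 g x.1) := fun x =>
    P.smooth2_errMap hF0 hg x.2.1
  classical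
  set w : P.corrSub → R2 → V4 := fun x => M (fun q => F0 q + x.1 q) (P.errMap F0 g x.1)
  have hw : ∀ x : P.corrSub, pn a x.1 ≤ Lam⁻¹ → w x ∈ P.corrSub := fun x hxa =>
    ⟨hM.smooth (good0 x.1 x.2.1 hxa) (hsm x), fun p hp =>
      (hM.loc _ _ p (herr2 x p hp)).eq_of_nhds⟩
  set inv : P.corrSub → P.corrSub := fun x =>
    if h : pn a x.1 ≤ Lam⁻¹ then ⟨w x, hw x h⟩ else 0
  have hinvw : ∀ x : P.corrSub, pn a x.1 ≤ Lam⁻¹ → (inv x).1 = w x := fun x h => by
    simp [inv, dif_pos h]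
  have hKpow : ∀ i, L ^ i ≤ Lam ^ i := fun i => pow_le_pow_left₀ hL0 (hLM.trans hMLam) i
  set D : P.Problem :=
    { Lam := Lam
      F0 := F0
      g := g
      inv := inv
      one_le := hLam1
      F0_smooth := hF0
      g_smooth := hg
      F0_le := fun i => (hF0K i).trans
        (mul_le_mul (le_abs_self _) (hKpow i) (by positivity) (abs_nonneg _))
      g_le := fun i => (hgK i).trans
        (mul_le_mul (le_abs_self _) (hKpow i) (by positivity) (abs_nonneg _))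
      inv_eq := fun x hxa p => by
        rw [hinvw x hxa]
        have hlin : ∀ u, P.lin (fun q => F0 q + x.1 q) u p = linM (fun q => F0 q + x.1 q) u p := by
          intro u
          simp only [Setup.lin, P, metB_apply]
          funext l
          fin_cases l <;> simp [linM, Algebra.dx, Algebra.dy, real_inner_comm] <;> ring
        rcases le_or_gt (radial p) (2 * R) with hp | hp
        · rw [hlin]
          exact (hinv (good0 x.1 x.2.1 hxa) _ (hsm x) p (hsub p hp)).trans (one_smul ℝ _)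
        · rw [(herr2 x p hp).eq_of_nhds]
          have e : fderiv ℝ (w x) p = 0 := by
            rw [(hM.loc _ _ p (herr2 x p hp)).fderiv_eq]
            simp
          simp [Setup.lin, e]
      inv_sup := fun s x hs hxa hsup p hp => by
        rw [hinvw x hxa]
        exact (hM.loc _ _ p (herr x.1 s x.2.1 ((hLM.trans hMLam).trans hs) hsup p hp)).eq_of_nhds
      inv_le := fun i t δ x ht hxa hxt he => by
        rw [hinvw x hxa]
        have hδ := delta_nonneg he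
        have ht1 : 1 ≤ t := hLam1.trans ht
        refine (hb (good x.1 t (i + a) x.2.1 ht hxa hxt) (hsm x) i δ (by omega)
          fun j hj => he j (show j ≤ i + a by omega)).trans ?_
        show _ ≤ CM i * Lam ^ (a * (i + 1)) * t ^ (i + a) * δ
        rw [← mul_assoc, ← mul_assoc]
        refine mul_le_mul_of_nonneg_right (mul_le_mul (mul_le_mul_of_nonneg_left ?_ (hCM i))
          (pow_le_pow_right₀ ht1 (by omega)) (by positivity)
          (mul_nonneg (hCM i) (by positivity))) hδ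
        refine (pow_le_pow_right₀ hM1 (?_ : qM * (i + 1) ≤ q * (a * (i + 1)))).trans_eq
          (pow_mul Mm q _)
        rw [← Nat.mul_assoc]
        exact Nat.mul_le_mul_right _ (le_trans (by omega) (Nat.le_mul_of_pos_right q (by omega))) }
  have e : P.errMap F0 g 0 = fun p => metF F0 p - g p := funext fun p => by
    show metB (fderiv ℝ (fun q => F0 q + (0 : R2 → V4) q) p)
      (fderiv ℝ (fun q => F0 q + (0 : R2 → V4) q) p) - g p = _
    simp only [Pi.zero_apply, add_zero, metB_self]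
  have hpow : ∀ N, Lam ^ N = L ^ (2 * q * N) := fun N => by
    rw [← pow_mul, ← pow_mul, Nat.mul_assoc]
  obtain ⟨x, hx, hxv, hxa, hxb, hxe⟩ := hG D (show Lam₀ ≤ Lam by
    linarith [le_abs_self Lam₀, hLM.trans hMLam]) (fun i hi => by
      show pn i (P.errMap F0 g 0) * Lam ^ Newton.smallExp a ≤ 1
      rw [e, hpow]
      exact hsmall i hi) fun N i hi => by
      show pn i (P.errMap F0 g 0) * Lam ^ N ≤ E (2 * q * N)
      rw [e, hpow]
      exact hE _ i hi
  refine ⟨x, hx, hxv, ((pn_mono (show m ≤ a by omega) x).trans hxa).trans ?_, fun i N =>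
    le_trans (mul_le_mul_of_nonneg_left (pow_le_pow_left₀ hL0 (hLM.trans hMLam) N) (pn_nonneg i x))
      (hxb i N), fun p => hxe p⟩
  refine inv_anti₀ (pow_pos (by linarith) k) ?_
  show L ^ k ≤ Lam
  exact (pow_le_pow_left₀ hL0 hLM k).trans (pow_le_pow_right₀ hM1 (by omega))

end

/-- Exact correction from the criterion with bounds on every seminorm of the correction, uniform in
the frequency when the initial error is smaller than all its powers. -/
theorem exact_correction_bound (K : ℕ → ℝ) {η : R2 → ℝ} (hη : Smooth2 η) (hη1 : ∀ p, η p ≤ 1)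
    {η' : R2 → ℝ} (hη' : Smooth2 η')
    {O : Set R2} (hO : IsOpen O) (hηO : ∀ p ∈ O, η p = 1) (hη'O : ∀ p ∈ O, η' p = 1) {radial : R2 → ℝ}
    (hrad : Smooth2 radial) {R : ℝ} (hR : 0 < R) (hsub : ∀ p, radial p ≤ 2 * R → p ∈ O)
    (m k : ℕ) :
    ∃ (a n : ℕ) (L₀ : ℝ), ∀ E : ℕ → ℝ, ∃ G : ℕ → ℕ → ℝ, ∀ L : ℝ, L₀ ≤ L → ∀ (F0 : R2 → V4) (g : R2 → Fin 3 → ℝ),
      Smooth2 F0 → Smooth2 g → (∀ i, pn i F0 ≤ K i * L ^ i) → (∀ i, pn i g ≤ K i * L ^ i) →
      (∀ p, R * (2 - 1 / L) < radial p → metF F0 p = g p) →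
      (∀ p, L⁻¹ ≤ detg F0 p + (1 - η p)) → (∀ p, L⁻¹ ≤ Wsq η F0 p + (1 - η p)) →
      (∀ p, L⁻¹ ≤ criterion η F0 p + (1 - η' p)) →
      (∀ i ≤ a, pn i (fun p => metF F0 p - g p) * L ^ n ≤ 1) →
      (∀ N, ∀ i ≤ a, pn i (fun p => metF F0 p - g p) * L ^ N ≤ E N) →
      ∃ x : R2 → V4, Smooth2 x ∧ (∀ p, 2 * R ≤ radial p → x p = 0) ∧ pn m x ≤ (L ^ k)⁻¹ ∧
        (∀ i N, pn i x * L ^ N ≤ G i N) ∧
        ∀ p, metF (fun q => F0 q + x q) p = g p := by
  set B := cellBase K hη hη1 hO hηO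
  set H0 : (R2 → V4) → ℝ → Prop := fun F M => (∀ p, M⁻¹ ≤ detg F p + (1 - η p)) ∧
    (∀ p, M⁻¹ ≤ Wsq η F p + (1 - η p)) ∧ ∀ p, M⁻¹ ≤ criterion η F p + (1 - η' p)
  set A1 : (R2 → V4) → ℝ → Prop := fun F M => ∀ p, M⁻¹ ≤ detg F p + (1 - η p)
  set A2 : (R2 → V4) → ℝ → Prop := fun F M => A1 F M ∧ ∀ p, M⁻¹ ≤ Wsq η F p + (1 - η p)
  set A3 : (R2 → V4) → ℝ → Prop := fun F M => A2 F M ∧ ∀ p, M⁻¹ ≤ criterion η F p + (1 - η' p)
  obtain ⟨q1, C1, hC1, st1⟩ := lower_step K hη hη1 hO hηO (fun _ _ => True)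
    (t_reg (t_detg (B := B fun _ _ => True) le_rfl)) (by norm_num)
  obtain ⟨q2, C2, hC2, st2⟩ := lower_step K hη hη1 hO hηO A1
    (t_reg (t_Wsq (B := B A1) le_rfl fun hF p => hF.adm p)) (by norm_num)
  obtain ⟨q3, C3, hC3, st3⟩ := lower_step K hη hη1 hO hηO A2
    (t_cut (t_criterion (B := B A2) le_rfl (fun hF p => hF.adm.1 p) fun hF p => hF.adm.2 p) hη')
    (by norm_num)
  have hst : ∀ (L : ℝ) (F0 x : R2 → V4), 2 + (C1 + C2 + C3) ≤ L → Smooth2 F0 → Smooth2 x →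
      (∀ i, pn i F0 ≤ K i * L ^ i) → H0 F0 L → pn 9 x ≤ ((L ^ 2) ^ (q1 + q2 + q3))⁻¹ →
      A3 (fun p => F0 p + x p) (L ^ 2) := by
    intro L F0 x hL hF0 hx hK hH hx9
    obtain ⟨hd, hW, hc⟩ := hH
    have low : ∀ v : ℝ, L⁻¹ ≤ v → (L ^ 2)⁻¹ ≤ v := fun v hv =>
      (inv_anti₀ (by linarith) (le_self_pow₀ (by linarith) (by norm_num))).trans hv
    have a1 : A1 (fun p => F0 p + x p) (L ^ 2) := fun p =>
      st1 _ L F0 x (by omega) (by linarith) hF0 hx hK hx9 trivial trivial p (hd p)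
    have a2 : A2 (fun p => F0 p + x p) (L ^ 2) := ⟨a1, fun p =>
      st2 _ L F0 x (by omega) (by linarith) hF0 hx hK hx9 (fun p => low _ (hd p)) a1 p (hW p)⟩
    exact ⟨a2, fun p => st3 _ L F0 x (by omega) (by linarith) hF0 hx hK hx9
      ⟨fun p => low _ (hd p), fun p => low _ (hW p)⟩ a2 p (hc p)⟩
  obtain ⟨a, n, L₀, h⟩ := exact_correction_core K hη hη1 hO hηO A3 H0
    (exists_inverse (B := B A3) le_rfl (fun hF p => hF.adm.1.1 p) (fun hF p => hF.adm.1.2 p) hη'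
      hη'O fun hF p => hF.adm.2 p)
    ⟨q1 + q2 + q3, C1 + C2 + C3, by linarith, hst⟩ hrad hR hsub m k
  exact ⟨a, n, L₀, fun E => (h E).imp fun G hG L hL F0 g h1 h2 h3 h4 h5 hd hW hc => hG L hL F0 g
    h1 h2 h3 h4 h5 ⟨hd, hW, hc⟩⟩

/-- Exact correction from the criterion. The orders `m` and `k` of the smallness of the correction
are free. -/
theorem exact_correction (K : ℕ → ℝ) {η : R2 → ℝ} (hη : Smooth2 η) (hη1 : ∀ p, η p ≤ 1)
    {O : Set R2} (hO : IsOpen O) (hηO : ∀ p ∈ O, η p = 1) {radial : R2 → ℝ}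
    (hrad : Smooth2 radial) {R : ℝ} (hR : 0 < R) (hsub : ∀ p, radial p ≤ 2 * R → p ∈ O)
    (m k : ℕ) :
    ∃ (a n : ℕ) (L₀ : ℝ), ∀ L : ℝ, L₀ ≤ L → ∀ (F0 : R2 → V4) (g : R2 → Fin 3 → ℝ),
      Smooth2 F0 → Smooth2 g → (∀ i, pn i F0 ≤ K i * L ^ i) → (∀ i, pn i g ≤ K i * L ^ i) →
      (∀ p, R * (2 - 1 / L) < radial p → metF F0 p = g p) →
      (∀ p, L⁻¹ ≤ detg F0 p + (1 - η p)) → (∀ p, L⁻¹ ≤ Wsq η F0 p + (1 - η p)) →
      (∀ p, L⁻¹ ≤ criterion η F0 p + (1 - η p)) →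
      (∀ i ≤ a, pn i (fun p => metF F0 p - g p) * L ^ n ≤ 1) →
      ∃ x : R2 → V4, Smooth2 x ∧ (∀ p, 2 * R ≤ radial p → x p = 0) ∧ pn m x ≤ (L ^ k)⁻¹ ∧
        ∀ p, metF (fun q => F0 q + x q) p = g p := by
  obtain ⟨a, n, L₀, h⟩ := exact_correction_bound K hη hη1 hη hO hηO hηO hrad hR hsub m k
  refine ⟨a, n, max L₀ 0, fun L hL F0 g hF0 hg hF0K hgK hsupp hdet hW hcrit hsmall => ?_⟩
  obtain ⟨G, hG⟩ := h fun N => ∑ i ∈ range (a + 1), pn i (fun p => metF F0 p - g p) * L ^ N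
  obtain ⟨x, hx, hxv, hxm, -, hxe⟩ := hG L ((le_max_left _ _).trans hL) F0 g hF0 hg hF0K hgK hsupp
    hdet hW hcrit hsmall fun N i hi =>
    single_le_sum (f := fun i => pn i (fun p => metF F0 p - g p) * L ^ N)
      (fun i _ => mul_nonneg (pn_nonneg i _) (pow_nonneg ((le_max_right L₀ 0).trans hL) N))
      (mem_range.2 (by omega))
  exact ⟨x, hx, hxv, hxm, hxe⟩

end

end Vale.Agent.P205.Algebra
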