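import Vale.Agent.P205.Full.Algebra.Rows

/-!
# P205: the multipliers of the criterion
-/

namespace Vale.Agent.P205.Algebra

open scoped ContDiff Topology RealInnerProductSpace
open Finset Correction

noncomputable section

variable {B : Base} {r : ℕ}

lemma T3_det_basis (e : R2) (ψ : R2 → ℝ) (p : R2) :
    T3 (fun _ => e) (fun _ => 0) (fun _ => 0) ψ p = emb (ψ p • e) := by
  simp [T3, dy_zero]

variable (ha : 9 ≤ B.a) (hg : DetLow B) (hw : WLow B)
include ha hg hw

lemma knownRow_X : KnownRow B (fun F => rowX B.η F) := by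
  have h := KnownRow.dX ha hg hw (knownRow_C ha hg hw)
    ((t_rowC ha hg hw).mono (show 2 ≤ 3 by norm_num)) le_rfl (by omega)
  refine Known.congr h (fun {F Lam t N} _ => ?_) (fun {F Lam t N} _ => ?_) (fun {F Lam t N} _ => ?_)
  · funext p
    simp [dXu, rowX, rowC]
  · funext p
    simp [dXv, rowX, rowC, mulN, dx]
  · funext p
    simp [mulM, rowC]

lemma knownRow_Y : KnownRow B (fun F => rowY B.η F) := by
  refine Known.congr ((knownRow_C ha hg hw).dY (t_rowC ha hg hw))
    (fun {F Lam t N} _ => rfl) (fun {F Lam t N} _ => ?_) (fun {F Lam t N} _ => rfl)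
  funext p
  simp [dYv, rowY, rowC, dy]

lemma knownRow_Box : KnownRow B (fun F => rowBox B.η F) := by
  have hX := t_rowX ha hg hw
  have hY := t_rowY ha hg hw
  obtain ⟨xu, xv⟩ := t_dX ha hg hw hX le_rfl (by omega)
  obtain ⟨yu, yv⟩ := t_dY hX
  obtain ⟨zu, zv⟩ := t_dY hY
  have cb4 := (t_cb ha hg hw).mono (show 2 ≤ 4 by norm_num)
  have ca4 := (t_ca ha hg hw).mono (show 2 ≤ 4 by norm_num)
  have mX := t_mulM ha hg hw (hX.v.mono (Nat.le_succ 3)) (by omega) (by omega)
  have h1 := (KnownRow.dX ha hg hw (knownRow_X ha hg hw) hX le_rfl (by omega)).add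
    (((knownRow_X ha hg hw).dY hX).smul cb4 (by omega)) xv mX (cb4.smul yv (by omega))
    (cb4.smul (hX.v.mono (Nat.le_succ 3)) (by omega))
  refine Known.congr (h1.sub (((knownRow_Y ha hg hw).dY hY).smul ca4 (by omega))
    (xv.add (cb4.smul yv (by omega))) (mX.add (cb4.smul (hX.v.mono (Nat.le_succ 3)) (by omega)))
    (ca4.smul zv (by omega)) (ca4.smul (hY.v.mono (Nat.le_succ 3)) (by omega)))
    (fun _ => rfl) (fun _ => rfl) (fun {F Lam t N} _ => ?_)
  funext p
  refine Prod.ext ?_ ?_ <;> simp [rowX, rowY, mulM, cc] <;> ring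

lemma knownRow_next {E : (R2 → V4) → Row} (h : KnownRow B E) (hE : TameRow B r E) (h3 : 3 ≤ r)
    (hr : r + 1 ≤ B.a) : KnownRow B (fun F => next B.η F (E F)) := by
  have hk := (t_k ha hg hw).1
  have hk2 := (t_k ha hg hw).2
  have hY := (t_rowY ha hg hw).mono h3
  have hp := t_det2 ((t_perp ha hg hw).mono (show 2 ≤ r by omega)) hE.v (by omega)
  have z : Tame B r (fun (_ : R2 → V4) (_ : R2) => (0 : R2)) :=
    (Tame.const _).mono (Nat.zero_le r)
  have k3 := hk.mono (show 2 ≤ r by omega)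
  have hn' : KnownRow B (fun F => norm1 B.η F (E F)) := Known.congr
    ((Known.smul h k3 (by omega)).sub
      ((Known.smul (knownRow_Y ha hg hw) hp (by omega)))
      (k3.smul hE.v (by omega)) (k3.smul z (by omega))
      (hp.smul hY.v (by omega)) (hp.smul z (by omega)))
    (fun _ => rfl) (fun _ => rfl) (fun {F Lam t N} _ => by funext p; simp)
  have hn := t_norm1 ha hg hw hE h3 (show r ≤ B.a by omega)
  obtain ⟨xu, xv⟩ := t_dX ha hg hw hn h3 hr
  obtain ⟨yu, yv⟩ := t_dY hn
  have k14 := hk.mono (show 2 ≤ r + 1 by omega)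
  have k24 := hk2.mono (show 2 ≤ r + 1 by omega)
  have pp := (t_perp ha hg hw).mono (show 2 ≤ r + 1 by omega)
  have hd := (t_det2 (hE.v.mono (Nat.le_succ r)) ((t_cc ha hg hw).mono (by omega)) hr).mul
    (t_det2 pp (t_mulM ha hg hw pp (by omega) hr) hr) hr
  have cyy : Known B (fun F => dy (dy (cc B.η F))) (fun F p => (2 : ℝ) • dy (cc B.η F) p)
      (fun F => cc B.η F) :=
    Known.congr ((knownRow_Y ha hg hw).dY (t_rowY ha hg hw)) (fun _ => rfl)
      (fun {F Lam t N} _ => funext fun p => by simp only [dYv, rowY]; rw [two_smul])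
      (fun _ => rfl)
  have mv := t_mulM ha hg hw (hn.v.mono (Nat.le_succ r)) (by omega) hr
  have nv := hn.v.mono (Nat.le_succ r)
  have h1 := ((KnownRow.dX ha hg hw hn' hn h3 hr).smul k14 hr).sub
    ((hn'.dY hn).smul k24 hr) (k14.smul xv hr) (k14.smul mv hr) (k24.smul yv hr) (k24.smul nv hr)
  refine Known.congr (h1.sub (cyy.smul hd hr) ((k14.smul xv hr).sub (k24.smul yv hr))
    ((k14.smul mv hr).sub (k24.smul nv hr))
    (hd.smul (((Tame.const (2 : ℝ)).mono (Nat.zero_le _)).smul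
      ((t_cc ha hg hw).dy.mono (by omega)) hr) hr)
    (hd.smul ((t_cc ha hg hw).mono (by omega)) hr))
    (fun _ => rfl) (fun _ => rfl) (fun {F Lam t N} _ => ?_)
  funext p
  refine Prod.ext ?_ ?_ <;> simp [norm1, k1, k2, perp, det2, mulM, cc] <;> ring

lemma knownRow_chain : ∀ k, k + 3 ≤ B.a → KnownRow B (fun F => chain B.η F k)
  | 0, _ => knownRow_X ha hg hw
  | k + 1, hk => knownRow_next ha hg hw (knownRow_chain k (by omega))
      (t_chain ha hg hw k (by omega)) (by omega) (by omega)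

omit ha hg hw in
lemma mult_smul {c : (R2 → V4) → R2 → ℝ} (h : Mult B c) (x : ℝ) :
    Mult B (fun F p => x * c F p) := fun k =>
  ((h k).compMul (Tame.const x) (Nat.zero_le _)).congr fun {F Lam t N} _ φ _ p _ => by
    rw [show c F p * (x * φ p) = x * c F p * φ p by ring]

omit ha hg hw in
lemma mult_congr {c c' : (R2 → V4) → R2 → ℝ} (h : Mult B c) (he : ∀ F p, c F p = c' F p) :
    Mult B c' := by
  obtain rfl : c = c' := funext fun F => funext (he F)
  exact h

/-- The determinant of four known rows is a multiplier. -/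
theorem mult_det4 {E1 E2 E3 E4 : (R2 → V4) → Row} (k1 : KnownRow B E1) (k2 : KnownRow B E2)
    (k3 : KnownRow B E3) (k4 : KnownRow B E4) (h1 : TameRow B r E1) (h2 : TameRow B r E2)
    (h3 : TameRow B r E3) (h4 : TameRow B r E4) (hr : r ≤ B.a) :
    Mult B (fun F => det4 (E1 F) (E2 F) (E3 F) (E4 F)) := by
  set E : Fin 4 → (R2 → V4) → Row := ![E1, E2, E3, E4]
  have hE : ∀ i, TameRow B r (E i) ∧ KnownRow B (E i) := by
    intro i; fin_cases i <;>
      first | exact ⟨h1, k1⟩ | exact ⟨h2, k2⟩ | exact ⟨h3, k3⟩ | exact ⟨h4, k4⟩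
  set T : Fin 4 → (R2 → ℝ) → R2 → Fin 3 → ℝ :=
    ![fun ψ p => emb (ψ p, 0), fun ψ p => emb (0, ψ p),
      fun ψ p => emb (-dy ψ p, 0), fun ψ p => emb (0, -dy ψ p)]
  set C : (R2 → V4) → R2 → Matrix (Fin 4) (Fin 4) ℝ := fun F p => Matrix.of fun i =>
    ![((E i F).u p).1, ((E i F).u p).2, ((E i F).v p).1, ((E i F).v p).2]
  have hC : ∀ i j, Tame B r (fun F p => C F p i j) := fun i j => by
    fin_cases j <;>
      first
      | exact (hE i).1.u.fst
      | exact (hE i).1.u.snd
      | exact (hE i).1.v.fst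
      | exact (hE i).1.v.snd
  have base : ∀ k, Solv B (fun F φ p => T k (fun q => (C F q).det * φ q) p) :=
    Solv.cramer hr T
      (fun k f hf p => by
        have e : dy (fun q => ∑ i, f i q) p = ∑ i, dy (f i) p := by
          simp [dy, fderiv_fun_sum fun i _ => Smooth2.diffAt (hf i) p]
        fin_cases k <;> funext l <;> fin_cases l <;>
          simp [T, emb, e, Finset.sum_apply, Finset.sum_div, Finset.sum_neg_distrib, neg_div])
      (fun k p => by
        fin_cases k <;> funext l <;> fin_cases l <;> simp [T, emb, dy])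
      C hC fun i => Solv.congr (hE i).2 fun {F Lam t N} hF φ hφ p _ => by
        have sv : Smooth2 (E i F).v := (hE i).1.v.smooth hF
        have s3 : Smooth2 (fun q => φ q • (E i F).v q) := smooth2_smul hφ sv
        obtain ⟨e1, e2⟩ := dy_fst_snd s3 p
        simp only [Fin.sum_univ_four, T, C, Matrix.of_apply, Matrix.cons_val, Matrix.cons_val_zero,
          Matrix.cons_val_one]
        simp only [T3, smul_zero, dy_zero, add_zero, ← emb_add]
        congr 1
        have f1 : (fun q => ((E i F).v q).1 * φ q) = fun q => (φ q • (E i F).v q).1 :=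
          funext fun q => by simp [mul_comm]
        have f2 : (fun q => ((E i F).v q).2 * φ q) = fun q => (φ q • (E i F).v q).2 :=
          funext fun q => by simp [mul_comm]
        rw [f1, f2, e1, e2]
        refine Prod.ext ?_ ?_ <;> simp <;> ring
  have hdet : ∀ F, det4 (E1 F) (E2 F) (E3 F) (E4 F) = fun q => (C F q).det := fun F =>
    funext fun q => by
      rw [det4]
      congr 1
      ext i j
      fin_cases i <;> fin_cases j <;> rfl
  have hd : Tame B r (fun F q => (C F q).det) := Tame.det hr hC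
  have p0 := base 0
  have p1 := (base 1).compMul (Tame.const (2 : ℝ)) (Nat.zero_le _)
  intro k
  fin_cases k
  · exact p0.congr fun {F Lam t N} _ φ _ p _ => by
      funext l; fin_cases l <;> simp [T, emb, hdet]
  · exact p1.congr fun {F Lam t N} _ φ _ p _ => by
      funext l; fin_cases l <;> simp [T, emb, hdet]; ring
  · refine (((solv_row0 ha hg hw).compMul hd hr).add ((p0.compMul (t_ca ha hg hw) (by omega)).add
      ((base 1).compMul (t_cb ha hg hw) (by omega)))).congr fun {F Lam t N} _ φ _ p _ => ?_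
    funext l; fin_cases l <;> simp [T, emb, hdet] <;> ring

lemma mult_delta4 : Mult B (fun F => delta4 B.η F) :=
  mult_det4 ha hg hw (knownRow_C ha hg hw) (knownRow_X ha hg hw) (knownRow_Y ha hg hw)
    (knownRow_Box ha hg hw) ((t_rowC ha hg hw).mono (by omega)) ((t_rowX ha hg hw).mono (by omega))
    ((t_rowY ha hg hw).mono (by omega)) (t_rowBox ha hg hw) (by omega)

lemma mult_detChain {j k : ℕ} (hj : j ≤ k) (hk : k + 3 ≤ B.a) :
    Mult B (fun F => detChain B.η F j k) :=
  mult_det4 ha hg hw (knownRow_C ha hg hw) (knownRow_Y ha hg hw)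
    (knownRow_chain ha hg hw j (by omega)) (knownRow_chain ha hg hw k hk)
    ((t_rowC ha hg hw).mono (by omega)) ((t_rowY ha hg hw).mono (by omega))
    ((t_chain ha hg hw j (by omega)).mono (by omega)) (t_chain ha hg hw k hk) hk

omit ha hg hw in
/-- The determinant of three rows is a multiplier. -/
theorem mult_det3 {C : (R2 → V4) → R2 → Matrix (Fin 3) (Fin 3) ℝ} (hr : r ≤ B.a)
    (hC : ∀ i j, Tame B r (fun F p => C F p i j))
    (h : ∀ i, Solv B (fun F φ p => φ p • C F p i)) : Mult B (fun F p => (C F p).det) := fun k => by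
  refine Solv.cramer hr (fun j ψ p => ψ p • Pi.single j (1 : ℝ))
    (fun j f _ p => Finset.sum_smul) (fun j p => zero_smul ℝ _) C hC
    (fun i => (h i).congr fun {F Lam t N} _ φ _ p _ => ?_) k
  funext l
  simp [Finset.sum_apply, Pi.single_apply]
  fin_cases l <;> simp <;> ring

omit hw in
/-- Closure: the rows `dφ ∘ e₁`, `dφ ∘ e₂`, `Hess φ` of a multiplier. -/
theorem closure_rows {c : (R2 → V4) → R2 → ℝ} (hm : Mult B c) (hc : Tame B r c)
    (hr : r + 2 ≤ B.a) :
    (Solv B fun F φ p => φ p • ![dx (c F) p, dy (c F) p / 2, 0]) ∧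
    (Solv B fun F φ p => φ p • ![0, dx (c F) p / 2, dy (c F) p]) ∧
    (Solv B fun F φ p => φ p • ![hess11 B.η F (c F) p, hess12 B.η F (c F) p,
      hess22 B.η F (c F) p]) := by
  obtain ⟨a1, a2, a3, b1, b2, b3⟩ := t_G ha hg
  have o : Op B (fun _ φ => φ) := Op.id (B := B) (X := ℝ)
  have c1 := (Solv.of_field (t_v1 ha hg) (show 1 ≤ B.a by omega))
  have c2 := (Solv.of_field (t_v2 ha hg) (show 1 ≤ B.a by omega))
  have hr' : r ≤ B.a := by omega
  -- the components of `linM (φ v)` as operators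
  have u1 := ((hm 0).comp ((o.dx.sub (o.mulc a1 (by omega))).clm ((2 : ℝ) • .id ℝ ℝ))).add
    (((hm 1).comp (o.dy.sub ((o.mulc a2 (by omega)).clm ((2 : ℝ) • .id ℝ ℝ)))).add
    ((hm 2).comp ((o.mulc a3 (by omega)).clm ((-2 : ℝ) • .id ℝ ℝ))))
  have u2 := ((hm 0).comp ((o.mulc b1 (by omega)).clm ((-2 : ℝ) • .id ℝ ℝ))).add
    (((hm 1).comp (o.dx.sub ((o.mulc b2 (by omega)).clm ((2 : ℝ) • .id ℝ ℝ)))).add
    ((hm 2).comp ((o.dy.sub (o.mulc b3 (by omega))).clm ((2 : ℝ) • .id ℝ ℝ))))
  have R1 : Solv B fun F φ p => φ p • ![dx (c F) p, dy (c F) p / 2, 0] := by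
    refine (((c1.compMul hc hr').sub u1).comp (o.clm ((1 / 2 : ℝ) • .id ℝ ℝ))).congr
      fun {F Lam t N} hF φ hφ p hp => ?_
    have sc := hc.smooth hF
    have sh : Smooth2 (fun q => (1 / 2 : ℝ) * φ q) := hφ.const_smul (1 / 2 : ℝ)
    simp only [smul_apply, ContinuousLinearMap.id_apply, smul_eq_mul]
    rw [linM_field ((t_v1 ha hg).smooth hF) hF.smooth B.isOpen_O
      (fun q hq => (dual_frame hg hF hq).1) (fun q hq => (dual_frame hg hF hq).2.1) hp
      (smooth2_mul sc sh)]
    have ex : dx (fun q => c F q * (1 / 2 * φ q)) p = _ := dx_smul sc sh p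
    have ey : dy (fun q => c F q * (1 / 2 * φ q)) p = _ := dy_smul sc sh p
    rw [ex, ey]
    funext l; fin_cases l <;>
      simp [-mul_eq_mul_left_iff, G111, G112, G122] <;> ring
  have R2' : Solv B fun F φ p => φ p • ![0, dx (c F) p / 2, dy (c F) p] := by
    refine (((c2.compMul hc hr').sub u2).comp (o.clm ((1 / 2 : ℝ) • .id ℝ ℝ))).congr
      fun {F Lam t N} hF φ hφ p hp => ?_
    have sc := hc.smooth hF
    have sh : Smooth2 (fun q => (1 / 2 : ℝ) * φ q) := hφ.const_smul (1 / 2 : ℝ)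
    simp only [smul_apply, ContinuousLinearMap.id_apply, smul_eq_mul]
    rw [linM_field ((t_v2 ha hg).smooth hF) hF.smooth B.isOpen_O
      (fun q hq => (dual_frame hg hF hq).2.2.1) (fun q hq => (dual_frame hg hF hq).2.2.2) hp
      (smooth2_mul sc sh)]
    have ex : dx (fun q => c F q * (1 / 2 * φ q)) p = _ := dx_smul sc sh p
    have ey : dy (fun q => c F q * (1 / 2 * φ q)) p = _ := dy_smul sc sh p
    rw [ex, ey]
    funext l; fin_cases l <;>
      simp [-mul_eq_mul_left_iff, G211, G212, G222] <;> ring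
  refine ⟨R1, R2', ?_⟩
  refine ((((c1.compMul (hc.dx.const_mul (1 / 2)) (by omega)).add
    (c2.compMul (hc.dy.const_mul (1 / 2)) (by omega))).sub (R1.comp o.dx)).sub
      (R2'.comp o.dy)).congr fun {F Lam t N} hF φ hφ p hp => ?_
  have sc := hc.smooth hF
  have sx : Smooth2 (fun q => (1 / 2 : ℝ) * dx (c F) q) := (hc.dx.const_mul _).smooth hF
  have sy : Smooth2 (fun q => (1 / 2 : ℝ) * dy (c F) q) := (hc.dy.const_mul _).smooth hF
  rw [linM_field ((t_v1 ha hg).smooth hF) hF.smooth B.isOpen_O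
      (fun q hq => (dual_frame hg hF hq).1) (fun q hq => (dual_frame hg hF hq).2.1) hp
      (smooth2_mul sx hφ),
    linM_field ((t_v2 ha hg).smooth hF) hF.smooth B.isOpen_O
      (fun q hq => (dual_frame hg hF hq).2.2.1) (fun q hq => (dual_frame hg hF hq).2.2.2) hp
      (smooth2_mul sy hφ)]
  have cm : ∀ f : R2 → ℝ, Smooth2 f → dx (fun q => (1 / 2 : ℝ) * f q) p = 1 / 2 * dx f p ∧
      dy (fun q => (1 / 2 : ℝ) * f q) p = 1 / 2 * dy f p := fun f hf => by
    simp [dx, dy, fderiv_const_mul (Smooth2.diffAt hf p)]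
  have e1 : dx (fun q => 1 / 2 * dx (c F) q * φ q) p = _ := dx_smul sx hφ p
  have e2 : dy (fun q => 1 / 2 * dx (c F) q * φ q) p = _ := dy_smul sx hφ p
  have e3 : dx (fun q => 1 / 2 * dy (c F) q * φ q) p = _ := dx_smul sy hφ p
  have e4 : dy (fun q => 1 / 2 * dy (c F) q * φ q) p = _ := dy_smul sy hφ p
  rw [e1, e2, e3, e4, (cm _ (smooth2_dx sc)).1, (cm _ (smooth2_dx sc)).2,
    (cm _ (smooth2_dy sc)).1, (cm _ (smooth2_dy sc)).2, d_comm sc p]
  funext l; fin_cases l <;>
    simp [-mul_eq_mul_left_iff, hess11, hess12, hess22, G111, G112, G122, G211, G212, G222] <;>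
    ring

lemma solv_rho1 : Solv B fun F φ p => φ p • ![cP B.η F p, cR B.η F p / 2, 0] :=
  solv_row1 ha hg hw

theorem mult_pHess {c : (R2 → V4) → R2 → ℝ} (hm : Mult B c) (hc : Tame B r c)
    (hr : r + 2 ≤ B.a) : Mult B (fun F => pHess B.η F (c F)) := by
  obtain ⟨-, -, hH⟩ := closure_rows ha hg hm hc hr
  obtain ⟨t1, t2, t3⟩ := t_hess ha hg hc hr
  have z : ∀ x : ℝ, Tame B (r + 2) (fun _ _ => x) := fun x => (Tame.const x).mono (Nat.zero_le _)
  have m : ∀ {f : (R2 → V4) → R2 → ℝ}, Tame B 2 f → Tame B (r + 2) f := fun h =>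
    h.mono (Nat.le_add_left 2 r)
  have := mult_det3 (C := fun F p => !![-ca B.η F p, -(cb B.η F p) / 2, (1 : ℝ);
      cP B.η F p, cR B.η F p / 2, 0;
      hess11 B.η F (c F) p, hess12 B.η F (c F) p, hess22 B.η F (c F) p]) hr (fun i j => ?_)
    (fun i => ?_)
  · refine mult_congr (mult_smul this 2) fun F p => ?_
    simp [Matrix.det_fin_three, pHess]
    ring
  · fin_cases i <;> fin_cases j
    · exact m (t_ca ha hg hw).neg
    · exact (m (t_cb ha hg hw).neg).clm ((1 / 2 : ℝ) • .id ℝ ℝ) |>.congr fun F p => by simp; ring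
    · exact z 1
    · exact m (t_cP ha hg hw)
    · exact (m (t_cR ha hg hw)).clm ((1 / 2 : ℝ) • .id ℝ ℝ) |>.congr fun F p => by simp; ring
    · exact z 0
    · exact t1
    · exact t2
    · exact t3
  · fin_cases i
    · exact solv_row0 ha hg hw
    · exact solv_rho1 ha hg hw
    · exact hH

theorem mult_m0 {c : (R2 → V4) → R2 → ℝ} (hm : Mult B c) (hc : Tame B r c) (h1 : 1 ≤ r)
    (hr : r + 2 ≤ B.a) : Mult B (fun F => m0 B.η F (c F)) := by
  obtain ⟨hR1, hR2, -⟩ := closure_rows ha hg hm hc hr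
  have z : ∀ x : ℝ, Tame B (r + 1) (fun _ _ => x) := fun x => (Tame.const x).mono (Nat.zero_le _)
  have half : ∀ {f : (R2 → V4) → R2 → ℝ}, Tame B (r + 1) f →
      Tame B (r + 1) (fun F p => f F p / 2) := fun h =>
    (h.clm ((1 / 2 : ℝ) • .id ℝ ℝ)).congr fun F p => by simp; ring
  have := mult_det3 (C := fun F p => !![-ca B.η F p, -(cb B.η F p) / 2, (1 : ℝ);
      dx (c F) p, dy (c F) p / 2, 0; 0, dx (c F) p / 2, dy (c F) p])
    (show r + 1 ≤ B.a by omega) (fun i j => ?_) (fun i => ?_)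
  · refine mult_congr (mult_smul this 2) fun F p => ?_
    simp [Matrix.det_fin_three, m0]
    ring
  · fin_cases i <;> fin_cases j
    · exact ((t_ca ha hg hw).mono (by omega)).neg
    · exact half ((t_cb ha hg hw).mono (by omega)).neg
    · exact z 1
    · exact hc.dx
    · exact half hc.dy
    · exact z 0
    · exact z 0
    · exact half hc.dx
    · exact hc.dy
  · fin_cases i
    · exact solv_row0 ha hg hw
    · exact hR1
    · exact hR2

lemma mult_mainMult : Mult B (fun F => mainMult B.η F) :=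
  mult_m0 ha hg hw (mult_pHess ha hg hw (mult_delta4 ha hg hw) (t_delta4 ha hg hw) (by omega))
    (t_pHess ha hg hw (t_delta4 ha hg hw) (by omega)) (by omega) (by omega)

end

end Vale.Agent.P205.Algebra
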