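import Vale.Agent.P205.Full.Algebra.Tame

/-!
# P205: tame operators and solvable right-hand sides

`Op B M` is a local operator with loss of derivatives and tame bounds.  `Solv B A` says that the
linearised equation `linM F u = A F φ` is solved by such an operator on the set `B.O`.
-/

namespace Vale.Agent.P205.Algebra

open scoped ContDiff Topology RealInnerProductSpace
open Finset Correction

noncomputable section

variable {B : Base} {U X Y Z : Type*} [NormedAddCommGroup U] [NormedSpace ℝ U]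
  [NormedAddCommGroup X] [NormedSpace ℝ X] [NormedAddCommGroup Y] [NormedSpace ℝ Y]
  [NormedAddCommGroup Z] [NormedSpace ℝ Z]

/-- The linearised metric in the components `(xx, xy, yy)`. -/
def linM (F u : R2 → V4) (p : R2) : Fin 3 → ℝ :=
  ![2 * ⟪dx F p, dx u p⟫, ⟪dx F p, dy u p⟫ + ⟪dy F p, dx u p⟫, 2 * ⟪dy F p, dy u p⟫]

/-- Local tame operators. -/
structure Op (B : Base) (M : (R2 → V4) → (R2 → X) → R2 → U) : Prop where
  smooth : ∀ {F Lam t N h}, B.Good F Lam t N → Smooth2 h → Smooth2 (M F h)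
  loc : ∀ F h p, h =ᶠ[𝓝 p] 0 → M F h =ᶠ[𝓝 p] 0
  lin : ∀ {F Lam t N h h'}, B.Good F Lam t N → Smooth2 h → Smooth2 h' → ∀ (c : ℝ) (p : R2),
    M F (fun q => h q + c • h' q) p = M F h p + c • M F h' p
  bound : ∃ (r q : ℕ) (C : ℕ → ℝ), (∀ i, 0 ≤ C i) ∧ ∀ {F Lam t N h}, B.Good F Lam t N →
    Smooth2 h → ∀ i δ, i + r ≤ N → (∀ j ≤ i + r, pn j h ≤ δ * t ^ j) →
      pn i (M F h) ≤ C i * (Lam ^ (q * (i + 1)) * t ^ (i + r) * δ)

lemma delta_nonneg {h : R2 → X} {δ t : ℝ} {i : ℕ} (hh : ∀ j ≤ i, pn j h ≤ δ * t ^ j) : 0 ≤ δ := by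
  simpa using (pn_nonneg 0 h).trans (hh 0 (Nat.zero_le i))

namespace Op

variable {M M' : (R2 → V4) → (R2 → X) → R2 → U}

lemma congr (hM : Op B M) (h : ∀ F φ p, M F φ p = M' F φ p) : Op B M' := by
  obtain rfl : M = M' := funext fun F => funext fun φ => funext (h F φ)
  exact hM

lemma id : Op B (fun _ (h : R2 → X) => h) := by
  refine ⟨fun _ h => h, fun _ _ _ h => h, fun _ _ _ _ _ => rfl, 0, 0, fun _ => 1, fun _ => zero_le_one,
    fun {F Lam t N h} hF hh i δ hi hb => ?_⟩
  exact (hb i le_rfl).trans (le_of_eq (by simp [mul_comm]))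

lemma zero : Op B (fun _ (_ : R2 → X) _ => (0 : U)) := by
  refine ⟨fun _ _ => Smooth2.zero, fun _ _ _ _ => Filter.EventuallyEq.rfl,
    fun _ _ _ _ _ => by simp, 0, 0, fun _ => 0,
    fun _ => le_rfl, fun {F Lam t N h} hF hh i δ hi hb => ?_⟩
  rw [zero_mul]
  exact (pn_const_le (0 : U) i).trans (by simp)

lemma clm (hM : Op B M) (L : U →L[ℝ] Y) : Op B (fun F h p => L (M F h p)) := by
  obtain ⟨r, q, C, hC, hb⟩ := hM.bound
  refine ⟨fun hF hh => (hM.smooth hF hh).clm L, fun F h p hh => ?_,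
    fun hF hh hh' c p => by simp [hM.lin hF hh hh' c p], r, q, fun i => ‖L‖ * C i,
    fun i => mul_nonneg (norm_nonneg _) (hC i), fun hF hh i δ hi hd => ?_⟩
  · filter_upwards [hM.loc F h p hh] with x hx
    simp [hx]
  · rw [mul_assoc]
    exact (pn_clm_le (hM.smooth hF hh) L i).trans
      (mul_le_mul_of_nonneg_left (hb hF hh i δ hi hd) (norm_nonneg _))

lemma neg (hM : Op B M) : Op B (fun F h p => -M F h p) :=
  (hM.clm (-ContinuousLinearMap.id ℝ U)).congr fun _ _ _ => by simp

lemma add (hM : Op B M) (hM' : Op B M') : Op B (fun F h p => M F h p + M' F h p) := by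
  obtain ⟨r, q, C, hC, hb⟩ := hM.bound
  obtain ⟨r', q', C', hC', hb'⟩ := hM'.bound
  refine ⟨fun hF hh => (hM.smooth hF hh).add (hM'.smooth hF hh), fun F h p hh => ?_,
    fun hF hh hh' c p => by simp [hM.lin hF hh hh' c p, hM'.lin hF hh hh' c p]; abel,
    max r r', max q q', fun i => C i + C' i, fun i => add_nonneg (hC i) (hC' i),
    fun {F Lam t N h} hF hh i δ hi hd => ?_⟩
  · filter_upwards [hM.loc F h p hh, hM'.loc F h p hh] with x hx hx'
    simp [hx, hx']
  · have hδ := delta_nonneg hd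
    have hL := hF.one_le
    have ht := hF.one_le_t
    rw [add_mul]
    refine (pn_add_le (hM.smooth hF hh) (hM'.smooth hF hh) i).trans (add_le_add
      ((hb hF hh i δ (by omega) fun j hj => hd j (by omega)).trans ?_)
      ((hb' hF hh i δ (by omega) fun j hj => hd j (by omega)).trans ?_)) <;>
    · refine mul_le_mul_of_nonneg_left (mul_le_mul_of_nonneg_right (mul_le_mul
        (pow_le_pow_right₀ hL (Nat.mul_le_mul_right _ (by omega)))
        (pow_le_pow_right₀ ht (by omega)) (by positivity) (by positivity)) hδ) ?_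
      first | exact hC i | exact hC' i

lemma sub (hM : Op B M) (hM' : Op B M') : Op B (fun F h p => M F h p - M' F h p) :=
  (hM.add hM'.neg).congr fun _ _ _ => (sub_eq_add_neg _ _).symm

lemma fin_sum {ι : Type*} (s : Finset ι) {M : ι → (R2 → V4) → (R2 → X) → R2 → U}
    (hM : ∀ k, Op B (M k)) : Op B (fun F h p => ∑ k ∈ s, M k F h p) := by
  classical
  induction s using Finset.induction_on with
  | empty => exact zero.congr fun _ _ _ => by simp
  | insert i s his ih =>
    exact ((hM i).add ih).congr fun F h p => (sum_insert (f := fun k => M k F h p) his).symm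

/-- Multiplication by a tame coefficient. -/
lemma bilin {r : ℕ} {c : (R2 → V4) → R2 → Y} (β : Y →L[ℝ] U →L[ℝ] Z) (hc : Tame B r c)
    (hM : Op B M) (hr : r ≤ B.a) : Op B (fun F h p => β (c F p) (M F h p)) := by
  obtain ⟨r', q', C', hC', hb'⟩ := hM.bound
  obtain ⟨q, C, hC, hb⟩ := hc.bound
  refine ⟨fun hF hh => (hc.smooth hF).bilin (hM.smooth hF hh) β, fun F h p hh => ?_,
    fun hF hh hh' c p => by simp [hM.lin hF hh hh' c p],
    max r r', 2 * (q + q'), fun i => bilNorm β * (i + 1) * 2 ^ i *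
      ∑ l ∈ range (i + 1), C l * C' (i - l), fun i => ?_,
    fun {F Lam t N h} hF hh i δ hi hd => ?_⟩
  · filter_upwards [hM.loc F h p hh] with x hx
    simp [hx]
  · have : 0 ≤ ∑ l ∈ range (i + 1), C l * C' (i - l) :=
      sum_nonneg fun l _ => mul_nonneg (hC l) (hC' _)
    have := bilNorm_nonneg β
    positivity
  · have hδ := delta_nonneg hd
    refine (pn_bilin_bound β (hc.smooth hF) (hM.smooth hF hh) i hF.one_le hF.one_le_t hC
      (A' := fun l => C' l * δ) (fun l => mul_nonneg (hC' l) hδ) (fun l hl => hb hF l (by omega))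
      (e2 := fun l => q' * (l + 1)) (f2 := fun l => l + r')
      (e := 2 * (q + q') * (i + 1)) (f := i + max r r')
      (fun l hl => (hb' hF hh l δ (by omega) fun j hj => hd j (by omega)).trans
        (le_of_eq (by ring)))
      (fun l hl => ?_) (fun l hl => by omega)).trans (le_of_eq ?_)
    · have h1 : q * (l + 1) ≤ q * (2 * (i + 1)) := Nat.mul_le_mul_left q (by omega)
      have h2 : q' * (i - l + 1) ≤ q' * (2 * (i + 1)) := Nat.mul_le_mul_left q' (by omega)
      linarith
    · simp only [mul_sum, sum_mul]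
      exact sum_congr rfl fun l _ => by ring

lemma smulc {r : ℕ} {c : (R2 → V4) → R2 → ℝ} (hc : Tame B r c) (hM : Op B M) (hr : r ≤ B.a) :
    Op B (fun F h p => c F p • M F h p) :=
  bilin (ContinuousLinearMap.lsmul ℝ ℝ) hc hM hr

lemma mulc {r : ℕ} {c : (R2 → V4) → R2 → ℝ} {M : (R2 → V4) → (R2 → X) → R2 → ℝ}
    (hc : Tame B r c) (hM : Op B M) (hr : r ≤ B.a) : Op B (fun F h p => c F p * M F h p) :=
  bilin (ContinuousLinearMap.mul ℝ ℝ) hc hM hr

lemma smulv {r : ℕ} {v : (R2 → V4) → R2 → Y} {M : (R2 → V4) → (R2 → X) → R2 → ℝ}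
    (hv : Tame B r v) (hM : Op B M) (hr : r ≤ B.a) : Op B (fun F h p => M F h p • v F p) :=
  bilin (ContinuousLinearMap.lsmul ℝ ℝ).flip hv hM hr

lemma deriv (hM : Op B M) : Op B (fun F h => fderiv ℝ (M F h)) := by
  obtain ⟨r, q, C, hC, hb⟩ := hM.bound
  refine ⟨fun hF hh => (hM.smooth hF hh).fderiv, fun F h p hh => ?_, fun hF hh hh' c p => ?_, r + 1, 2 * q,
    fun i => C (i + 1), fun i => hC _, fun {F Lam t N h} hF hh i δ hi hd => ?_⟩
  · have := (hM.loc F h p hh).fderiv (𝕜 := ℝ)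
    filter_upwards [this] with x hx
    rw [hx]
    simp
  · have h2 := (hM.smooth hF hh').1.differentiable (by simp) p
    rw [funext fun q => hM.lin hF hh hh' c q, fderiv_fun_add ((hM.smooth hF hh).1.differentiable (by simp) p)
      (h2.fun_const_smul c), fderiv_fun_const_smul h2 c]
  · have hδ := delta_nonneg hd
    have hL := hF.one_le
    have ht := hF.one_le_t
    refine ((pn_fderiv_le (hM.smooth hF hh) i).trans
      (hb hF hh (i + 1) δ (by omega) fun j hj => hd j (by omega))).trans ?_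
    refine mul_le_mul_of_nonneg_left (mul_le_mul_of_nonneg_right (mul_le_mul
      (pow_le_pow_right₀ hL ?_) (pow_le_pow_right₀ ht (by omega)) (by positivity) (by positivity))
      hδ) (hC _)
    calc q * (i + 1 + 1) ≤ q * (2 * (i + 1)) := Nat.mul_le_mul_left q (by omega)
      _ = _ := by ring

lemma dx (hM : Op B M) : Op B (fun F h => dx (M F h)) :=
  (hM.deriv.clm (ContinuousLinearMap.apply ℝ U ((1, 0) : R2))).congr fun _ _ _ => rfl

lemma dy (hM : Op B M) : Op B (fun F h => dy (M F h)) :=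
  (hM.deriv.clm (ContinuousLinearMap.apply ℝ U ((0, 1) : R2))).congr fun _ _ _ => rfl

lemma comp {M₁ : (R2 → V4) → (R2 → Y) → R2 → U} {M₂ : (R2 → V4) → (R2 → X) → R2 → Y}
    (h1 : Op B M₁) (h2 : Op B M₂) : Op B (fun F h => M₁ F (M₂ F h)) := by
  obtain ⟨r1, q1, C1, hC1, hb1⟩ := h1.bound
  obtain ⟨r2, q2, C2, hC2, hb2⟩ := h2.bound
  refine ⟨fun hF hh => h1.smooth hF (h2.smooth hF hh),
    fun F h p hh => h1.loc F _ p (h2.loc F h p hh),
    fun {F Lam t N h h'} hF hh hh' c p => by
      rw [show M₂ F (fun q => h q + c • h' q) = fun q => M₂ F h q + c • M₂ F h' q from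
        funext (h2.lin hF hh hh' c), h1.lin hF (h2.smooth hF hh) (h2.smooth hF hh') c p],
    r1 + r2, q1 + q2 * (r1 + 1),
    fun i => C1 i * ∑ j ∈ range (i + r1 + 1), C2 j,
    fun i => mul_nonneg (hC1 i) (sum_nonneg fun j _ => hC2 j),
    fun {F Lam t N h} hF hh i δ hi hd => ?_⟩
  have hδ := delta_nonneg hd
  have hL := hF.one_le
  have ht := hF.one_le_t
  refine (hb1 hF (h2.smooth hF hh) i
    ((∑ j ∈ range (i + r1 + 1), C2 j) * (Lam ^ (q2 * (r1 + 1) * (i + 1)) * t ^ r2 * δ))
    (by omega) fun j hj => ?_).trans (le_of_eq (by ring))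
  refine (hb2 hF hh j δ (by omega) fun l hl => hd l (by omega)).trans ?_
  rw [mul_assoc (∑ j ∈ range (i + r1 + 1), C2 j)]
  refine mul_le_mul (single_le_sum (fun l _ => hC2 l) (mem_range.mpr (by omega))) ?_
    (by positivity) (sum_nonneg fun l _ => hC2 l)
  calc Lam ^ (q2 * (j + 1)) * t ^ (j + r2) * δ
      ≤ Lam ^ (q2 * (r1 + 1) * (i + 1)) * t ^ (j + r2) * δ := by
        gcongr ?_ * _ * _
        refine pow_le_pow_right₀ hL ?_
        rw [Nat.mul_assoc]
        exact Nat.mul_le_mul_left q2 (by nlinarith)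
    _ = _ := by ring

end Op

/-- Right-hand sides `A F φ` for which the linearised equation is solved by a tame operator. -/
def Solv (B : Base) (A : (R2 → V4) → (R2 → ℝ) → R2 → Fin 3 → ℝ) : Prop :=
  ∃ M, Op B M ∧ ∀ {F Lam t N}, B.Good F Lam t N → ∀ φ, Smooth2 φ → ∀ p ∈ B.O,
    linM F (M F φ) p = A F φ p

lemma linM_add {u v : R2 → V4} (F : R2 → V4) (p : R2) (hu : Smooth2 u) (hv : Smooth2 v) :
    linM F (fun q => u q + v q) p = linM F u p + linM F v p := by
  have e := fderiv_fun_add (hu.1.differentiable (by simp) p) (hv.1.differentiable (by simp) p)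
  funext k
  fin_cases k <;> simp [linM, dx, dy, e, inner_add_right] <;> ring

lemma linM_neg (F u : R2 → V4) (p : R2) : linM F (fun q => -u q) p = -linM F u p := by
  funext k
  fin_cases k <;> simp [linM, dx, dy, fderiv_fun_neg] <;> ring

namespace Solv

variable {A A' : (R2 → V4) → (R2 → ℝ) → R2 → Fin 3 → ℝ}

lemma congr (h : Solv B A) (he : ∀ {F Lam t N}, B.Good F Lam t N → ∀ φ, Smooth2 φ → ∀ p ∈ B.O,
    A F φ p = A' F φ p) : Solv B A' := by
  obtain ⟨M, hM, h⟩ := h
  exact ⟨M, hM, fun hF φ hφ p hp => (h hF φ hφ p hp).trans (he hF φ hφ p hp)⟩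

lemma zero : Solv B (fun _ _ _ => 0) := by
  refine ⟨fun _ _ _ => (0 : V4), Op.zero, fun hF φ hφ p hp => ?_⟩
  funext k
  fin_cases k <;> simp [linM, Algebra.dx, Algebra.dy]

lemma add (h : Solv B A) (h' : Solv B A') : Solv B (fun F φ p => A F φ p + A' F φ p) := by
  obtain ⟨M, hM, h⟩ := h
  obtain ⟨M', hM', h'⟩ := h'
  exact ⟨_, hM.add hM', fun {F Lam t N} hF φ hφ p hp => by
    show linM F (fun q => M F φ q + M' F φ q) p = _
    rw [linM_add F p (hM.smooth hF hφ) (hM'.smooth hF hφ), h hF φ hφ p hp, h' hF φ hφ p hp]⟩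

lemma neg (h : Solv B A) : Solv B (fun F φ p => -A F φ p) := by
  obtain ⟨M, hM, h⟩ := h
  exact ⟨_, hM.neg, fun {F Lam t N} hF φ hφ p hp => by
    show linM F (fun q => -M F φ q) p = _
    rw [linM_neg, h hF φ hφ p hp]⟩

lemma sub (h : Solv B A) (h' : Solv B A') : Solv B (fun F φ p => A F φ p - A' F φ p) :=
  (h.add h'.neg).congr fun _ _ _ _ _ => (sub_eq_add_neg _ _).symm

lemma fin_sum {ι : Type*} (s : Finset ι) {A : ι → (R2 → V4) → (R2 → ℝ) → R2 → Fin 3 → ℝ}
    (h : ∀ k, Solv B (A k)) : Solv B (fun F φ p => ∑ k ∈ s, A k F φ p) := by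
  classical
  induction s using Finset.induction_on with
  | empty => exact zero.congr fun _ _ _ _ _ => by simp
  | insert i s his ih =>
    exact ((h i).add ih).congr fun {F Lam t N} _ φ _ p _ =>
      (sum_insert (f := fun k => A k F φ p) his).symm

/-- Precomposition with a tame operator on scalars. -/
lemma comp (h : Solv B A) {T : (R2 → V4) → (R2 → ℝ) → R2 → ℝ} (hT : Op B T) :
    Solv B (fun F φ => A F (T F φ)) := by
  obtain ⟨M, hM, h⟩ := h
  exact ⟨_, hM.comp hT, fun hF φ hφ p hp => h hF _ (hT.smooth hF hφ) p hp⟩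

/-- Precomposition with multiplication by a tame function. -/
lemma compMul (h : Solv B A) {r : ℕ} {c : (R2 → V4) → R2 → ℝ} (hc : Tame B r c) (hr : r ≤ B.a) :
    Solv B (fun F φ => A F (fun p => c F p * φ p)) :=
  h.comp (Op.id.mulc hc hr)

/-- The linearised metric of `φ v`. -/
lemma of_field {r : ℕ} {v : (R2 → V4) → R2 → V4} (hv : Tame B r v) (hr : r ≤ B.a) :
    Solv B (fun F φ p => linM F (fun q => φ q • v F q) p) :=
  ⟨_, Op.id.smulv hv hr, fun _ _ _ _ _ => rfl⟩

end Solv

/-- Multipliers: `c h` is a value of the linearised metric for every `h`. -/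
def Mult (B : Base) (c : (R2 → V4) → R2 → ℝ) : Prop :=
  ∀ k : Fin 3, Solv B (fun F φ p => (c F p * φ p) • Pi.single k (1 : ℝ))

/-- Cramer's rule for operators. -/
theorem Solv.cramer {n r : ℕ} (hr : r ≤ B.a) (T : Fin n → (R2 → ℝ) → R2 → Fin 3 → ℝ)
    (hadd : ∀ k (f : Fin n → R2 → ℝ), (∀ i, Smooth2 (f i)) → ∀ p,
      T k (fun q => ∑ i, f i q) p = ∑ i, T k (f i) p)
    (hzero : ∀ k p, T k (fun _ => 0) p = 0)
    (C : (R2 → V4) → R2 → Matrix (Fin n) (Fin n) ℝ)
    (hC : ∀ i j, Tame B r (fun F p => C F p i j))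
    (h : ∀ i, Solv B (fun F φ p => ∑ j, T j (fun q => C F q i j * φ q) p)) (k : Fin n) :
    Solv B (fun F φ p => T k (fun q => (C F q).det * φ q) p) := by
  have hadj : ∀ i, Tame B r (fun F q => (C F q).adjugate k i) := fun i => by
    refine (Tame.det (A := fun F q => (C F q).updateRow i (Pi.single k 1)) hr fun a b => ?_).congr
      fun F q => (Matrix.adjugate_apply _ k i).symm
    rcases eq_or_ne a i with rfl | hne
    · exact ((Tame.const ((Pi.single k (1 : ℝ) : Fin n → ℝ) b)).mono (Nat.zero_le r)).congr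
        fun F q => by simp
    · exact (hC a b).congr fun F q => by simp [Matrix.updateRow_ne hne]
  refine (Solv.fin_sum univ fun i => (h i).compMul (hadj i) hr).congr
    fun {F Lam t N} hF φ hφ p hp => ?_
  have hs : ∀ i j, Smooth2 (fun q => C F q i j * ((C F q).adjugate k i * φ q)) := fun i j =>
    ((hC i j).smooth hF).bilin (((hadj i).smooth hF).bilin hφ (ContinuousLinearMap.mul ℝ ℝ))
      (ContinuousLinearMap.mul ℝ ℝ)
  rw [sum_comm]
  simp only [← hadd _ _ (fun i => hs i _)]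
  have e : ∀ j, (fun q => ∑ i, C F q i j * ((C F q).adjugate k i * φ q))
      = fun q => if k = j then (C F q).det * φ q else 0 := fun j => funext fun q => by
    have := congrFun (congrFun (Matrix.adjugate_mul (C F q)) k) j
    rw [Matrix.mul_apply] at this
    rw [sum_congr rfl fun i _ => show C F q i j * ((C F q).adjugate k i * φ q)
      = (C F q).adjugate k i * C F q i j * φ q by ring, ← sum_mul, this]
    by_cases hkj : k = j <;> simp [hkj]
  simp only [e]
  rw [sum_eq_single k (fun j _ hj => ?_) (by simp)]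
  · simp
  · simp [Ne.symm hj, hzero]

end

end Vale.Agent.P205.Algebra
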