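import Vale.Agent.P205.Full.Algebra.Op

/-!
# P205: composition with a local change of coordinates

`pull T φ u p = T p (u (φ p))` for a weight `T` supported where the periodic map `φ` is smooth.
-/

namespace Vale.Agent.P205.Algebra

open scoped ContDiff Topology
open Finset Correction

noncomputable section

/-- Composition with a change of coordinates and a weight. -/
def pull {U Z : Type} [NormedAddCommGroup U] [NormedSpace ℝ U] [NormedAddCommGroup Z]
    [NormedSpace ℝ Z] (T : R2 → U →L[ℝ] Z) (φ : R2 → R2) (u : R2 → U) (p : R2) : Z :=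
  T p (u (φ p))

/-- Composition with a scalar weight. -/
def pullS {U : Type} [NormedAddCommGroup U] [NormedSpace ℝ U] (w : R2 → ℝ) (φ : R2 → R2)
    (u : R2 → U) (p : R2) : U :=
  w p • u (φ p)

/-- A periodic map which is smooth on an open set. -/
structure LocMap where
  /-- the map -/
  map : R2 → R2
  /-- where it is smooth -/
  dom : Set R2
  isOpen_dom : IsOpen dom
  smooth : ContDiffOn ℝ ∞ map dom
  periodic : Periodic2 (1, 0) (0, 1) map

variable {U Z : Type} [NormedAddCommGroup U] [NormedSpace ℝ U] [NormedAddCommGroup Z]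
  [NormedSpace ℝ Z] (φ : LocMap)

lemma LocMap.contDiffAt {p : R2} (hp : p ∈ φ.dom) : ContDiffAt ℝ ∞ φ.map p :=
  φ.smooth.contDiffAt (φ.isOpen_dom.mem_nhds hp)

lemma smooth2_of_support {u : R2 → Z} (hper : Periodic2 (1, 0) (0, 1) u) {S : Set R2}
    (hin : ∀ p ∈ φ.dom, ContDiffAt ℝ ∞ u p) (hS : IsClosed S) (hsub : S ⊆ φ.dom)
    (hout : ∀ p ∉ S, u p = 0) : Smooth2 u := by
  refine ⟨contDiff_iff_contDiffAt.2 fun p => ?_, hper⟩
  by_cases hp : p ∈ φ.dom
  · exact hin p hp
  · refine (contDiffAt_const (c := (0 : Z))).congr_of_eventuallyEq ?_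
    filter_upwards [hS.isOpen_compl.mem_nhds fun h => hp (hsub h)] with q hq using hout q hq

lemma smooth2_pull {T : R2 → U →L[ℝ] Z} (hT : Smooth2 T) (hd : tsupport T ⊆ φ.dom) {u : R2 → U}
    (hu : Smooth2 u) : Smooth2 (pull T φ.map u) :=
  smooth2_of_support φ
    ⟨fun p => by simp only [pull, hT.2.1, φ.periodic.1], fun p => by simp only [pull, hT.2.2, φ.periodic.2]⟩
    (fun p hp => (hT.1.contDiffAt).clm_apply (hu.1.contDiffAt.comp p (φ.contDiffAt hp)))
    (isClosed_tsupport T) hd fun p hp => by simp [pull, image_eq_zero_of_notMem_tsupport hp]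

/-- The weight in front of `Du` in the derivative. -/
def chainWeight (T : R2 → U →L[ℝ] Z) (p : R2) : (R2 →L[ℝ] U) →L[ℝ] (R2 →L[ℝ] Z) :=
  (ContinuousLinearMap.compL ℝ R2 U Z (T p)).comp
    ((ContinuousLinearMap.compL ℝ R2 R2 U).flip (fderiv ℝ φ.map p))

lemma chainWeight_apply (T : R2 → U →L[ℝ] Z) (p : R2) (A : R2 →L[ℝ] U) :
    chainWeight φ T p A = (T p).comp (A.comp (fderiv ℝ φ.map p)) := rfl

lemma chainWeight_zero {T : R2 → U →L[ℝ] Z} {p : R2} (h : T p = 0) : chainWeight φ T p = 0 := by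
  refine ContinuousLinearMap.ext fun A => ?_
  rw [chainWeight_apply, h]
  simp

lemma smooth2_chainWeight {T : R2 → U →L[ℝ] Z} (hT : Smooth2 T) (hd : tsupport T ⊆ φ.dom) :
    Smooth2 (chainWeight φ T) ∧ tsupport (chainWeight φ T) ⊆ φ.dom := by
  have hper : Periodic2 (1, 0) (0, 1) (fderiv ℝ φ.map) :=
    ⟨fun p => by rw [← fderiv_comp_add_right]; exact congrArg (fderiv ℝ · p) (funext φ.periodic.1),
      fun p => by rw [← fderiv_comp_add_right]; exact congrArg (fderiv ℝ · p) (funext φ.periodic.2)⟩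
  refine ⟨smooth2_of_support φ ⟨fun p => by simp only [chainWeight, hT.2.1, hper.1],
      fun p => by simp only [chainWeight, hT.2.2, hper.2]⟩ (fun p hp => ?_) (isClosed_tsupport T) hd
      fun p hp => chainWeight_zero φ (image_eq_zero_of_notMem_tsupport hp),
    (closure_mono fun p hp => ?_).trans hd⟩
  · refine ((ContinuousLinearMap.compL ℝ R2 U Z).contDiff.contDiffAt.comp p
      hT.1.contDiffAt).clm_comp ((ContinuousLinearMap.compL ℝ R2 R2 U).flip.contDiff.contDiffAt.comp p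
      ((φ.contDiffAt hp).fderiv_right (m := ∞) le_rfl))
  · exact fun h => hp (chainWeight_zero φ h)

lemma fderiv_pull {T : R2 → U →L[ℝ] Z} (hT : Smooth2 T) (hd : tsupport T ⊆ φ.dom) {u : R2 → U}
    (hu : Smooth2 u) : fderiv ℝ (pull T φ.map u)
      = fun p => pull (fun q => (fderiv ℝ T q).flip) φ.map u p
        + pull (chainWeight φ T) φ.map (fderiv ℝ u) p := by
  funext p
  by_cases hp : p ∈ φ.dom
  · have hc := ((φ.contDiffAt hp).differentiableAt (by simp)).hasFDerivAt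
    have h := ((hT.1.differentiable (by simp) p).hasFDerivAt).clm_apply
      ((hu.1.differentiable (by simp) (φ.map p)).hasFDerivAt.comp p hc)
    rw [show fderiv ℝ (pull T φ.map u) p = _ from h.fderiv, add_comm]
    rfl
  · have hT0 : T =ᶠ[𝓝 p] 0 := notMem_tsupport_iff_eventuallyEq.1 fun h => hp (hd h)
    have e : pull T φ.map u =ᶠ[𝓝 p] 0 := by
      filter_upwards [hT0] with q hq
      simp [pull, hq]
    rw [e.fderiv_eq]
    simp [pull, chainWeight_zero φ hT0.eq_of_nhds, hT0.fderiv_eq]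

/-- Composition is bounded in every seminorm. -/
lemma pn_pull_le : ∀ (j : ℕ) {U Z : Type} [NormedAddCommGroup U] [NormedSpace ℝ U]
    [NormedAddCommGroup Z] [NormedSpace ℝ Z] {T : R2 → U →L[ℝ] Z}, Smooth2 T → tsupport T ⊆ φ.dom →
    ∃ C, 0 ≤ C ∧ ∀ {u : R2 → U}, Smooth2 u → pn j (pull T φ.map u) ≤ C * pn j u := by
  have h0 : ∀ {U Z : Type} [NormedAddCommGroup U] [NormedSpace ℝ U] [NormedAddCommGroup Z]
      [NormedSpace ℝ Z] {T : R2 → U →L[ℝ] Z}, Smooth2 T → ∀ {u : R2 → U}, Smooth2 u →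
      supD 0 (pull T φ.map u) ≤ pn 0 T * pn 0 u := fun {U Z} _ _ _ _ {T} hT {u} hu =>
    supD_le fun p => by
      rw [norm_iteratedFDeriv_zero]
      exact (ContinuousLinearMap.le_opNorm _ _).trans (mul_le_mul (norm_le_pn hT 0 p)
        (norm_le_pn hu 0 _) (norm_nonneg _) (pn_nonneg _ _))
  intro j
  induction j with
  | zero =>
    intro U Z _ _ _ _ T hT hd
    exact ⟨pn 0 T, pn_nonneg _ _, fun hu => (le_of_eq (by simp [pn])).trans (h0 hT hu)⟩
  | succ j ih =>
    intro U Z _ _ _ _ T hT hd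
    obtain ⟨hc, hcd⟩ := smooth2_chainWeight φ hT hd
    have hf : Smooth2 (fun q => (fderiv ℝ T q).flip) := by
      have e : (fun q => (fderiv ℝ T q).flip) = fun q =>
          ((ContinuousLinearMap.compL ℝ R2 (U →L[ℝ] Z) Z).comp (ContinuousLinearMap.apply ℝ Z)).flip
            (fderiv ℝ T q) := funext fun q => by ext u <;> simp
      rw [e]
      exact Smooth2.clm (W := U →L[ℝ] R2 →L[ℝ] Z) hT.fderiv
        (((ContinuousLinearMap.compL ℝ R2 (U →L[ℝ] Z) Z).comp (ContinuousLinearMap.apply ℝ Z)).flip)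
    have hfd : tsupport (fun q => (fderiv ℝ T q).flip) ⊆ φ.dom := by
      refine (closure_minimal (fun q hq => ?_) (isClosed_tsupport T)).trans hd
      by_contra h
      have e : T =ᶠ[𝓝 q] 0 := notMem_tsupport_iff_eventuallyEq.1 h
      exact hq (by simp [e.fderiv_eq])
    obtain ⟨C1, hC1, h1⟩ := ih hf hfd
    obtain ⟨C2, hC2, h2⟩ := ih hc hcd
    refine ⟨pn 0 T + C1 + C2, by have := pn_nonneg 0 T; positivity, fun {u} hu => ?_⟩
    rw [pn_succ, fderiv_pull φ hT hd hu]
    have a0 := (h0 hT hu).trans (mul_le_mul_of_nonneg_left (pn_mono (Nat.zero_le (j + 1)) u)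
      (pn_nonneg 0 T))
    have a1 := (h1 hu).trans (mul_le_mul_of_nonneg_left (pn_mono (Nat.le_succ j) u) hC1)
    have a2 := (h2 hu.fderiv).trans (mul_le_mul_of_nonneg_left (pn_fderiv_le hu j) hC2)
    have a3 := pn_add_le (smooth2_pull φ hf hfd hu) (smooth2_pull φ hc hcd hu.fderiv) j
    linarith

lemma pullS_eq (w : R2 → ℝ) (u : R2 → U) :
    pullS w φ.map u = pull (fun p => w p • ContinuousLinearMap.id ℝ U) φ.map u := by
  funext p; simp [pullS, pull]

lemma smooth2_weight {w : R2 → ℝ} (hw : Smooth2 w) (hd : tsupport w ⊆ φ.dom) :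
    Smooth2 (fun p => w p • ContinuousLinearMap.id ℝ U) ∧
      tsupport (fun p => w p • ContinuousLinearMap.id ℝ U) ⊆ φ.dom :=
  ⟨⟨hw.1.smul contDiff_const, fun p => by simp only [hw.2.1], fun p => by simp only [hw.2.2]⟩,
    (tsupport_smul_subset_left w fun _ => ContinuousLinearMap.id ℝ U).trans hd⟩

lemma smooth2_pullS {w : R2 → ℝ} (hw : Smooth2 w) (hd : tsupport w ⊆ φ.dom) {u : R2 → U}
    (hu : Smooth2 u) : Smooth2 (pullS w φ.map u) := by
  obtain ⟨h1, h2⟩ := smooth2_weight φ (U := U) hw hd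
  rw [pullS_eq]; exact smooth2_pull φ h1 h2 hu

lemma pn_pullS_le {w : R2 → ℝ} (hw : Smooth2 w) (hd : tsupport w ⊆ φ.dom) :
    ∃ C : ℕ → ℝ, (∀ j, 0 ≤ C j) ∧ ∀ j, ∀ {u : R2 → U}, Smooth2 u →
      pn j (pullS w φ.map u) ≤ C j * pn j u := by
  obtain ⟨h1, h2⟩ := smooth2_weight φ (U := U) hw hd
  choose C hC h using fun j => pn_pull_le φ j h1 h2
  exact ⟨C, hC, fun j u hu => by rw [pullS_eq]; exact h j hu⟩

lemma pn_pull_family {T : R2 → U →L[ℝ] Z} (hT : Smooth2 T) (hd : tsupport T ⊆ φ.dom) :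
    ∃ C : ℕ → ℝ, (∀ j, 0 ≤ C j) ∧ ∀ j, ∀ {u : R2 → U}, Smooth2 u →
      pn j (pull T φ.map u) ≤ C j * pn j u := by
  choose C hC h using fun j => pn_pull_le φ j hT hd
  exact ⟨C, hC, fun j u hu => h j hu⟩

/-- A weighted composition of a tame function is tame. -/
lemma Tame.pullS {B : Base} {r : ℕ} {c : (R2 → V4) → R2 → U} (hc : Tame B r c) {w : R2 → ℝ}
    (hw : Smooth2 w) (hd : tsupport w ⊆ φ.dom) :
    Tame B r (fun F => pullS w φ.map (c F)) := by
  obtain ⟨P, hP, hp⟩ := pn_pullS_le φ (U := U) hw hd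
  obtain ⟨q, C, hC, hb⟩ := hc.bound
  obtain ⟨q', C', hC', hl⟩ := hc.lip
  refine ⟨fun hF => smooth2_pullS φ hw hd (hc.smooth hF),
    ⟨q, fun j => P j * C j, fun j => mul_nonneg (hP j) (hC j), fun hF j hj => ?_⟩,
    ⟨q', fun j => P j * C' j, fun j => mul_nonneg (hP j) (hC' j), fun {F F' Lam} hF hF' j hj => ?_⟩⟩
  · rw [mul_assoc]
    exact (hp j (hc.smooth hF)).trans (mul_le_mul_of_nonneg_left (hb hF j hj) (hP j))
  · rw [mul_assoc, show (fun p => Algebra.pullS w φ.map (c F) p - Algebra.pullS w φ.map (c F') p)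
      = Algebra.pullS w φ.map fun p => c F p - c F' p from funext fun p => (smul_sub _ _ _).symm]
    exact (hp j ((hc.smooth hF).sub (hc.smooth hF'))).trans
      (mul_le_mul_of_nonneg_left (hl hF hF' j hj) (hP j))

end

end Vale.Agent.P205.Algebra
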