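import Vale.Agent.P205.Full.Algebra.Calculus

/-!
# P205: reduction of known rows by the closed system

`T3 u v w φ` is the right-hand side dual to the combination `u · U + v · U_y + w · U_yy`.
`Known B u v w` says that this right-hand side is solved by a tame operator.
-/

namespace Vale.Agent.P205.Algebra

open scoped ContDiff Topology RealInnerProductSpace
open Finset Correction

noncomputable section

variable {B : Base} {r : ℕ}

/-- A coefficient pair as a triple in the components `(xx, xy, yy)`. -/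
def emb (x : R2) : Fin 3 → ℝ := ![x.1, x.2 / 2, 0]

lemma emb_add (x y : R2) : emb (x + y) = emb x + emb y := by
  funext k; fin_cases k <;> simp [emb, add_div]

lemma emb_neg (x : R2) : emb (-x) = -emb x := by
  funext k; fin_cases k <;> simp [emb, neg_div]

lemma emb_sub (x y : R2) : emb (x - y) = emb x - emb y := by
  rw [sub_eq_add_neg, emb_add, emb_neg, ← sub_eq_add_neg]

lemma emb_zero : emb 0 = 0 := by
  funext k; fin_cases k <;> simp [emb]

/-- The right-hand side dual to `u · U + v · U_y + w · U_yy`. -/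
def T3 (u v w : R2 → R2) (φ : R2 → ℝ) (p : R2) : Fin 3 → ℝ :=
  emb (φ p • u p - dy (fun q => φ q • v q) p + dy (dy fun q => φ q • w q) p)

/-- Solvability of the right-hand side of a combination. -/
def Known (B : Base) (u v w : (R2 → V4) → R2 → R2) : Prop :=
  Solv B fun F φ p => T3 (u F) (v F) (w F) φ p

/-- Solvability of a row. -/
def KnownRow (B : Base) (E : (R2 → V4) → Row) : Prop :=
  Known B (fun F => (E F).u) (fun F => (E F).v) fun _ _ => 0

lemma smooth2_neg {U : Type*} [NormedAddCommGroup U] [NormedSpace ℝ U] {u : R2 → U}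
    (h : Smooth2 u) : Smooth2 (fun q => -u q) :=
  ⟨h.1.neg, fun p => by simp only [h.2.1], fun p => by simp only [h.2.2]⟩

lemma dy_neg {U : Type*} [NormedAddCommGroup U] [NormedSpace ℝ U] (u : R2 → U) (p : R2) :
    dy (fun q => -u q) p = -dy u p := by simp [dy, fderiv_fun_neg]

lemma dx_neg {U : Type*} [NormedAddCommGroup U] [NormedSpace ℝ U] (u : R2 → U) (p : R2) :
    dx (fun q => -u q) p = -dx u p := by simp [dx, fderiv_fun_neg]

lemma dy_zero {U : Type*} [NormedAddCommGroup U] [NormedSpace ℝ U] :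
    dy (fun _ : R2 => (0 : U)) = fun _ => 0 := by
  funext p; simp [dy]

lemma T3_smul (f : R2 → ℝ) (u v w : R2 → R2) (φ : R2 → ℝ) (p : R2) :
    T3 (fun q => f q • u q) (fun q => f q • v q) (fun q => f q • w q) φ p
      = T3 u v w (fun q => f q * φ q) p := by
  simp only [T3, smul_smul, mul_comm (f _)]

lemma T3_neg (u v w : R2 → R2) (φ : R2 → ℝ) (p : R2) :
    T3 (fun q => -u q) (fun q => -v q) (fun q => -w q) φ p = -T3 u v w φ p := by
  simp only [T3, smul_neg]
  rw [← emb_neg]
  congr 1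
  rw [dy_neg (fun q => φ q • v q),
    show dy (fun q => -(φ q • w q)) = fun q => -dy (fun q => φ q • w q) q from
      funext (dy_neg _), dy_neg]
  abel

lemma T3_add {u v w u' v' w' : R2 → R2} {φ : R2 → ℝ} (hv : Smooth2 v) (hw : Smooth2 w)
    (hv' : Smooth2 v') (hw' : Smooth2 w') (hφ : Smooth2 φ) (p : R2) :
    T3 (fun q => u q + u' q) (fun q => v q + v' q) (fun q => w q + w' q) φ p
      = T3 u v w φ p + T3 u' v' w' φ p := by
  simp only [T3, smul_add]
  rw [← emb_add]
  congr 1
  rw [dy_add (smooth2_smul hφ hv) (smooth2_smul hφ hv'),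
    show dy (fun q => φ q • w q + φ q • w' q)
      = fun q => dy (fun q => φ q • w q) q + dy (fun q => φ q • w' q) q from
      funext (dy_add (smooth2_smul hφ hw) (smooth2_smul hφ hw')),
    dy_add (smooth2_dy (smooth2_smul hφ hw)) (smooth2_dy (smooth2_smul hφ hw'))]
  abel

namespace Known

variable {u v w u' v' w' : (R2 → V4) → R2 → R2}

lemma congr (h : Known B u v w) (hu : ∀ {F Lam t N}, B.Good F Lam t N → u F = u' F)
    (hv : ∀ {F Lam t N}, B.Good F Lam t N → v F = v' F)
    (hw : ∀ {F Lam t N}, B.Good F Lam t N → w F = w' F) : Known B u' v' w' :=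
  Solv.congr h fun {F Lam t N} hF φ _ p _ => by rw [hu hF, hv hF, hw hF]

lemma smul (h : Known B u v w) {c : (R2 → V4) → R2 → ℝ} (hc : Tame B r c) (hr : r ≤ B.a) :
    Known B (fun F q => c F q • u F q) (fun F q => c F q • v F q) (fun F q => c F q • w F q) :=
  (Solv.compMul h hc hr).congr fun _ _ _ _ _ => (T3_smul _ _ _ _ _ _).symm

lemma add {r' : ℕ} (h : Known B u v w) (h' : Known B u' v' w') (hv : Tame B r v) (hw : Tame B r w)
    (hv' : Tame B r' v') (hw' : Tame B r' w') :
    Known B (fun F q => u F q + u' F q) (fun F q => v F q + v' F q) (fun F q => w F q + w' F q) :=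
  (Solv.add h h').congr fun hF φ hφ p _ =>
    (T3_add (hv.smooth hF) (hw.smooth hF) (hv'.smooth hF) (hw'.smooth hF) hφ p).symm

lemma sub {r' : ℕ} (h : Known B u v w) (h' : Known B u' v' w') (hv : Tame B r v) (hw : Tame B r w)
    (hv' : Tame B r' v') (hw' : Tame B r' w') :
    Known B (fun F q => u F q - u' F q) (fun F q => v F q - v' F q) (fun F q => w F q - w' F q) :=
  (h.add (u' := fun F q => -u' F q) (v' := fun F q => -v' F q) (w' := fun F q => -w' F q)
    ((Solv.neg h').congr fun _ _ _ _ _ => (T3_neg _ _ _ _ _).symm) hv hw hv'.neg hw'.neg).congr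
    (fun _ => funext fun _ => (sub_eq_add_neg _ _).symm)
    (fun _ => funext fun _ => (sub_eq_add_neg _ _).symm)
    (fun _ => funext fun _ => (sub_eq_add_neg _ _).symm)

end Known

/-- The `y`-derivative of a known row. -/
theorem KnownRow.dY {E : (R2 → V4) → Row} (h : KnownRow B E) (hE : TameRow B r E) :
    Known B (fun F => dYu (E F)) (fun F => dYv (E F)) fun F => (E F).v := by
  refine (Solv.comp h Op.id.dy.neg).congr fun {F Lam t N} hF φ hφ p _ => ?_
  have su := hE.u.smooth hF
  have sv := hE.v.smooth hF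
  have sφ := smooth2_dy hφ
  simp only [T3, dYu, dYv, smul_zero, dy_zero, add_zero]
  congr 1
  rw [show dy (fun q => -dy φ q • (E F).v q) p = -dy (fun q => dy φ q • (E F).v q) p by
      rw [← dy_neg]; simp only [neg_smul],
    show dy (fun q => φ q • (E F).v q) = fun q => dy φ q • (E F).v q + φ q • dy (E F).v q from
      funext (dy_smul hφ sv),
    dy_add (smooth2_smul sφ sv) (smooth2_smul hφ (smooth2_dy sv)),
    show (fun q => φ q • ((E F).u q + dy (E F).v q))
      = fun q => φ q • (E F).u q + φ q • dy (E F).v q from funext fun q => smul_add _ _ _,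
    dy_add (smooth2_smul hφ su) (smooth2_smul hφ (smooth2_dy sv)), dy_smul hφ su]
  simp [dy]
  abel

variable (ha : 9 ≤ B.a) (hg : DetLow B) (hw : WLow B)
include ha hg hw

/-- The right-hand side of a normal field. -/
lemma solv_normal {n : (R2 → V4) → R2 → V4} (hn : Tame B 2 n)
    (h : ∀ {F Lam t N}, B.Good F Lam t N → ∀ p ∈ B.O, ⟪dx F p, n F p⟫ = 0 ∧ ⟪dy F p, n F p⟫ = 0) :
    Solv B fun F φ p =>
      φ p • ![⟪F11 F p, n F p⟫ * iW B.η F p, ⟪F12 F p, n F p⟫ * iW B.η F p,
        ⟪F22 F p, n F p⟫ * iW B.η F p] := by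
  refine ((Solv.of_field hn (by omega)).compMul ((t_iW ha hg hw).const_mul (-1 / 2))
    (by omega)).congr fun {F Lam t N} hF φ hφ p hp => ?_
  rw [linM_field (hn.smooth hF) hF.smooth B.isOpen_O (fun q hq => (h hF q hq).1)
    (fun q hq => (h hF q hq).2) hp (smooth2_mul (((t_iW ha hg hw).const_mul _).smooth hF) hφ)]
  funext k
  fin_cases k <;> simp <;> ring

/-- The row of the first normal. -/
lemma solv_row0 :
    Solv B fun F φ p => φ p • ![-ca B.η F p, -(cb B.η F p) / 2, (1 : ℝ)] := by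
  refine (solv_normal ha hg hw (t_n0 ha hg) fun hF p hp => n0_orth hg hF hp).congr
    fun {F Lam t N} hF φ _ p hp => ?_
  have e : Wsq B.η F p * iW B.η F p = 1 := by
    rw [iW, rinv_eq hp, mul_inv_cancel₀ (Wsq_pos hw hF hp).ne']
  funext k
  fin_cases k <;> simp [-mul_eq_mul_left_iff, ca, cb, (F22_n0 hg hF hp).1, e]; ring

/-- The row of the second normal is `c`. -/
lemma solv_row1 : Solv B fun F φ p => φ p • emb (cc B.η F p) := by
  refine (solv_normal ha hg hw (t_n1 ha hg) fun {F Lam t N} hF p hp =>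
    ⟨(cross4_orth _ _ _).1, (cross4_orth (dx F p) _ _).2.1⟩).congr fun {F Lam t N} hF φ _ p hp => ?_
  funext k
  fin_cases k <;> simp [-mul_eq_mul_left_iff, emb, cc, cP, cR, (F22_n0 hg hF hp).2]; ring

lemma knownRow_C : KnownRow B (fun F => rowC B.η F) :=
  (solv_row1 ha hg hw).congr fun {F Lam t N} _ φ _ p _ => by
    funext k; fin_cases k <;> simp [T3, rowC, emb, dy_zero]; ring

/-- The closed system: `x`-derivatives of `U` reduce. -/
lemma solv_S {w : (R2 → V4) → R2 → R2} (hwt : Tame B r w) (h3 : 3 ≤ r) (hr : r ≤ B.a) :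
    Solv B fun F φ p => emb (-dx (fun q => φ q • w F q) p) -
      T3 (mulN B.η F (w F)) (mulM B.η F (w F)) (fun _ => 0) φ p := by
  obtain ⟨-, -, g122, -, -, g222⟩ := t_G ha hg
  have p1 : Op B (fun F φ q => (w F q).1 * φ q) := Op.id.mulc hwt.fst hr
  have p2 : Op B (fun F φ q => (w F q).2 * φ q) := Op.id.mulc hwt.snd hr
  have T : Op B (fun F φ q => dy (fun x => (w F x).2 * φ x) q
      - (G122 B.η F q * ((w F q).1 * φ q) + G222 B.η F q * ((w F q).2 * φ q))) :=
    p2.dy.sub ((p1.mulc g122 (by omega)).add (p2.mulc g222 (by omega)))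
  have h1 := ((Solv.of_field (t_v1 ha hg) (by omega)).compMul (hwt.fst.const_mul (-1 / 2)) hr).add
    ((Solv.of_field (t_v2 ha hg) (by omega)).compMul (hwt.snd.const_mul (-1 / 2)) hr)
  refine (h1.add ((solv_row0 ha hg hw).comp T)).congr fun {F Lam t N} hF φ hφ p hp => ?_
  have sw := hwt.smooth hF
  have sx : Smooth2 (fun q => (w F q).1) := hwt.fst.smooth hF
  have sy : Smooth2 (fun q => (w F q).2) := hwt.snd.smooth hF
  have sa := (t_ca ha hg hw).smooth hF
  have sb := (t_cb ha hg hw).smooth hF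
  rw [linM_field ((t_v1 ha hg).smooth hF) hF.smooth B.isOpen_O
      (fun q hq => (dual_frame hg hF hq).1) (fun q hq => (dual_frame hg hF hq).2.1) hp
      (smooth2_mul ((hwt.fst.const_mul _).smooth hF) hφ),
    linM_field ((t_v2 ha hg).smooth hF) hF.smooth B.isOpen_O
      (fun q hq => (dual_frame hg hF hq).2.2.1) (fun q hq => (dual_frame hg hF hq).2.2.2) hp
      (smooth2_mul ((hwt.snd.const_mul _).smooth hF) hφ)]
  have cx : ∀ f : R2 → ℝ, Smooth2 f → dx (fun q => f q * φ q) p = dx f p * φ p + f p * dx φ p :=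
    fun f hf => dx_smul hf hφ p
  have cy : ∀ f : R2 → ℝ, Smooth2 f → dy (fun q => f q * φ q) p = dy f p * φ p + f p * dy φ p :=
    fun f hf => dy_smul hf hφ p
  have c1 : ∀ f : R2 → ℝ, Smooth2 f → dx (fun q => (-1 / 2 : ℝ) * f q) p = -1 / 2 * dx f p :=
    fun f hf => by simp [dx, fderiv_const_mul (Smooth2.diffAt hf p)]
  have c2 : ∀ f : R2 → ℝ, Smooth2 f → dy (fun q => (-1 / 2 : ℝ) * f q) p = -1 / 2 * dy f p :=
    fun f hf => by simp [dy, fderiv_const_mul (Smooth2.diffAt hf p)]
  have sm : Smooth2 (mulM B.η F (w F)) := (t_mulM ha hg hw hwt (by omega) hr).smooth hF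
  have d1 : ∀ {u : R2 → R2}, Smooth2 u → (dy u p).1 = dy (fun q => (u q).1) p ∧
      (dy u p).2 = dy (fun q => (u q).2) p ∧ (dx u p).1 = dx (fun q => (u q).1) p ∧
      (dx u p).2 = dx (fun q => (u q).2) p := fun {u} hu => by
    simp [dx, dy, fderiv.fst (Smooth2.diffAt hu p), fderiv.snd (Smooth2.diffAt hu p)]
  obtain ⟨-, -, wx1, wx2⟩ := d1 sw
  obtain ⟨my1, my2, -, -⟩ := d1 sm
  have hm1 : (fun q => (mulM B.η F (w F) q).1) = fun q => -(ca B.η F q * (w F q).2) :=
    funext fun q => neg_mul _ _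
  have hm2 : (fun q => (mulM B.η F (w F) q).2)
      = fun q => -(w F q).1 - cb B.η F q * (w F q).2 := rfl
  have hneg : ∀ f g : R2 → ℝ, Smooth2 f → Smooth2 g →
      dy (fun q => -f q - g q) p = -dy f p - dy g p := fun f g hf hg' => by
    simp [dy, fderiv_fun_sub (Smooth2.diffAt hf p).fun_neg (Smooth2.diffAt hg' p), fderiv_fun_neg]
  rw [hm1, dy_neg] at my1
  rw [hm2, hneg _ _ sx (smooth2_mul sb sy)] at my2
  have ey : ∀ f : R2 → ℝ, Smooth2 f → dy (fun q => f q * (w F q).2) p
      = dy f p * (w F p).2 + f p * dy (fun q => (w F q).2) p := fun f hf => dy_smul hf sy p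
  rw [ey _ sa] at my1
  rw [ey _ sb] at my2
  simp only [T3, dy_smul hφ sm, dx_smul hφ sw]
  funext k
  fin_cases k <;>
    simp [-mul_eq_mul_left_iff, dy_zero, emb, cy _ sy,
      cx _ ((hwt.fst.const_mul (-1 / 2)).smooth hF), cx _ ((hwt.snd.const_mul (-1 / 2)).smooth hF),
      cy _ ((hwt.fst.const_mul (-1 / 2)).smooth hF), cy _ ((hwt.snd.const_mul (-1 / 2)).smooth hF),
      c1 _ sx, c1 _ sy, c2 _ sx, c2 _ sy, wx1, wx2, my1, my2,
      mulN, mulM, N1, N2, G111, G112, G122, G211, G212, G222] <;> ring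

end

end Vale.Agent.P205.Algebra
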