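import Vale.Agent.P205.Full.Algebra.Op

/-!
# P205: the jet functions of the criterion are tame

`DetLow` and `WLow` say that the two regularised denominators are bounded below by `1 / Lam`.
-/

namespace Vale.Agent.P205.Algebra

open scoped ContDiff RealInnerProductSpace
open Finset Correction

noncomputable section

variable {B : Base} {r : ℕ}

/-- The metric determinant is bounded below where the cut function does not vanish. -/
def DetLow (B : Base) : Prop :=
  ∀ {F Lam t N}, B.Good F Lam t N → ∀ p, Lam⁻¹ ≤ detg F p + (1 - B.η p)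

/-- `W²` is bounded below where the cut function does not vanish. -/
def WLow (B : Base) : Prop :=
  ∀ {F Lam t N}, B.Good F Lam t N → ∀ p, Lam⁻¹ ≤ Wsq B.η F p + (1 - B.η p)

/-- Tame rows. -/
structure TameRow (B : Base) (r : ℕ) (E : (R2 → V4) → Row) : Prop where
  u : Tame B r fun F => (E F).u
  v : Tame B r fun F => (E F).v

lemma t_dxF : Tame B 1 (fun F => dx F) := Tame.id.dx
lemma t_dyF : Tame B 1 (fun F => dy F) := Tame.id.dy

section
variable (ha : 9 ≤ B.a)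
include ha

lemma t_detg : Tame B 1 (fun F => detg F) :=
  ((((t_dxF.inner t_dxF (by omega)).mul (t_dyF.inner t_dyF (by omega)) (by omega)).sub
    ((t_dxF.inner t_dyF (by omega)).sq (by omega)))).congr fun _ _ => rfl

omit ha in
lemma t_reg {c : (R2 → V4) → R2 → ℝ} (hc : Tame B r c) :
    Tame B r (fun F p => c F p + (1 - B.η p)) :=
  hc.add (((Tame.const (1 : ℝ)).sub (Tame.fix B.η_smooth)).mono (Nat.zero_le r))

lemma t_idet (hg : DetLow B) : Tame B 1 (fun F => rinv B.η (detg F)) :=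
  (t_reg (t_detg ha)).inv (by omega) 1 fun hF p => by simpa using hg hF p

lemma t_v1 (hg : DetLow B) : Tame B 1 (fun F => v1 B.η F) :=
  ((t_idet ha hg).smul (((t_dyF.inner t_dyF (by omega)).smul t_dxF (by omega)).sub
    ((t_dxF.inner t_dyF (by omega)).smul t_dyF (by omega))) (by omega)).congr fun _ _ => rfl

lemma t_v2 (hg : DetLow B) : Tame B 1 (fun F => v2 B.η F) :=
  ((t_idet ha hg).smul (((t_dxF.inner t_dxF (by omega)).smul t_dyF (by omega)).sub
    ((t_dxF.inner t_dyF (by omega)).smul t_dxF (by omega))) (by omega)).congr fun _ _ => rfl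

omit ha in
lemma t_F11 : Tame B 2 (fun F => F11 F) := t_dxF.dx
omit ha in
lemma t_F12 : Tame B 2 (fun F => F12 F) := t_dxF.dy
omit ha in
lemma t_F22 : Tame B 2 (fun F => F22 F) := t_dyF.dy

lemma t_n0 (hg : DetLow B) : Tame B 2 (fun F => n0 B.η F) := by
  have h1 := t_dxF.mono (B := B) (show 1 ≤ 2 by norm_num)
  have h2 := t_dyF.mono (B := B) (show 1 ≤ 2 by norm_num)
  exact ((t_F22.sub ((t_F22.inner h1 (by omega)).smul ((t_v1 ha hg).mono one_le_two) (by omega))).sub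
    ((t_F22.inner h2 (by omega)).smul ((t_v2 ha hg).mono one_le_two) (by omega))).congr
      fun _ _ => rfl

omit ha in
lemma t_cross4 {x y z : (R2 → V4) → R2 → V4} (hx : Tame B r x) (hy : Tame B r y) (hz : Tame B r z)
    (hr : r ≤ B.a) : Tame B r (fun F p => cross4 (x F p) (y F p) (z F p)) := by
  have co : ∀ {w : (R2 → V4) → R2 → V4} (_ : Tame B r w) (i : Fin 4),
      Tame B r (fun F p => w F p i) := fun hw i => hw.clm (EuclideanSpace.proj i)
  have minor : ∀ i j k, Tame B r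
      (fun F p => x F p i * (y F p j * z F p k - y F p k * z F p j)) := fun i j k =>
    (co hx i).mul (((co hy j).mul (co hz k) hr).sub ((co hy k).mul (co hz j) hr)) hr
  have sm : ∀ (i : Fin 4) {c : (R2 → V4) → R2 → ℝ}, Tame B r c →
      Tame B r (fun F p => c F p • (EuclideanSpace.single i (1 : ℝ) : V4)) := fun i c hc =>
    hc.smul ((Tame.const _).mono (Nat.zero_le r)) hr
  refine ((((sm 0 (((minor 1 2 3).sub (minor 2 1 3)).add (minor 3 1 2))).add
    (sm 1 (((minor 0 2 3).sub (minor 2 0 3)).add (minor 3 0 2)).neg)).add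
    (sm 2 (((minor 0 1 3).sub (minor 1 0 3)).add (minor 3 0 1)))).add
    (sm 3 (((minor 0 1 2).sub (minor 1 0 2)).add (minor 2 0 1)).neg)).congr fun F p => ?_
  ext i
  fin_cases i <;> simp [cross4]

lemma t_n1 (hg : DetLow B) : Tame B 2 (fun F => n1 B.η F) :=
  t_cross4 (t_dxF.mono one_le_two) (t_dyF.mono one_le_two) (t_n0 ha hg) (by omega)

lemma t_Wsq (hg : DetLow B) : Tame B 2 (fun F => Wsq B.η F) :=
  (t_n0 ha hg).inner (t_n0 ha hg) (by omega)

variable (hg : DetLow B) (hw : WLow B)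
include hg

lemma t_G : Tame B 2 (fun F => G111 B.η F) ∧ Tame B 2 (fun F => G112 B.η F) ∧
    Tame B 2 (fun F => G122 B.η F) ∧ Tame B 2 (fun F => G211 B.η F) ∧
    Tame B 2 (fun F => G212 B.η F) ∧ Tame B 2 (fun F => G222 B.η F) := by
  have h1 := (t_v1 ha hg).mono one_le_two
  have h2 := (t_v2 ha hg).mono one_le_two
  have h : 2 ≤ B.a := by omega
  exact ⟨t_F11.inner h1 h, t_F12.inner h1 h, t_F22.inner h1 h, t_F11.inner h2 h,
    t_F12.inner h2 h, t_F22.inner h2 h⟩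

include hw

lemma t_iW : Tame B 2 (fun F => iW B.η F) :=
  (t_reg (t_Wsq ha hg)).inv (by omega) 1 fun hF p => by simpa using hw hF p

lemma t_ca : Tame B 2 (fun F => ca B.η F) :=
  ((t_F11.inner (t_n0 ha hg) (by omega)).mul (t_iW ha hg hw) (by omega)).neg

lemma t_cb : Tame B 2 (fun F => cb B.η F) :=
  (((t_F12.inner (t_n0 ha hg) (by omega)).const_mul 2).mul (t_iW ha hg hw) (by omega)).neg

lemma t_cP : Tame B 2 (fun F => cP B.η F) :=
  (t_F11.inner (t_n1 ha hg) (by omega)).mul (t_iW ha hg hw) (by omega)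

lemma t_cR : Tame B 2 (fun F => cR B.η F) :=
  ((t_F12.inner (t_n1 ha hg) (by omega)).const_mul 2).mul (t_iW ha hg hw) (by omega)

lemma t_cc : Tame B 2 (fun F => cc B.η F) := (t_cP ha hg hw).prodMk (t_cR ha hg hw)

lemma t_perp : Tame B 2 (fun F => perp B.η F) := (t_cR ha hg hw).neg.prodMk (t_cP ha hg hw)

lemma t_N1 : Tame B 2 (fun F => N1 B.η F) := by
  obtain ⟨h11, h12, h22, -, -, -⟩ := t_G ha hg
  exact (h11.add ((t_ca ha hg hw).mul h22 (by omega))).neg.prodMk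
    ((h12.const_mul 2).add ((t_cb ha hg hw).mul h22 (by omega))).neg

lemma t_N2 : Tame B 3 (fun F => N2 B.η F) := by
  obtain ⟨-, -, -, h11, h12, h22⟩ := t_G ha hg
  exact (((h11.add ((t_ca ha hg hw).mul h22 (by omega))).neg.mono (Nat.le_succ 2)).sub
    (t_ca ha hg hw).dy).prodMk
    ((((h12.const_mul 2).add ((t_cb ha hg hw).mul h22 (by omega))).neg.mono (Nat.le_succ 2)).sub
    (t_cb ha hg hw).dy)

lemma t_mulN {u : (R2 → V4) → R2 → R2} (hu : Tame B r u) (h3 : 3 ≤ r) (hr : r ≤ B.a) :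
    Tame B r (fun F => mulN B.η F (u F)) :=
  (hu.fst.smul ((t_N1 ha hg hw).mono (by omega)) hr).add
    (hu.snd.smul ((t_N2 ha hg hw).mono h3) hr)

lemma t_mulM {u : (R2 → V4) → R2 → R2} (hu : Tame B r u) (h2 : 2 ≤ r) (hr : r ≤ B.a) :
    Tame B r (fun F => mulM B.η F (u F)) :=
  ((((t_ca ha hg hw).mono h2).neg.mul hu.snd hr)).prodMk
    (hu.fst.neg.sub (((t_cb ha hg hw).mono h2).mul hu.snd hr))

lemma t_dX {E : (R2 → V4) → Row} (hE : TameRow B r E) (h3 : 3 ≤ r) (hr : r + 1 ≤ B.a) :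
    Tame B (r + 1) (fun F => dXu B.η F (E F)) ∧ Tame B (r + 1) (fun F => dXv B.η F (E F)) := by
  have hu := hE.u.mono (show r ≤ r + 1 by omega)
  have hv := hE.v.mono (show r ≤ r + 1 by omega)
  refine ⟨(hE.u.dx.add (t_mulN ha hg hw hu (by omega) hr)).add
    ((hv.fst.smul ((t_N1 ha hg hw).dy.mono (by omega)) hr).add
      (hv.snd.smul ((t_N2 ha hg hw).dy.mono (by omega)) hr)), ?_⟩
  exact (((t_mulM ha hg hw hu (by omega) hr).add hE.v.dx).add
    (t_mulN ha hg hw hv (by omega) hr)).add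
    (((((t_ca ha hg hw).dy.mono (by omega)).neg.mul hv.snd hr)).prodMk
      (((t_cb ha hg hw).dy.mono (by omega)).neg.mul hv.snd hr))

omit ha hg hw in
lemma t_dY {E : (R2 → V4) → Row} (hE : TameRow B r E) :
    Tame B (r + 1) (fun F => dYu (E F)) ∧ Tame B (r + 1) (fun F => dYv (E F)) :=
  ⟨hE.u.dy, (hE.u.mono (Nat.le_succ r)).add hE.v.dy⟩

lemma t_rowC : TameRow B 2 (fun F => rowC B.η F) :=
  ⟨t_cc ha hg hw, (Tame.const (0 : R2)).mono (Nat.zero_le 2)⟩

lemma t_rowX : TameRow B 3 (fun F => rowX B.η F) :=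
  ⟨(t_cc ha hg hw).dx.add (t_mulN ha hg hw ((t_cc ha hg hw).mono (by omega)) le_rfl (by omega)),
    t_mulM ha hg hw ((t_cc ha hg hw).mono (by omega)) (by omega) (by omega)⟩

lemma t_rowY : TameRow B 3 (fun F => rowY B.η F) :=
  ⟨(t_cc ha hg hw).dy, (t_cc ha hg hw).mono (Nat.le_succ 2)⟩

lemma t_rowBox : TameRow B 4 (fun F => rowBox B.η F) := by
  have hX := t_dX ha hg hw (t_rowX ha hg hw) le_rfl (by omega)
  have hXY := t_dY (t_rowX ha hg hw)
  have hYY := t_dY (t_rowY ha hg hw)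
  have hb := (t_cb ha hg hw).mono (show 2 ≤ 4 by omega)
  have hc := (t_ca ha hg hw).mono (show 2 ≤ 4 by omega)
  exact ⟨(hX.1.add (hb.smul hXY.1 (by omega))).sub (hc.smul hYY.1 (by omega)),
    (hX.2.add (hb.smul hXY.2 (by omega))).sub (hc.smul hYY.2 (by omega))⟩

omit ha hg hw in
lemma t_det4 {E1 E2 E3 E4 : (R2 → V4) → Row} (h1 : TameRow B r E1) (h2 : TameRow B r E2)
    (h3 : TameRow B r E3) (h4 : TameRow B r E4) (hr : r ≤ B.a) :
    Tame B r (fun F => det4 (E1 F) (E2 F) (E3 F) (E4 F)) := by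
  refine Tame.det hr fun i k => ?_
  fin_cases i <;> fin_cases k <;>
    first
    | exact h1.u.fst | exact h1.u.snd | exact h1.v.fst | exact h1.v.snd
    | exact h2.u.fst | exact h2.u.snd | exact h2.v.fst | exact h2.v.snd
    | exact h3.u.fst | exact h3.u.snd | exact h3.v.fst | exact h3.v.snd
    | exact h4.u.fst | exact h4.u.snd | exact h4.v.fst | exact h4.v.snd

omit ha hg hw in
lemma TameRow.mono {E : (R2 → V4) → Row} (h : TameRow B r E) {r' : ℕ} (hr : r ≤ r') :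
    TameRow B r' E := ⟨h.u.mono hr, h.v.mono hr⟩

lemma t_delta4 : Tame B 4 (fun F => delta4 B.η F) :=
  t_det4 ((t_rowC ha hg hw).mono (by omega)) ((t_rowX ha hg hw).mono (by omega))
    ((t_rowY ha hg hw).mono (by omega)) (t_rowBox ha hg hw) (by omega)

omit ha hg hw in
lemma t_det2 {x y : (R2 → V4) → R2 → R2} (hx : Tame B r x) (hy : Tame B r y) (hr : r ≤ B.a) :
    Tame B r (fun F p => det2 (x F p) (y F p)) :=
  (hx.fst.mul hy.snd hr).sub (hx.snd.mul hy.fst hr)

lemma t_k : Tame B 2 (fun F => k1 B.η F) ∧ Tame B 2 (fun F => k2 B.η F) :=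
  ⟨t_det2 (t_perp ha hg hw) (t_cc ha hg hw) (by omega),
    t_det2 (t_mulM ha hg hw (t_perp ha hg hw) le_rfl (by omega)) (t_cc ha hg hw) (by omega)⟩

lemma t_norm1 {E : (R2 → V4) → Row} (hE : TameRow B r E) (h3 : 3 ≤ r) (hr : r ≤ B.a) :
    TameRow B r (fun F => norm1 B.η F (E F)) := by
  have hk := (t_k ha hg hw).1.mono (show 2 ≤ r by omega)
  have hd := t_det2 ((t_perp ha hg hw).mono (show 2 ≤ r by omega)) hE.v hr
  exact ⟨(hk.smul hE.u hr).sub (hd.smul ((t_cc ha hg hw).dy.mono h3) hr),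
    (hk.smul hE.v hr).sub (hd.smul ((t_cc ha hg hw).mono (by omega)) hr)⟩

lemma t_next {E : (R2 → V4) → Row} (hE : TameRow B r E) (h3 : 3 ≤ r) (hr : r + 1 ≤ B.a) :
    TameRow B (r + 1) (fun F => next B.η F (E F)) := by
  have hn := t_norm1 ha hg hw hE h3 (by omega)
  have hX := t_dX ha hg hw hn h3 hr
  have hY := t_dY hn
  have h1 := (t_k ha hg hw).1.mono (show 2 ≤ r + 1 by omega)
  have h2 := (t_k ha hg hw).2.mono (show 2 ≤ r + 1 by omega)
  have hp := (t_perp ha hg hw).mono (show 2 ≤ r + 1 by omega)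
  have hd := (t_det2 (hE.v.mono (Nat.le_succ r)) ((t_cc ha hg hw).mono (by omega)) hr).mul
    (t_det2 hp (t_mulM ha hg hw hp (by omega) hr) hr) hr
  exact ⟨((h1.smul hX.1 hr).sub (h2.smul hY.1 hr)).sub
      (hd.smul ((t_cc ha hg hw).dy.dy.mono (by omega)) hr),
    ((h1.smul hX.2 hr).sub (h2.smul hY.2 hr)).sub
      (hd.smul (((Tame.const (2 : ℝ)).mono (Nat.zero_le _)).smul
        ((t_cc ha hg hw).dy.mono (by omega)) hr) hr)⟩

lemma t_chain : ∀ k, k + 3 ≤ B.a → TameRow B (k + 3) (fun F => chain B.η F k)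
  | 0, _ => t_rowX ha hg hw
  | k + 1, hk => (t_next ha hg hw (t_chain k (by omega)) (by omega) (by omega)).mono (by omega)

lemma t_detChain {j k : ℕ} (hj : j ≤ k) (hk : k + 3 ≤ B.a) :
    Tame B (k + 3) (fun F => detChain B.η F j k) :=
  t_det4 ((t_rowC ha hg hw).mono (by omega)) ((t_rowY ha hg hw).mono (by omega))
    ((t_chain ha hg hw j (by omega)).mono (by omega)) (t_chain ha hg hw k hk) hk

omit hw in
lemma t_hess {φ : (R2 → V4) → R2 → ℝ} (hφ : Tame B r φ) (hr : r + 2 ≤ B.a) :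
    Tame B (r + 2) (fun F => hess11 B.η F (φ F)) ∧ Tame B (r + 2) (fun F => hess12 B.η F (φ F)) ∧
      Tame B (r + 2) (fun F => hess22 B.η F (φ F)) := by
  obtain ⟨a1, a2, a3, b1, b2, b3⟩ := t_G ha hg
  have m : ∀ {c : (R2 → V4) → R2 → ℝ}, Tame B 2 c → Tame B (r + 2) c := fun h =>
    h.mono (Nat.le_add_left 2 r)
  have hx := hφ.dx.mono (Nat.le_succ (r + 1))
  have hy := hφ.dy.mono (Nat.le_succ (r + 1))
  exact ⟨(hφ.dx.dx.sub ((m a1).mul hx hr)).sub ((m b1).mul hy hr),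
    (hφ.dx.dy.sub ((m a2).mul hx hr)).sub ((m b2).mul hy hr),
    (hφ.dy.dy.sub ((m a3).mul hx hr)).sub ((m b3).mul hy hr)⟩

lemma t_pHess {φ : (R2 → V4) → R2 → ℝ} (hφ : Tame B r φ) (hr : r + 2 ≤ B.a) :
    Tame B (r + 2) (fun F => pHess B.η F (φ F)) := by
  obtain ⟨h11, h12, h22⟩ := t_hess ha hg hφ hr
  have m : ∀ {c : (R2 → V4) → R2 → ℝ}, Tame B 2 c → Tame B (r + 2) c := fun h =>
    h.mono (Nat.le_add_left 2 r)
  exact (((m (t_cR ha hg hw)).neg.mul h11 hr).add
    (((m (t_cP ha hg hw)).const_mul 2).mul h12 hr)).add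
    ((((m (t_cb ha hg hw)).mul (m (t_cP ha hg hw)) hr).sub
      ((m (t_ca ha hg hw)).mul (m (t_cR ha hg hw)) hr)).mul h22 hr)

lemma t_m0 {φ : (R2 → V4) → R2 → ℝ} (hφ : Tame B r φ) (h1 : 1 ≤ r) (hr : r + 1 ≤ B.a) :
    Tame B (r + 1) (fun F => m0 B.η F (φ F)) :=
  ((hφ.dx.sq hr).add ((((t_cb ha hg hw).mono (by omega)).mul hφ.dx hr).mul hφ.dy hr)).sub
    (((t_ca ha hg hw).mono (by omega)).mul (hφ.dy.sq hr) hr)

lemma t_mainMult : Tame B 7 (fun F => mainMult B.η F) :=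
  t_m0 ha hg hw (t_pHess ha hg hw (t_delta4 ha hg hw) (by omega)) (by omega) (by omega)

lemma t_criterion : Tame B 8 (fun F => criterion B.η F) := by
  refine (((t_mainMult ha hg hw).mono (by omega)).sq (by omega)).add
    (Tame.fin_sum (range 6) fun k hk => Tame.fin_sum (range k) fun j hj => ?_)
  have := mem_range.1 hk; have := mem_range.1 hj
  exact ((t_detChain ha hg hw (by omega) (by omega)).mono (by omega)).sq (by omega)

end

end

end Vale.Agent.P205.Algebra
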