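import Vale.Agent.P205.Full.Algebra.Reduce

/-!
# P205: the known rows
-/

namespace Vale.Agent.P205.Algebra

open scoped ContDiff Topology RealInnerProductSpace
open Finset Correction

noncomputable section

variable {B : Base} {r : ℕ}

lemma dy_fst_snd {u : R2 → R2} (hu : Smooth2 u) (p : R2) :
    dy (fun q => (u q).1) p = (dy u p).1 ∧ dy (fun q => (u q).2) p = (dy u p).2 := by
  simp [dy, fderiv.fst (Smooth2.diffAt hu p), fderiv.snd (Smooth2.diffAt hu p)]

variable (ha : 9 ≤ B.a) (hg : DetLow B) (hw : WLow B)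
include ha hg hw

lemma dy_mulN {F : R2 → V4} {Lam t : ℝ} {N : ℕ} (hF : B.Good F Lam t N) {v : R2 → R2}
    (hv : Smooth2 v) (p : R2) :
    dy (mulN B.η F v) p = mulN B.η F (dy v) p
      + ((v p).1 • dy (N1 B.η F) p + (v p).2 • dy (N2 B.η F) p) := by
  have s1 : Smooth2 (fun q => (v q).1) := hv.clm (ContinuousLinearMap.fst ℝ ℝ ℝ)
  have s2 : Smooth2 (fun q => (v q).2) := hv.clm (ContinuousLinearMap.snd ℝ ℝ ℝ)
  have t1 := (t_N1 ha hg hw).smooth hF
  have t2 := (t_N2 ha hg hw).smooth hF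
  obtain ⟨e1, e2⟩ := dy_fst_snd hv p
  show dy (fun q => (v q).1 • N1 B.η F q + (v q).2 • N2 B.η F q) p = _
  rw [dy_add (smooth2_smul s1 t1) (smooth2_smul s2 t2), dy_smul s1 t1, dy_smul s2 t2, e1, e2, mulN]
  abel

lemma dy_mulM {F : R2 → V4} {Lam t : ℝ} {N : ℕ} (hF : B.Good F Lam t N) {v : R2 → R2}
    (hv : Smooth2 v) (p : R2) :
    dy (mulM B.η F v) p = mulM B.η F (dy v) p
      + (-dy (ca B.η F) p * (v p).2, -dy (cb B.η F) p * (v p).2) := by
  have sa := (t_ca ha hg hw).smooth hF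
  have sb := (t_cb ha hg hw).smooth hF
  have s1 : Smooth2 (fun q => (v q).1) := hv.clm (ContinuousLinearMap.fst ℝ ℝ ℝ)
  have s2 : Smooth2 (fun q => (v q).2) := hv.clm (ContinuousLinearMap.snd ℝ ℝ ℝ)
  have i1 : Smooth2 (fun q => ((-ca B.η F q * (v q).2, (0 : ℝ)) : R2)) :=
    (smooth2_mul (smooth2_neg sa) s2).clm (ContinuousLinearMap.inl ℝ ℝ ℝ)
  obtain ⟨e1, e2⟩ := dy_fst_snd hv p
  have sm : Smooth2 (mulM B.η F v) := by
    have i2 : Smooth2 (fun q => (((0 : ℝ), -(v q).1 - cb B.η F q * (v q).2) : R2)) :=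
      ((smooth2_neg s1).sub (smooth2_mul sb s2)).clm (ContinuousLinearMap.inr ℝ ℝ ℝ)
    have e : mulM B.η F v = fun q => (((-ca B.η F q * (v q).2, (0 : ℝ)) : R2)
        + ((0 : ℝ), -(v q).1 - cb B.η F q * (v q).2)) := funext fun q => by simp [mulM]
    rw [e]
    exact i1.add i2
  obtain ⟨g1, g2⟩ := dy_fst_snd sm p
  have ea : dy (fun q => -ca B.η F q * (v q).2) p
      = -dy (ca B.η F) p * (v p).2 + -ca B.η F p * (dy v p).2 := by
    rw [← e2, ← dy_neg]; exact dy_smul (smooth2_neg sa) s2 p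
  have eb : dy (fun q => -(v q).1 - cb B.η F q * (v q).2) p
      = -(dy v p).1 - (dy (cb B.η F) p * (v p).2 + cb B.η F p * (dy v p).2) := by
    have h := dy_add (smooth2_neg s1) (smooth2_neg (smooth2_mul sb s2)) p
    rw [dy_neg, dy_neg, e1] at h
    rw [show dy (fun q => cb B.η F q * (v q).2) p = _ from dy_smul sb s2 p, e2] at h
    simpa [sub_eq_add_neg] using h
  refine Prod.ext ?_ ?_
  · rw [← g1]
    show dy (fun q => -ca B.η F q * (v q).2) p = _
    rw [ea]
    simp [mulM]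
    ring
  · rw [← g2]
    show dy (fun q => -(v q).1 - cb B.η F q * (v q).2) p = _
    rw [eb]
    simp [mulM]
    ring

/-- The `x`-derivative of a known row, reduced by the closed system. -/
theorem KnownRow.dX {E : (R2 → V4) → Row} (h : KnownRow B E) (hE : TameRow B r E) (h3 : 3 ≤ r)
    (hr : r + 1 ≤ B.a) : Known B (fun F => dXu B.η F (E F)) (fun F => dXv B.η F (E F))
      fun F => mulM B.η F (E F).v := by
  refine ((((Solv.comp h Op.id.dx.neg).sub (solv_S ha hg hw hE.u h3 (by omega))).sub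
    ((solv_S ha hg hw hE.v h3 (by omega)).comp Op.id.dy.neg)).add
    (solv_S ha hg hw hE.v.dy (by omega) hr)).congr fun {F Lam t N} hF φ hφ p _ => ?_
  have su := hE.u.smooth hF
  have sv := hE.v.smooth hF
  have sx := smooth2_dx hφ
  have sy := smooth2_dy hφ
  have Nu : Smooth2 (mulN B.η F (E F).u) :=
    (t_mulN ha hg hw hE.u h3 (by omega)).smooth hF
  have Nv : Smooth2 (mulN B.η F (E F).v) :=
    (t_mulN ha hg hw hE.v h3 (by omega)).smooth hF
  have Mu : Smooth2 (mulM B.η F (E F).u) :=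
    (t_mulM ha hg hw hE.u (by omega) (by omega)).smooth hF
  have Mv : Smooth2 (mulM B.η F (E F).v) :=
    (t_mulM ha hg hw hE.v (by omega) (by omega)).smooth hF
  have Mvy : Smooth2 (mulM B.η F (dy (E F).v)) :=
    (t_mulM ha hg hw hE.v.dy (by omega) hr).smooth hF
  set u := (E F).u
  set v := (E F).v
  set Z : R2 → R2 := fun q => (-dy (ca B.η F) q * (v q).2, -dy (cb B.η F) q * (v q).2)
  have hZ : Z = fun q => dy (mulM B.η F v) q - mulM B.η F (dy v) q :=
    funext fun q => by rw [dy_mulM ha hg hw hF sv q]; abel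
  have sZ : Smooth2 Z := hZ ▸ (smooth2_dy Mv).sub Mvy
  have w1 : dy (fun q => φ q • mulM B.η F v q)
      = fun q => dy φ q • mulM B.η F v q + (φ q • mulM B.η F (dy v) q + φ q • Z q) :=
    funext fun q => by rw [dy_smul hφ Mv, dy_mulM ha hg hw hF sv q, smul_add]
  have w2 : (fun q => φ q • dXv B.η F (E F) q)
      = fun q => φ q • mulM B.η F u q + (φ q • dx v q + (φ q • mulN B.η F v q + φ q • Z q)) :=
    funext fun q => by simp only [dXv, smul_add, u, v, Z]; abel
  simp only [T3, smul_zero, dy_zero, add_zero, dXu]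
  rw [w1, w2]
  simp only [← emb_sub, ← emb_add]
  congr 1
  rw [dy_add (smooth2_smul hφ Mu) ((smooth2_smul hφ (smooth2_dx sv)).add
      ((smooth2_smul hφ Nv).add (smooth2_smul hφ sZ))),
    dy_add (smooth2_smul hφ (smooth2_dx sv)) ((smooth2_smul hφ Nv).add (smooth2_smul hφ sZ)),
    dy_add (smooth2_smul hφ Nv) (smooth2_smul hφ sZ),
    dy_add (smooth2_smul sy Mv) ((smooth2_smul hφ Mvy).add (smooth2_smul hφ sZ)),
    dy_add (smooth2_smul hφ Mvy) (smooth2_smul hφ sZ),
    dy_smul hφ (smooth2_dx sv), dy_smul hφ Nv, dy_mulN ha hg hw hF sv p,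
    dx_smul hφ su, dx_smul hφ (smooth2_dy sv)]
  simp only [neg_smul]
  rw [dy_neg (fun q => dx φ q • v q), dx_neg (fun q => dy φ q • v q),
    dy_neg (fun q => dy φ q • mulM B.η F v q), dy_smul sx sv, dx_smul sy sv, d_comm hφ p,
    d_comm sv p]
  module

end

end Vale.Agent.P205.Algebra
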