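import Vale.Agent.P205.Full.Algebra.Inverse
import Vale.Agent.P205.Correction.Scalar

/-!
# P205: exact correction for the rank-one equation

`scalar_correction` solves `det (g - metric of F) = 0` near a map for which this determinant is
small, provided the coefficient `coefX` of the zero order inverse is bounded below.  The inverse is
a multiple of the normal part of `F_xx`, so supports do not spread.
-/

namespace Vale.Agent.P205.Algebra

open scoped ContDiff Topology RealInnerProductSpace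
open Finset Correction

noncomputable section

/-- The mixed determinant of two symmetric matrices in the components `(xx, xy, yy)`. -/
def mdet : (Fin 3 → ℝ) →L[ℝ] (Fin 3 → ℝ) →L[ℝ] ℝ :=
  LinearMap.toContinuousBilinearMap
    (LinearMap.mk₂ ℝ (fun u v : Fin 3 → ℝ => (u 0 * v 2 + u 2 * v 0) / 2 - u 1 * v 1)
    (fun u v w => by simp; ring) (fun c u v => by simp; ring)
    (fun u v w => by simp; ring) (fun c u v => by simp; ring))

lemma mdet_apply (u v : Fin 3 → ℝ) :
    mdet u v = (u 0 * v 2 + u 2 * v 0) / 2 - u 1 * v 1 := rfl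

/-- The determinant. -/
def rdet (u : Fin 3 → ℝ) : ℝ := u 0 * u 2 - u 1 ^ 2

lemma mdet_self (u : Fin 3 → ℝ) : mdet u u = rdet u := by rw [mdet_apply, rdet]; ring

lemma rdet_sub (u v : Fin 3 → ℝ) : rdet (u - v) = rdet (v - u) := by simp [rdet]; ring

/-- The normal part of `F_xx`. -/
def nX (η : R2 → ℝ) (F : R2 → V4) (p : R2) : V4 :=
  F11 F p - ⟪F11 F p, dx F p⟫ • v1 η F p - ⟪F11 F p, dy F p⟫ • v2 η F p

/-- The coefficient of the zero order inverse. -/
def coefX (η : R2 → ℝ) (g : R2 → Fin 3 → ℝ) (F : R2 → V4) (p : R2) : ℝ :=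
  (g p 0 - g11 F p) * ⟪F22 F p, nX η F p⟫ + (g p 2 - g22 F p) * ⟪F11 F p, nX η F p⟫
    - 2 * (g p 1 - g12 F p) * ⟪F12 F p, nX η F p⟫

section
variable {B : Base}

lemma t_nX (ha : 9 ≤ B.a) (hg : DetLow B) : Tame B 2 (fun F => nX B.η F) := by
  have h1 := t_dxF.mono (B := B) (show 1 ≤ 2 by norm_num)
  have h2 := t_dyF.mono (B := B) (show 1 ≤ 2 by norm_num)
  exact ((t_F11.sub ((t_F11.inner h1 (by omega)).smul ((t_v1 ha hg).mono one_le_two) (by omega))).sub
    ((t_F11.inner h2 (by omega)).smul ((t_v2 ha hg).mono one_le_two) (by omega))).congr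
      fun _ _ => rfl

lemma t_coefX (ha : 9 ≤ B.a) (hg : DetLow B) {g : R2 → Fin 3 → ℝ} (hgs : Smooth2 g) :
    Tame B 2 (fun F => coefX B.η g F) := by
  have hn := t_nX ha hg
  have co : ∀ k : Fin 3, Tame B 2 (fun _ p => g p k) := fun k =>
    ((Tame.fix (hgs.clm (ContinuousLinearMap.proj (R := ℝ) (φ := fun _ : Fin 3 => ℝ) k))).mono
      (Nat.zero_le 2)).congr fun _ _ => rfl
  have hx := t_dxF.mono (B := B) (show 1 ≤ 2 by norm_num)
  have hy := t_dyF.mono (B := B) (show 1 ≤ 2 by norm_num)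
  have h : 2 ≤ B.a := by omega
  exact (((((co 0).sub (hx.inner hx h)).mul (t_F22.inner hn h) h).add
    (((co 2).sub (hy.inner hy h)).mul (t_F11.inner hn h) h)).sub
    ((((co 1).sub (hx.inner hy h)).const_mul 2).mul (t_F12.inner hn h) h)).congr fun _ _ => rfl

variable {F : R2 → V4} {Lam t : ℝ} {N : ℕ}

/-- The zero order inverse of the rank-one equation. -/
lemma scalar_inverse_eq (hg : DetLow B) (hF : B.Good F Lam t N) {g : R2 → Fin 3 → ℝ} {ψ : R2 → ℝ}
    (hψ : Smooth2 ψ) (hn : Smooth2 (nX B.η F)) {p : R2} (hp : p ∈ B.O) :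
    2 * mdet (metF F p - g p) (linM F (fun q => ψ q • nX B.η F q) p)
      = 2 * coefX B.η g F p * ψ p := by
  have ho : ∀ q ∈ B.O, ⟪dx F q, nX B.η F q⟫ = 0 ∧ ⟪dy F q, nX B.η F q⟫ = 0 := fun q hq => by
    obtain ⟨e1, e2, e3, e4⟩ := dual_frame hg hF hq
    constructor <;>
      simp [nX, inner_sub_right, inner_smul_right, e1, e2, e3, e4, real_inner_comm (F11 F q)]
  rw [linM_field hn hF.smooth B.isOpen_O (fun q hq => (ho q hq).1) (fun q hq => (ho q hq).2) hp hψ,
    mdet_apply]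
  simp [metF, coefX]
  ring

end

/-- Exact correction of an approximate solution of the rank-one equation, with bounds on every
seminorm of the correction which are uniform in the frequency when the initial error is smaller
than all its powers. -/
theorem scalar_correction (K : ℕ → ℝ) {η : R2 → ℝ} (hη : Smooth2 η) (hη1 : ∀ p, η p ≤ 1)
    {O : Set R2} (hO : IsOpen O) (hηO : ∀ p ∈ O, η p = 1) {radial : R2 → ℝ}
    (hrad : Smooth2 radial) {R : ℝ} (hR : 0 < R) (hsub : ∀ p, radial p ≤ 2 * R → p ∈ O)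
    {g : R2 → Fin 3 → ℝ} (hg : Smooth2 g) (m k : ℕ) :
    ∃ (a n : ℕ) (L₀ : ℝ), ∀ E : ℕ → ℝ, ∃ G : ℕ → ℕ → ℝ, ∀ L : ℝ, L₀ ≤ L → ∀ F0 : R2 → V4,
      Smooth2 F0 → (∀ i, pn i F0 ≤ K i * L ^ i) →
      (∀ p, R * (2 - 1 / L) < radial p → rdet (g p - metF F0 p) = 0) →
      (∀ p, L⁻¹ ≤ detg F0 p + (1 - η p)) →
      (∀ p, L⁻¹ ≤ coefX η g F0 p + (1 - η p)) →
      (∀ i ≤ a, pn i (fun p => rdet (g p - metF F0 p)) * L ^ n ≤ 1) →
      (∀ N, ∀ i ≤ a, pn i (fun p => rdet (g p - metF F0 p)) * L ^ N ≤ E N) →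
      ∃ x : R2 → V4, Smooth2 x ∧ (∀ p, 2 * R ≤ radial p → x p = 0) ∧ pn m x ≤ (L ^ k)⁻¹ ∧
        (∀ i N, pn i x * L ^ N ≤ G i N) ∧
        ∀ p, rdet (g p - metF (fun q => F0 q + x q) p) = 0 := by
  set mk : ((R2 → V4) → ℝ → Prop) → Base := fun adm =>
    ⟨9, fun j => |K j| + 1, O, hO, η, hη, hηO, hη1, adm⟩
  set B0 := mk fun _ _ => True
  set B1 := mk fun F M => ∀ p, M⁻¹ ≤ detg F p + (1 - η p)
  set B2 := mk fun F M =>
    (∀ p, M⁻¹ ≤ detg F p + (1 - η p)) ∧ ∀ p, M⁻¹ ≤ coefX η g F p + (1 - η p)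
  obtain ⟨q1, C1, hC1, st1⟩ := stable (t_reg (t_detg (B := B0) le_rfl)) (show (1 : ℕ) ≤ 9 by norm_num)
  obtain ⟨q2, C2, hC2, st2⟩ := stable (t_reg (t_coefX (B := B1) le_rfl (fun hF p => hF.adm p) hg))
    (show (2 : ℕ) ≤ 9 by norm_num)
  have hg2 : DetLow B2 := fun hF p => hF.adm.1 p
  have hrc : Tame B2 2 (fun F p => 1 / 2 * (coefX η g F p + (1 - η p))⁻¹) :=
    ((t_reg (t_coefX (B := B2) le_rfl hg2 hg)).inv (show (2 : ℕ) ≤ 9 by norm_num) 1
      fun hF p => by rw [pow_one]; exact hF.adm.2 p).const_mul (1 / 2)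
  obtain ⟨M, hM, hinv⟩ : ∃ M : (R2 → V4) → (R2 → ℝ) → R2 → V4, Op B2 M ∧
      ∀ F h, M F h = fun p =>
        (1 / 2 * (coefX η g F p + (1 - η p))⁻¹ * h p) • nX η F p :=
    ⟨_, (Op.id.mulc hrc (show (2 : ℕ) ≤ 9 by norm_num)).smulv (t_nX le_rfl hg2)
      (show (2 : ℕ) ≤ 9 by norm_num), fun _ _ => rfl⟩
  obtain ⟨r, qM, CM, hCM, hb⟩ := hM.bound
  set a := max (max 9 m) r
  set q := q1 + q2 + qM + k + 2
  set P : Setup V4 (Fin 3 → ℝ) :=
    ⟨metB, radial, R, a, fun j => |K j| + pn j g, CM, hrad, hR, by omega⟩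
  obtain ⟨Lam₀, hex⟩ := exists_scalar_exact_bound P mdet
  refine ⟨a, 2 * q * Newton.smallExp a, 2 + C1 + C2 + |Lam₀|, fun E => ?_⟩
  obtain ⟨G, hG⟩ := hex fun N => E (2 * q * N)
  refine ⟨fun i N => G i N, fun L hL F0 hF0 hF0K hsupp hdet hcoef hsmall hE => ?_⟩
  have hL2 : 2 ≤ L := by linarith [abs_nonneg Lam₀]
  set Mm := L ^ 2
  set Lam := Mm ^ q
  have hLM : L ≤ Mm := le_self_pow₀ (by linarith) (by norm_num)
  have hM1 : 1 ≤ Mm := by linarith
  have hMLam : Mm ≤ Lam := le_self_pow₀ hM1 (by omega)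
  have hLam1 : 1 ≤ Lam := hM1.trans hMLam
  have hL0 : 0 ≤ L := by linarith
  have mkGood : ∀ (adm : (R2 → V4) → ℝ → Prop) (x : R2 → V4) (t : ℝ) (N : ℕ), Smooth2 x → Mm ≤ t →
      (∀ j ≤ N, pn j x ≤ t ^ (j - 9)) → adm (fun q => F0 q + x q) Mm →
      (mk adm).Good (fun q => F0 q + x q) Mm t N := fun adm x t N hx ht hxt ha =>
    { smooth := hF0.add hx
      one_le := hM1
      le_t := ht
      adm := ha
      bound := fun j hj => by
        have h1 : pn j F0 ≤ |K j| * Mm ^ j := (hF0K j).trans (mul_le_mul (le_abs_self _)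
          (pow_le_pow_left₀ hL0 hLM j) (by positivity) (abs_nonneg _))
        have h2 : (1 : ℝ) ≤ t ^ (j - 9) := one_le_pow₀ (hM1.trans ht)
        have h3 : (1 : ℝ) ≤ Mm ^ j := one_le_pow₀ hM1
        refine (pn_add_le hF0 hx j).trans ?_
        show _ ≤ (|K j| + 1) * (Mm ^ j * t ^ (j - 9))
        rw [add_mul, one_mul]
        exact add_le_add (h1.trans (mul_le_mul_of_nonneg_left
          (le_mul_of_one_le_right (by linarith) h2) (abs_nonneg _)))
          ((hxt j hj).trans (le_mul_of_one_le_left (by linarith) h3)) }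
  have hz : ∀ t : ℝ, Mm ≤ t → ∀ j : ℕ, pn j (fun _ : R2 => (0 : V4)) ≤ t ^ (j - 9) := fun t ht j => by
    refine (pn_const_le (0 : V4) j).trans ?_
    rw [norm_zero, mul_zero]
    exact pow_nonneg (by linarith) _
  have hzero : (fun q => F0 q + (fun _ : R2 => (0 : V4)) q) = F0 := funext fun q => add_zero _
  have hadm : ∀ x : R2 → V4, Smooth2 x → pn a x ≤ Lam⁻¹ → B2.adm (fun q => F0 q + x q) Mm := by
    intro x hx hxa
    have hx9 : pn 9 x ≤ Lam⁻¹ := (pn_mono (show 9 ≤ a by omega) x).trans hxa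
    have hxt : ∀ j ≤ 9, pn j x ≤ Mm ^ (j - 9) := fun j hj => by
      rw [Nat.sub_eq_zero_of_le hj, pow_zero]
      exact ((pn_mono hj x).trans hx9).trans (inv_le_one_of_one_le₀ hLam1)
    have hdiff : pn 9 (fun p => (F0 p + x p) - F0 p) ≤ Lam⁻¹ := by simpa using hx9
    have key : ∀ (C : ℝ) (e : ℕ) (v v0 : ℝ), 0 ≤ C → C + 1 ≤ Mm → e + 2 ≤ q → L⁻¹ ≤ v0 →
        v0 - C * (Mm ^ e * pn 9 (fun p => (F0 p + x p) - F0 p)) ≤ v → Mm⁻¹ ≤ v := by
      intro C e v v0 hC hCM he hv0 hv
      have h1 : C * (Mm ^ e * pn 9 (fun p => (F0 p + x p) - F0 p)) ≤ Mm⁻¹ := by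
        refine (mul_le_mul_of_nonneg_left (mul_le_mul_of_nonneg_left hdiff (by positivity))
          hC).trans ?_
        rw [← mul_assoc, ← div_eq_mul_inv, div_le_iff₀ (by linarith), inv_mul_eq_div,
          le_div_iff₀ (by linarith)]
        calc C * Mm ^ e * Mm = C * Mm ^ (e + 1) := by ring
          _ ≤ Mm * Mm ^ (e + 1) := mul_le_mul_of_nonneg_right (by linarith) (by positivity)
          _ = Mm ^ (e + 2) := by ring
          _ ≤ Lam := pow_le_pow_right₀ hM1 he
      have h2 : 2 * Mm⁻¹ ≤ L⁻¹ := by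
        rw [show Mm = L * L from pow_two L, mul_inv, ← mul_assoc]
        refine mul_le_of_le_one_left (inv_nonneg.2 hL0) ?_
        rw [← div_eq_mul_inv, div_le_one (by linarith)]
        exact hL2
      linarith
    have hM0 : ∀ C, C ≤ C1 + C2 → C + 1 ≤ Mm := fun C hC => by
      linarith [abs_nonneg Lam₀]
    have g0 : ∀ adm : (R2 → V4) → ℝ → Prop, adm (fun q => F0 q + (fun _ : R2 => (0 : V4)) q) Mm →
        (mk adm).Good F0 Mm Mm 9 := fun adm h =>
      hzero ▸ mkGood adm _ Mm 9 Smooth2.zero le_rfl (fun j _ => hz Mm le_rfl j) h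
    have low : ∀ v : ℝ, L⁻¹ ≤ v → Mm⁻¹ ≤ v := fun v hv =>
      (inv_anti₀ (by linarith) hLM).trans hv
    have d1 : ∀ p, Mm⁻¹ ≤ detg (fun q => F0 q + x q) p + (1 - η p) := fun p =>
      key C1 q1 _ _ hC1 (hM0 _ (by linarith)) (by omega) (hdet p)
        (st1 (mkGood _ x Mm 9 hx le_rfl hxt trivial) (g0 _ trivial) p)
    exact ⟨d1, fun p => key C2 q2 _ _ hC2 (hM0 _ (by linarith)) (by omega) (hcoef p)
      (st2 (mkGood _ x Mm 9 hx le_rfl hxt d1)
        (g0 _ (by rw [hzero]; exact fun p => low _ (hdet p))) p)⟩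
  have good : ∀ (x : R2 → V4) (t : ℝ) (N : ℕ), Smooth2 x → Lam ≤ t → pn a x ≤ Lam⁻¹ →
      (∀ j ≤ N, pn j x ≤ t ^ (j - a)) → B2.Good (fun q => F0 q + x q) Mm t N :=
    fun x t N hx ht hxa hxt => mkGood _ x t N hx (hMLam.trans ht)
      (fun j hj => (hxt j hj).trans (pow_le_pow_right₀ (hLam1.trans ht) (by omega)))
      (hadm x hx hxa)
  have good0 : ∀ x : R2 → V4, Smooth2 x → pn a x ≤ Lam⁻¹ → B2.Good (fun q => F0 q + x q) Mm Lam a :=
    fun x hx hxa => good x Lam a hx le_rfl hxa fun j hj => by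
      rw [Nat.sub_eq_zero_of_le hj, pow_zero]
      exact ((pn_mono hj x).trans hxa).trans (inv_le_one_of_one_le₀ hLam1)
  have hval : ∀ (x : R2 → V4) p,
      P.sErr mdet F0 g x p = rdet (g p - metF (fun q => F0 q + x q) p) := fun x p => by
    rw [rdet_sub, ← mdet_self]
    rfl
  have herr : ∀ (x : R2 → V4) (s : ℝ), L ≤ s →
      (∀ p, R * (2 - 1 / s) < radial p → x p = 0) → ∀ p, R * (2 - 1 / s) < radial p →
      P.sErr mdet F0 g x =ᶠ[𝓝 p] 0 := by
    intro x s hs hsup p hp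
    have hop : IsOpen {q | R * (2 - 1 / s) < radial q} :=
      isOpen_lt continuous_const hrad.1.continuous
    filter_upwards [hop.mem_nhds hp] with q hq
    have e : (fun y => F0 y + x y) =ᶠ[𝓝 q] F0 := by
      filter_upwards [hop.mem_nhds hq] with y hy
      rw [hsup y hy, add_zero]
    rw [hval, ← metB_self, e.fderiv_eq, metB_self, hsupp q ?_]
    · rfl
    refine lt_of_le_of_lt (mul_le_mul_of_nonneg_left ?_ hR.le) hq
    linarith [one_div_le_one_div_of_le (by linarith : (0 : ℝ) < L) hs]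
  have hfar : ∀ p, 2 * R < radial p → ∀ s : ℝ, 1 ≤ s → R * (2 - 1 / s) < radial p :=
    fun p hp s hs => by
      have : 0 < 1 / s := by positivity
      nlinarith
  have herr2 : ∀ x : P.corrSub, ∀ p, 2 * R < radial p → P.sErr mdet F0 g x.1 =ᶠ[𝓝 p] 0 := by
    intro x p hp
    have hop : IsOpen {q | 2 * R < radial q} := isOpen_lt continuous_const hrad.1.continuous
    filter_upwards [hop.mem_nhds hp] with q hq
    have e : (fun y => F0 y + x.1 y) =ᶠ[𝓝 q] F0 := by
      filter_upwards [hop.mem_nhds hq] with y hy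
      rw [x.2.2 y hy, add_zero]
    rw [hval, ← metB_self, e.fderiv_eq, metB_self, hsupp q (hfar q hq L (by linarith))]
    rfl
  have hsm : ∀ x : P.corrSub, Smooth2 (P.sErr mdet F0 g x.1) := fun x =>
    P.smooth2_sErr mdet hF0 hg x.2.1
  classical
  set w : P.corrSub → R2 → V4 := fun x => M (fun q => F0 q + x.1 q) (P.sErr mdet F0 g x.1)
  have hw : ∀ x : P.corrSub, pn a x.1 ≤ Lam⁻¹ → w x ∈ P.corrSub := fun x hxa =>
    ⟨hM.smooth (good0 x.1 x.2.1 hxa) (hsm x), fun p hp =>
      (hM.loc _ _ p (herr2 x p hp)).eq_of_nhds⟩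
  set inv : P.corrSub → P.corrSub := fun x =>
    if h : pn a x.1 ≤ Lam⁻¹ then ⟨w x, hw x h⟩ else 0
  have hinvw : ∀ x : P.corrSub, pn a x.1 ≤ Lam⁻¹ → (inv x).1 = w x := fun x h => by
    simp [inv, dif_pos h]
  have hKpow : ∀ i, L ^ i ≤ Lam ^ i := fun i => pow_le_pow_left₀ hL0 (hLM.trans hMLam) i
  set D : P.SProblem mdet :=
    { Lam := Lam
      F0 := F0
      g := g
      inv := inv
      one_le := hLam1
      F0_smooth := hF0
      g_smooth := hg
      F0_le := fun i => (hF0K i).trans (mul_le_mul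
        ((le_abs_self _).trans (le_add_of_nonneg_right (pn_nonneg i g))) (hKpow i) (by positivity)
        (by have := pn_nonneg i g; positivity))
      g_le := fun i => (le_add_of_nonneg_left (abs_nonneg (K i))).trans
        (le_mul_of_one_le_right (by have := pn_nonneg i g; positivity) (one_le_pow₀ hLam1))
      symm := fun u v => by simp only [mdet_apply]; ring
      inv_eq := fun x hxa p => by
        rw [hinvw x hxa]
        have hlin : ∀ u, P.lin (fun q => F0 q + x.1 q) u p = linM (fun q => F0 q + x.1 q) u p := by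
          intro u
          simp only [Setup.lin, P, metB_apply]
          funext l
          fin_cases l <;> simp [linM, Algebra.dx, Algebra.dy, real_inner_comm] <;> ring
        have hF := good0 x.1 x.2.1 hxa
        rcases le_or_gt (radial p) (2 * R) with hp | hp
        · have hpO : p ∈ B2.O := hsub p hp
          have hc := hF.adm.2 p
          have hη0 : η p = 1 := hηO p hpO
          rw [hη0, sub_self, add_zero] at hc
          have hc0 : coefX η g (fun q => F0 q + x.1 q) p ≠ 0 :=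
            (lt_of_lt_of_le (inv_pos.2 (by linarith)) hc).ne'
          rw [hlin]
          show 2 * mdet (metF (fun q => F0 q + x.1 q) p - g p)
            (linM _ (M (fun q => F0 q + x.1 q) (P.sErr mdet F0 g x.1)) p) = _
          rw [hinv]
          have hψ : Smooth2 fun q => 1 / 2 * (coefX η g (fun y => F0 y + x.1 y) q + (1 - η q))⁻¹ *
              P.sErr mdet F0 g x.1 q :=
            ((hrc.smooth hF).bilin (hsm x) (ContinuousLinearMap.mul ℝ ℝ))
          refine (scalar_inverse_eq (B := B2) (g := g) hg2 hF hψ ((t_nX le_rfl hg2).smooth hF)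
            hpO).trans ?_
          show 2 * coefX η g (fun q => F0 q + x.1 q) p * _ = _
          rw [hη0, sub_self, add_zero]
          field_simp
        · rw [(herr2 x p hp).eq_of_nhds]
          have e : fderiv ℝ (w x) p = 0 := by
            rw [(hM.loc _ _ p (herr2 x p hp)).fderiv_eq]
            simp
          simp [Setup.lin, e]
      inv_sup := fun s x hs hxa hsup p hp => by
        rw [hinvw x hxa]
        exact (hM.loc _ _ p (herr x.1 s ((hLM.trans hMLam).trans hs) hsup p hp)).eq_of_nhds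
      inv_le := fun i t δ x ht hxa hxt he => by
        rw [hinvw x hxa]
        have hδ := delta_nonneg he
        have ht1 : 1 ≤ t := hLam1.trans ht
        refine (hb (good x.1 t (i + a) x.2.1 ht hxa hxt) (hsm x) i δ (by omega)
          fun j hj => he j (show j ≤ i + a by omega)).trans ?_
        show _ ≤ CM i * Lam ^ (a * (i + 1)) * t ^ (i + a) * δ
        rw [← mul_assoc, ← mul_assoc]
        refine mul_le_mul_of_nonneg_right (mul_le_mul (mul_le_mul_of_nonneg_left ?_ (hCM i))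
          (pow_le_pow_right₀ ht1 (by omega)) (by positivity)
          (mul_nonneg (hCM i) (by positivity))) hδ
        refine (pow_le_pow_right₀ hM1 (?_ : qM * (i + 1) ≤ q * (a * (i + 1)))).trans_eq
          (pow_mul Mm q _)
        rw [← Nat.mul_assoc]
        exact Nat.mul_le_mul_right _ (le_trans (by omega) (Nat.le_mul_of_pos_right q (by omega))) }
  have e : P.sErr mdet F0 g 0 = fun p => rdet (g p - metF F0 p) := funext fun p => by
    rw [hval]
    simp only [Pi.zero_apply, add_zero]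
  have hpow : ∀ N, Lam ^ N = L ^ (2 * q * N) := fun N => by
    rw [← pow_mul, ← pow_mul, Nat.mul_assoc]
  obtain ⟨x, hx, hxv, hxa, hxb, hxe⟩ := hG D (show Lam₀ ≤ Lam by
    linarith [le_abs_self Lam₀, hLM.trans hMLam]) (fun i hi => by
      show pn i (P.sErr mdet F0 g 0) * Lam ^ Newton.smallExp a ≤ 1
      rw [e, hpow]
      exact hsmall i hi) fun N i hi => by
      show pn i (P.sErr mdet F0 g 0) * Lam ^ N ≤ E (2 * q * N)
      rw [e, hpow]
      exact hE _ i hi
  refine ⟨x, hx, hxv, ((pn_mono (show m ≤ a by omega) x).trans hxa).trans ?_, fun i N =>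
    le_trans (mul_le_mul_of_nonneg_left (pow_le_pow_left₀ hL0 (hLM.trans hMLam) N) (pn_nonneg i x))
      (hxb i N), fun p => (hval x p).symm.trans (hxe p)⟩
  refine inv_anti₀ (pow_pos (by linarith) k) ?_
  show L ^ k ≤ Lam
  exact (pow_le_pow_left₀ hL0 hLM k).trans (pow_le_pow_right₀ hM1 (by omega))

end

end Vale.Agent.P205.Algebra
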