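import Vale.Agent.P205.Full.Algebra.Transport

/-!
# P205: exact correction from the criteria of several cells

The denominator of the right inverse is the criterion of the own cell plus the transported
criteria of finitely many other cells, so the band where the own criterion is small may be
covered by cells in which the map is good.
-/

namespace Vale.Agent.P205.Algebra

open scoped ContDiff Topology
open Finset Correction

noncomputable section

variable {ι : Type} [Fintype ι]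

/-- The sum of the criterion and of the transported criteria. -/
def totalCriterion (η : R2 → ℝ) (P : ι → Piece) (F : R2 → V4) (p : R2) : ℝ :=
  criterion η F p + ∑ i, (P i).mult F p

/-- The lower bounds of all denominators. -/
def SumLow (η η' : R2 → ℝ) (P : ι → Piece) (F : R2 → V4) (M : ℝ) : Prop :=
  (∀ p, M⁻¹ ≤ detg F p + (1 - η p)) ∧ (∀ p, M⁻¹ ≤ Wsq η F p + (1 - η p)) ∧
    (∀ i, (P i).Adm F M) ∧ ∀ p, M⁻¹ ≤ totalCriterion η P F p + (1 - η' p)

variable (K : ℕ → ℝ) {η : R2 → ℝ} (hη : Smooth2 η) (hη1 : ∀ p, η p ≤ 1)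
  {η' : R2 → ℝ} (hη' : Smooth2 η') {O : Set R2} (hO : IsOpen O) (hηO : ∀ p ∈ O, η p = 1)
  (P : ι → Piece)

omit η' hη' in
lemma tame_total (adm : (R2 → V4) → ℝ → Prop)
    (hd : ∀ F M, adm F M → ∀ p, M⁻¹ ≤ detg F p + (1 - η p))
    (hW : ∀ F M, adm F M → ∀ p, M⁻¹ ≤ Wsq η F p + (1 - η p))
    (hA : ∀ i F M, adm F M → (P i).Adm F M) :
    Tame (cellBase K hη hη1 hO hηO adm) 8 (fun F => totalCriterion η P F) := by
  choose Cg hCg hbg using fun i => (P i).exists_bound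
  exact (t_criterion (B := cellBase K hη hη1 hO hηO adm) le_rfl (fun hF p => hd _ _ hF.adm p)
    fun hF p => hW _ _ hF.adm p).add (Tame.fin_sum univ fun i _ =>
      (P i).tame_mult (hCg i) (hbg i) le_rfl (hA i))

include hη' in
/-- The right inverse with the denominator of several cells. -/
theorem inv1_sum (hη'O : ∀ p ∈ O, η' p = 1) :
    Inv1 (cellBase K hη hη1 hO hηO (SumLow η η' P)) fun _ _ => 1 := by
  set B := cellBase K hη hη1 hO hηO (SumLow η η' P)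
  choose Cg hCg hbg using fun i => (P i).exists_bound
  have hsum : Inv1 B fun F p => totalCriterion η P F p :=
    ((inv1_criterion (B := B) le_rfl (fun hF p => hF.adm.1 p) (fun hF p => hF.adm.2.1 p)).add
      (Inv1.fin_sum univ (c := fun i F => (P i).mult F) fun i _ =>
        (P i).inv1_mult (hCg i) (hbg i) le_rfl fun F M h => h.2.2.1 i)).congr
      fun _ _ _ => rfl
  have hden : Tame B 8 (fun F p => (totalCriterion η P F p + (1 - η' p))⁻¹) :=
    (t_cut (tame_total K hη hη1 hO hηO P _ (fun F M h => h.1) (fun F M h => h.2.1)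
      fun i F M h => h.2.2.1 i) hη').inv (show (8 : ℕ) ≤ 9 by norm_num) 1
      fun hF p => by simpa using hF.adm.2.2.2 p
  refine (hsum.mul hden (show (8 : ℕ) ≤ 9 by norm_num)).congr fun {F Lam t N} hF p hp => ?_
  have h := hF.adm.2.2.2 p
  have hL : 0 < Lam⁻¹ := inv_pos.2 (by linarith [hF.one_le])
  rw [mul_inv_eq_one₀ (by linarith), hη'O p hp, sub_self, add_zero]

include hη hη1 hη' hO hηO in
/-- The lower bounds survive a small correction. -/
theorem sum_step : ∃ (Q : ℕ) (C : ℝ), 0 ≤ C ∧ ∀ (L : ℝ) (F0 x : R2 → V4), 2 + C ≤ L →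
    Smooth2 F0 → Smooth2 x → (∀ i, pn i F0 ≤ K i * L ^ i) → SumLow η η' P F0 L →
    pn 9 x ≤ ((L ^ 2) ^ Q)⁻¹ → SumLow η η' P (fun p => F0 p + x p) (L ^ 2) := by
  set B := cellBase K hη hη1 hO hηO
  choose Cg hCg hbg using fun i => (P i).exists_bound
  set A1 : (R2 → V4) → ℝ → Prop := fun F M => (∀ p, M⁻¹ ≤ detg F p + (1 - η p)) ∧
    ∀ i p, M⁻¹ ≤ detg ((P i).G F) p + (1 - (P i).η p)
  set A2 : (R2 → V4) → ℝ → Prop := fun F M => A1 F M ∧ (∀ p, M⁻¹ ≤ Wsq η F p + (1 - η p)) ∧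
    ∀ i p, M⁻¹ ≤ Wsq (P i).η ((P i).G F) p + (1 - (P i).η p)
  obtain ⟨q1, C1, hC1, st1⟩ := lower_step K hη hη1 hO hηO (fun _ _ => True)
    (t_reg (t_detg (B := B fun _ _ => True) le_rfl)) (by norm_num)
  choose p1 D1 hD1 sp1 using fun i => lower_step K hη hη1 hO hηO (fun _ _ => True)
    ((P i).tame_G (hCg i) (hbg i) (A := fun _ _ => True) (fun _ _ _ => trivial)
      (t_reg (t_detg (B := (P i).baseA (B fun _ _ => True) (Cg i) fun _ _ => True) le_rfl)))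
    (by norm_num)
  obtain ⟨q2, C2, hC2, st2⟩ := lower_step K hη hη1 hO hηO A1
    (t_reg (t_Wsq (B := B A1) le_rfl fun hF p => hF.adm.1 p)) (by norm_num)
  choose p2 D2 hD2 sp2 using fun i => lower_step K hη hη1 hO hηO A1
    ((P i).tame_G (hCg i) (hbg i) (A := fun G M => ∀ q, M⁻¹ ≤ detg G q + (1 - (P i).η q))
      (fun F M (h : A1 F M) => h.2 i)
      (t_reg (t_Wsq (B := (P i).baseA (B A1) (Cg i) fun G M =>
        ∀ q, M⁻¹ ≤ detg G q + (1 - (P i).η q)) le_rfl fun hF p => hF.adm p))) (by norm_num)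
  obtain ⟨q3, C3, hC3, st3⟩ := lower_step K hη hη1 hO hηO A2
    (t_cut (tame_total K hη hη1 hO hηO P A2 (fun F M h => h.1.1) (fun F M h => h.2.1)
      fun i F M h => ⟨h.1.2 i, h.2.2 i⟩) hη') (by norm_num)
  set Q := q1 + q2 + q3 + (∑ i, p1 i) + ∑ i, p2 i
  set C := C1 + C2 + C3 + (∑ i, D1 i) + ∑ i, D2 i
  have hS1 : 0 ≤ ∑ i, D1 i := sum_nonneg fun i _ => hD1 i
  have hS2 : 0 ≤ ∑ i, D2 i := sum_nonneg fun i _ => hD2 i
  have le1 : ∀ i, p1 i ≤ ∑ i, p1 i := fun i => single_le_sum (fun _ _ => Nat.zero_le _) (mem_univ i)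
  have le2 : ∀ i, p2 i ≤ ∑ i, p2 i := fun i => single_le_sum (fun _ _ => Nat.zero_le _) (mem_univ i)
  have le3 : ∀ i, D1 i ≤ ∑ i, D1 i := fun i => single_le_sum (fun j _ => hD1 j) (mem_univ i)
  have le4 : ∀ i, D2 i ≤ ∑ i, D2 i := fun i => single_le_sum (fun j _ => hD2 j) (mem_univ i)
  refine ⟨Q, C, by linarith, fun L F0 x hL hF0 hx hK hH hx9 => ?_⟩
  obtain ⟨hd, hW, hA, hc⟩ := hH
  have low : ∀ v : ℝ, L⁻¹ ≤ v → (L ^ 2)⁻¹ ≤ v := fun v hv =>
    (inv_anti₀ (by linarith) (le_self_pow₀ (by linarith) (by norm_num))).trans hv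
  have z1 : A1 F0 (L ^ 2) := ⟨fun p => low _ (hd p), fun i p => low _ ((hA i).1 p)⟩
  have z2 : A2 F0 (L ^ 2) := ⟨z1, fun p => low _ (hW p), fun i p => low _ ((hA i).2 p)⟩
  have a1 : A1 (fun p => F0 p + x p) (L ^ 2) :=
    ⟨fun p => st1 _ L F0 x (by omega) (by linarith) hF0 hx hK hx9 trivial trivial p (hd p),
      fun i p => sp1 i _ L F0 x (by have := le1 i; omega) (by linarith [le3 i]) hF0 hx hK hx9
        trivial trivial p ((hA i).1 p)⟩
  have a2 : A2 (fun p => F0 p + x p) (L ^ 2) := ⟨a1,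
    fun p => st2 _ L F0 x (by omega) (by linarith) hF0 hx hK hx9 z1 a1 p (hW p),
    fun i p => sp2 i _ L F0 x (by have := le2 i; omega) (by linarith [le4 i]) hF0 hx hK hx9
      z1 a1 p ((hA i).2 p)⟩
  exact ⟨a1.1, a2.2.1, fun i => ⟨a1.2 i, a2.2.2 i⟩,
    fun p => st3 _ L F0 x (by omega) (by linarith) hF0 hx hK hx9 z2 a2 p (hc p)⟩

include hη hη1 hη' hO hηO in
/-- Exact correction from the criteria of several cells. The orders `m` and `k` of the smallness of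
the correction are free; `E` records the decay of the error and `G` the decay of the correction. -/
theorem exact_correction_sum (hη'O : ∀ p ∈ O, η' p = 1) {radial : R2 → ℝ}
    (hrad : Smooth2 radial) {R : ℝ} (hR : 0 < R) (hsub : ∀ p, radial p ≤ 2 * R → p ∈ O)
    (m k : ℕ) :
    ∃ (a n : ℕ) (L₀ : ℝ), ∀ E : ℕ → ℝ, ∃ G : ℕ → ℕ → ℝ, ∀ L : ℝ, L₀ ≤ L →
      ∀ (F0 : R2 → V4) (g : R2 → Fin 3 → ℝ),
      Smooth2 F0 → Smooth2 g → (∀ i, pn i F0 ≤ K i * L ^ i) → (∀ i, pn i g ≤ K i * L ^ i) →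
      (∀ p, R * (2 - 1 / L) < radial p → metF F0 p = g p) →
      (∀ p, L⁻¹ ≤ detg F0 p + (1 - η p)) → (∀ p, L⁻¹ ≤ Wsq η F0 p + (1 - η p)) →
      (∀ i, (P i).Adm F0 L) →
      (∀ p, L⁻¹ ≤ totalCriterion η P F0 p + (1 - η' p)) →
      (∀ i ≤ a, pn i (fun p => metF F0 p - g p) * L ^ n ≤ 1) →
      (∀ N, ∀ i ≤ a, pn i (fun p => metF F0 p - g p) * L ^ N ≤ E N) →
      ∃ x : R2 → V4, Smooth2 x ∧ (∀ p, 2 * R ≤ radial p → x p = 0) ∧ pn m x ≤ (L ^ k)⁻¹ ∧
        (∀ i N, pn i x * L ^ N ≤ G i N) ∧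
        ∀ p, metF (fun q => F0 q + x q) p = g p := by
  obtain ⟨Q, C, hC, hst⟩ := sum_step K hη hη1 hη' hO hηO P
  obtain ⟨a, n, L₀, h⟩ := exact_correction_core K hη hη1 hO hηO (SumLow η η' P) (SumLow η η' P)
    (inv1_sum K hη hη1 hη' hO hηO P hη'O) ⟨Q, C, hC, hst⟩ hrad hR hsub m k
  exact ⟨a, n, L₀, fun E => (h E).imp fun G hG L hL F0 g h1 h2 h3 h4 h5 hd hW hA hc => hG L hL F0 g
    h1 h2 h3 h4 h5 ⟨hd, hW, hA, hc⟩⟩

end

end Vale.Agent.P205.Algebra
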