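import Vale.Agent.P205.Full.Algebra.Base

/-!
# P205: the calculus of tame jet functions

`Tame B r c` says that `c F` is smooth, that its derivatives of order `j` are bounded by
`Lam ^ (q * (j + 1)) * t ^ (j + r - a)` up to constants, and that it depends Lipschitz continuously
on the map in the seminorm of order `a`.
-/

namespace Vale.Agent.P205.Algebra

open scoped ContDiff
open Finset Correction

noncomputable section

variable {B : Base} {U X Y Z : Type*} [NormedAddCommGroup U] [NormedSpace ℝ U]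
  [NormedAddCommGroup X] [NormedSpace ℝ X] [NormedAddCommGroup Y] [NormedSpace ℝ Y]
  [NormedAddCommGroup Z] [NormedSpace ℝ Z]

/-- Tame functions of the jet of order `r`. -/
structure Tame (B : Base) (r : ℕ) (c : (R2 → V4) → R2 → U) : Prop where
  smooth : ∀ {F Lam t N}, B.Good F Lam t N → Smooth2 (c F)
  bound : ∃ (q : ℕ) (C : ℕ → ℝ), (∀ j, 0 ≤ C j) ∧ ∀ {F Lam t N}, B.Good F Lam t N →
    ∀ j, j + r ≤ N → pn j (c F) ≤ C j * (Lam ^ (q * (j + 1)) * t ^ (j + r - B.a))
  lip : ∃ (q : ℕ) (C : ℕ → ℝ), (∀ j, 0 ≤ C j) ∧ ∀ {F F' Lam}, B.Good F Lam Lam B.a →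
    B.Good F' Lam Lam B.a → ∀ j, j + r ≤ B.a →
      pn j (fun p => c F p - c F' p) ≤ C j * (Lam ^ q * pn B.a (fun p => F p - F' p))

namespace Tame

variable {r r' : ℕ} {c d : (R2 → V4) → R2 → U}

lemma congr (hc : Tame B r c) (h : ∀ F p, c F p = d F p) : Tame B r d := by
  obtain rfl : c = d := funext fun F => funext (h F)
  exact hc

lemma mono (hc : Tame B r c) (hr : r ≤ r') : Tame B r' c := by
  obtain ⟨q, C, hC, hb⟩ := hc.bound
  obtain ⟨q', C', hC', hl⟩ := hc.lip
  exact ⟨hc.smooth, ⟨q, C, hC, fun hF j hj => mono_bound hF.one_le hF.one_le_t (hC j) le_rfl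
    (by omega) (hb hF j (by omega))⟩, ⟨q', C', hC', fun hF hF' j hj => hl hF hF' j (by omega)⟩⟩

lemma id : Tame B 0 (fun F : R2 → V4 => F) := by
  refine ⟨fun hF => hF.smooth, ⟨1, fun j => |B.K j|, fun j => abs_nonneg _, fun hF j hj =>
    mono_bound hF.one_le hF.one_le_t (abs_nonneg _) (e := j) (f := j - B.a) (by omega) (by omega)
      ((hF.bound j (by omega)).trans (mul_le_mul_of_nonneg_right (le_abs_self _) ?_))⟩,
    ⟨0, fun _ => 1, fun _ => zero_le_one, fun hF hF' j hj => ?_⟩⟩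
  · have := hF.nonneg.1; have := hF.nonneg.2; positivity
  · rw [pow_zero, one_mul, one_mul]
    exact pn_mono (by omega) _

lemma fix {u : R2 → U} (hu : Smooth2 u) : Tame B 0 (fun _ => u) := by
  refine ⟨fun _ => hu, ⟨0, fun j => pn j u, fun j => pn_nonneg j u, fun hF j hj => ?_⟩,
    ⟨0, fun _ => 0, fun _ => le_rfl, fun hF hF' j hj => ?_⟩⟩
  · simpa using le_mul_of_one_le_right (pn_nonneg j u) (one_le_pow₀ hF.one_le_t)
  · rw [zero_mul]
    refine (le_of_eq (pn_congr (fun p => sub_self (u p)) j)).trans ?_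
    exact (pn_const_le (0 : U) j).trans (by simp)

lemma const (v : U) : Tame B 0 (fun _ _ => v) := fix (smooth2_const v)

lemma clm (hc : Tame B r c) (L : U →L[ℝ] X) : Tame B r (fun F p => L (c F p)) := by
  obtain ⟨q, C, hC, hb⟩ := hc.bound
  obtain ⟨q', C', hC', hl⟩ := hc.lip
  refine ⟨fun hF => (hc.smooth hF).clm L,
    ⟨q, fun j => ‖L‖ * C j, fun j => mul_nonneg (norm_nonneg _) (hC j), fun hF j hj => ?_⟩,
    ⟨q', fun j => ‖L‖ * C' j, fun j => mul_nonneg (norm_nonneg _) (hC' j), fun hF hF' j hj => ?_⟩⟩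
  · rw [mul_assoc]
    exact (pn_clm_le (hc.smooth hF) L j).trans
      (mul_le_mul_of_nonneg_left (hb hF j hj) (norm_nonneg _))
  · rw [mul_assoc, pn_congr fun p => (L.map_sub _ _).symm]
    exact (pn_clm_le ((hc.smooth hF).sub (hc.smooth hF')) L j).trans
      (mul_le_mul_of_nonneg_left (hl hF hF' j hj) (norm_nonneg _))

lemma neg (hc : Tame B r c) : Tame B r (fun F p => -c F p) :=
  (hc.clm (-ContinuousLinearMap.id ℝ U)).congr fun _ _ => by simp

lemma add (hc : Tame B r c) (hd : Tame B r d) : Tame B r (fun F p => c F p + d F p) := by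
  obtain ⟨q, C, hC, hb⟩ := hc.bound
  obtain ⟨q1, D, hD, hb'⟩ := hd.bound
  obtain ⟨q2, C', hC', hl⟩ := hc.lip
  obtain ⟨q3, D', hD', hl'⟩ := hd.lip
  refine ⟨fun hF => (hc.smooth hF).add (hd.smooth hF),
    ⟨max q q1, fun j => C j + D j, fun j => add_nonneg (hC j) (hD j), fun hF j hj => ?_⟩,
    ⟨max q2 q3, fun j => C' j + D' j, fun j => add_nonneg (hC' j) (hD' j),
      fun hF hF' j hj => ?_⟩⟩
  · rw [add_mul]
    exact (pn_add_le (hc.smooth hF) (hd.smooth hF) j).trans (add_le_add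
      (mono_bound hF.one_le hF.one_le_t (hC j) (Nat.mul_le_mul_right _ (le_max_left _ _)) le_rfl
        (hb hF j hj))
      (mono_bound hF.one_le hF.one_le_t (hD j) (Nat.mul_le_mul_right _ (le_max_right _ _)) le_rfl
        (hb' hF j hj)))
  · rw [add_mul, pn_congr fun p => add_sub_add_comm _ _ _ _]
    refine (pn_add_le ((hc.smooth hF).sub (hc.smooth hF')) ((hd.smooth hF).sub (hd.smooth hF'))
      j).trans (add_le_add ((hl hF hF' j hj).trans ?_) ((hl' hF hF' j hj).trans ?_))
    · exact mul_le_mul_of_nonneg_left (mul_le_mul_of_nonneg_right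
        (pow_le_pow_right₀ hF.one_le (le_max_left _ _)) (pn_nonneg _ _)) (hC' j)
    · exact mul_le_mul_of_nonneg_left (mul_le_mul_of_nonneg_right
        (pow_le_pow_right₀ hF.one_le (le_max_right _ _)) (pn_nonneg _ _)) (hD' j)

lemma sub (hc : Tame B r c) (hd : Tame B r d) : Tame B r (fun F p => c F p - d F p) :=
  (hc.add hd.neg).congr fun _ _ => (sub_eq_add_neg _ _).symm

lemma bilin {c : (R2 → V4) → R2 → X} {d : (R2 → V4) → R2 → Y} (β : X →L[ℝ] Y →L[ℝ] Z)
    (hc : Tame B r c) (hd : Tame B r d) (hr : r ≤ B.a) :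
    Tame B r (fun F p => β (c F p) (d F p)) := by
  obtain ⟨q, C, hC, hb⟩ := hc.bound
  obtain ⟨q1, D, hD, hb'⟩ := hd.bound
  obtain ⟨q2, C', hC', hl⟩ := hc.lip
  obtain ⟨q3, D', hD', hl'⟩ := hd.lip
  refine ⟨fun hF => (hc.smooth hF).bilin (hd.smooth hF) β,
    ⟨2 * (q + q1), fun j => bilNorm β * (j + 1) * 2 ^ j * ∑ i ∈ range (j + 1), C i * D (j - i),
      fun j => ?_, fun hF j hj => ?_⟩,
    ⟨(q + q1) * (B.a + 1) + q2 + q3, fun j => bilNorm β * (j + 1) * 2 ^ j *
        ∑ i ∈ range (j + 1), (C' i * D (j - i) + C i * D' (j - i)), fun j => ?_,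
      fun {F F' Lam} hF hF' j hj => ?_⟩⟩
  · have : 0 ≤ ∑ i ∈ range (j + 1), C i * D (j - i) :=
      sum_nonneg fun i _ => mul_nonneg (hC i) (hD _)
    have := bilNorm_nonneg β
    positivity
  · refine pn_bilin_bound β (hc.smooth hF) (hd.smooth hF) j hF.one_le hF.one_le_t hC hD
      (fun i hi => hb hF i (by omega)) (fun i hi => hb' hF i (by omega)) (fun i hi => ?_)
      (fun i hi => by omega)
    have h1 : q * (i + 1) ≤ q * (2 * (j + 1)) := Nat.mul_le_mul_left q (by omega)
    have h2 : q1 * (j - i + 1) ≤ q1 * (2 * (j + 1)) := Nat.mul_le_mul_left q1 (by omega)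
    linarith
  · have : 0 ≤ ∑ i ∈ range (j + 1), (C' i * D (j - i) + C i * D' (j - i)) :=
      sum_nonneg fun i _ => add_nonneg (mul_nonneg (hC' i) (hD _)) (mul_nonneg (hC i) (hD' _))
    have := bilNorm_nonneg β
    positivity
  · have hL := hF.one_le
    set E := pn B.a (fun p => F p - F' p)
    have hE : 0 ≤ E := pn_nonneg _ _
    rw [pn_congr (v := fun p => β (c F p - c F' p) (d F p) + β (c F' p) (d F p - d F' p))
      (fun p => by simp only [map_sub, sub_apply]; abel)]
    refine (pn_add_le (((hc.smooth hF).sub (hc.smooth hF')).bilin (hd.smooth hF) β)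
      ((hc.smooth hF').bilin ((hd.smooth hF).sub (hd.smooth hF')) β) j).trans ?_
    have h1 := pn_bilin_bound β ((hc.smooth hF).sub (hc.smooth hF')) (hd.smooth hF) j hL hL
      (A := fun i => C' i * E) (A' := D) (e1 := fun _ => q2) (f1 := fun _ => 0)
      (e2 := fun i => q1 * (i + 1)) (f2 := fun i => i + r - B.a)
      (e := (q + q1) * (B.a + 1) + q2 + q3) (f := 0) (fun i => mul_nonneg (hC' i) hE) hD
      (fun i hi => (hl hF hF' i (by omega)).trans (le_of_eq (by ring)))
      (fun i hi => hb' hF i (by omega))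
      (fun i hi => by
        have : q1 * (j - i + 1) ≤ (q + q1) * (B.a + 1) :=
          Nat.mul_le_mul (Nat.le_add_left _ _) (by omega)
        omega)
      (fun i hi => by omega)
    have h2 := pn_bilin_bound β (hc.smooth hF') ((hd.smooth hF).sub (hd.smooth hF')) j hL hL
      (A := C) (A' := fun i => D' i * E) (e1 := fun i => q * (i + 1))
      (f1 := fun i => i + r - B.a) (e2 := fun _ => q3) (f2 := fun _ => 0)
      (e := (q + q1) * (B.a + 1) + q2 + q3) (f := 0) hC (fun i => mul_nonneg (hD' i) hE)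
      (fun i hi => hb hF' i (by omega))
      (fun i hi => (hl' hF hF' i (by omega)).trans (le_of_eq (by ring)))
      (fun i hi => by
        have : q * (i + 1) ≤ (q + q1) * (B.a + 1) :=
          Nat.mul_le_mul (Nat.le_add_right _ _) (by omega)
        omega)
      (fun i hi => by omega)
    refine (add_le_add h1 h2).trans (le_of_eq ?_)
    simp only [sum_add_distrib, mul_sum, sum_mul, mul_add, add_mul, pow_zero, mul_one]
    simp only [← sum_add_distrib]
    exact sum_congr rfl fun i _ => by ring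

lemma deriv (hc : Tame B r c) : Tame B (r + 1) (fun F => fderiv ℝ (c F)) := by
  obtain ⟨q, C, hC, hb⟩ := hc.bound
  obtain ⟨q', C', hC', hl⟩ := hc.lip
  refine ⟨fun hF => (hc.smooth hF).fderiv,
    ⟨2 * q, fun j => C (j + 1), fun j => hC _, fun hF j hj => (pn_fderiv_le (hc.smooth hF) j).trans
      (mono_bound hF.one_le hF.one_le_t (hC _) ?_ (by omega) (hb hF (j + 1) (by omega)))⟩,
    ⟨q', fun j => C' (j + 1), fun j => hC' _, fun {F F' Lam} hF hF' j hj => ?_⟩⟩
  · calc q * (j + 1 + 1) ≤ q * (2 * (j + 1)) := Nat.mul_le_mul_left q (by omega)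
      _ = _ := by ring
  · rw [pn_congr (v := fderiv ℝ (fun p => c F p - c F' p)) (fun p => by
      rw [fderiv_fun_sub ((hc.smooth hF).1.differentiable (by simp) p)
        ((hc.smooth hF').1.differentiable (by simp) p)])]
    exact (pn_fderiv_le ((hc.smooth hF).sub (hc.smooth hF')) j).trans (hl hF hF' _ (by omega))

lemma dx (hc : Tame B r c) : Tame B (r + 1) (fun F => dx (c F)) :=
  (hc.deriv.clm (ContinuousLinearMap.apply ℝ U ((1, 0) : R2))).congr fun _ _ => rfl

lemma dy (hc : Tame B r c) : Tame B (r + 1) (fun F => dy (c F)) :=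
  (hc.deriv.clm (ContinuousLinearMap.apply ℝ U ((0, 1) : R2))).congr fun _ _ => rfl

lemma smul {c : (R2 → V4) → R2 → ℝ} {d : (R2 → V4) → R2 → U} (hc : Tame B r c)
    (hd : Tame B r d) (hr : r ≤ B.a) : Tame B r (fun F p => c F p • d F p) :=
  bilin (ContinuousLinearMap.lsmul ℝ ℝ) hc hd hr

lemma mul {c d : (R2 → V4) → R2 → ℝ} (hc : Tame B r c) (hd : Tame B r d) (hr : r ≤ B.a) :
    Tame B r (fun F p => c F p * d F p) :=
  bilin (ContinuousLinearMap.mul ℝ ℝ) hc hd hr

lemma const_mul {c : (R2 → V4) → R2 → ℝ} (hc : Tame B r c) (x : ℝ) :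
    Tame B r (fun F p => x * c F p) :=
  (hc.clm (x • ContinuousLinearMap.id ℝ ℝ)).congr fun _ _ => rfl

lemma sq {c : (R2 → V4) → R2 → ℝ} (hc : Tame B r c) (hr : r ≤ B.a) :
    Tame B r (fun F p => c F p ^ 2) :=
  (hc.mul hc hr).congr fun _ _ => (pow_two _).symm

lemma inner {c d : (R2 → V4) → R2 → V4} (hc : Tame B r c) (hd : Tame B r d) (hr : r ≤ B.a) :
    Tame B r (fun F p => inner ℝ (c F p) (d F p)) :=
  (bilin (innerSL ℝ) hc hd hr).congr fun _ _ => rfl

lemma fst {c : (R2 → V4) → R2 → R2} (hc : Tame B r c) : Tame B r (fun F p => (c F p).1) :=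
  hc.clm (ContinuousLinearMap.fst ℝ ℝ ℝ)

lemma snd {c : (R2 → V4) → R2 → R2} (hc : Tame B r c) : Tame B r (fun F p => (c F p).2) :=
  hc.clm (ContinuousLinearMap.snd ℝ ℝ ℝ)

lemma prodMk {c d : (R2 → V4) → R2 → ℝ} (hc : Tame B r c) (hd : Tame B r d) :
    Tame B r (fun F p => ((c F p, d F p) : R2)) :=
  ((hc.clm (ContinuousLinearMap.inl ℝ ℝ ℝ)).add (hd.clm (ContinuousLinearMap.inr ℝ ℝ ℝ))).congr
    fun _ _ => by simp

lemma fin_sum {ι : Type*} (s : Finset ι) {c : ι → (R2 → V4) → R2 → U}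
    (hc : ∀ i ∈ s, Tame B r (c i)) : Tame B r (fun F p => ∑ i ∈ s, c i F p) := by
  classical
  induction s using Finset.induction_on with
  | empty => exact ((const (0 : U)).mono (Nat.zero_le r)).congr fun _ _ => by simp
  | insert i s his ih =>
    exact ((hc i (mem_insert_self i s)).add (ih fun k hk => hc k (mem_insert_of_mem hk))).congr
      fun F p => (sum_insert (f := fun k => c k F p) his).symm

lemma fin_prod {ι : Type*} (s : Finset ι) {c : ι → (R2 → V4) → R2 → ℝ} (hr : r ≤ B.a)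
    (hc : ∀ i ∈ s, Tame B r (c i)) : Tame B r (fun F p => ∏ i ∈ s, c i F p) := by
  classical
  induction s using Finset.induction_on with
  | empty => exact ((const (1 : ℝ)).mono (Nat.zero_le r)).congr fun _ _ => by simp
  | insert i s his ih =>
    exact ((hc i (mem_insert_self i s)).mul (ih fun k hk => hc k (mem_insert_of_mem hk)) hr).congr
      fun F p => (prod_insert (f := fun k => c k F p) his).symm

lemma det {n : Type*} [Fintype n] [DecidableEq n] {A : (R2 → V4) → R2 → Matrix n n ℝ}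
    (hr : r ≤ B.a) (hA : ∀ i k, Tame B r (fun F p => A F p i k)) :
    Tame B r (fun F p => (A F p).det) :=
  (fin_sum univ fun σ _ => (fin_prod univ hr fun i _ => hA (σ i) i).const_mul
    ((σ.sign : ℤ) : ℝ)).congr fun _ _ => (Matrix.det_apply' _).symm

/-- The inverse of a tame function which is bounded from below. -/
lemma inv {c : (R2 → V4) → R2 → ℝ} (hc : Tame B r c) (hr : r ≤ B.a) (k : ℕ)
    (hlow : ∀ {F Lam t N}, B.Good F Lam t N → ∀ p, (Lam ^ k)⁻¹ ≤ c F p) :
    Tame B r (fun F p => (c F p)⁻¹) := by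
  obtain ⟨q, C, hC, hb⟩ := hc.bound
  obtain ⟨q', C', hC', hl⟩ := hc.lip
  have hpos : ∀ {F Lam t N}, B.Good F Lam t N → ∀ p, 0 < c F p := fun hF p =>
    lt_of_lt_of_le (by have := hF.one_le; positivity) (hlow hF p)
  have hs : ∀ {F Lam t N}, B.Good F Lam t N → Smooth2 (fun p => (c F p)⁻¹) := fun hF =>
    ⟨(hc.smooth hF).1.inv fun p => (hpos hF p).ne',
      fun p => by simp only [(hc.smooth hF).2.1], fun p => by simp only [(hc.smooth hF).2.2]⟩
  set Q := 2 * q + k
  have h0 : ∀ {F Lam t N}, B.Good F Lam t N → supD 0 (fun p => (c F p)⁻¹) ≤ Lam ^ k := fun hF =>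
    supD_le fun p => by
      rw [norm_iteratedFDeriv_zero, Real.norm_eq_abs, abs_inv, abs_of_pos (hpos hF p)]
      exact inv_le_of_inv_le₀ (by have := hF.one_le; positivity) (hlow hF p)
  have main : ∀ j, ∃ D : ℕ → ℝ, (∀ i, 0 ≤ D i) ∧ ∀ {F Lam t N}, B.Good F Lam t N →
      ∀ i ≤ j, i + r ≤ N → pn i (fun p => (c F p)⁻¹)
        ≤ D i * (Lam ^ (Q * (2 * i + 1)) * t ^ (i + r - B.a)) := by
    intro j
    induction j with
    | zero =>
      refine ⟨fun _ => 1, fun _ => zero_le_one, fun hF i hi hN => ?_⟩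
      obtain rfl : i = 0 := by omega
      refine (le_of_eq ?_).trans (mono_bound hF.one_le hF.one_le_t zero_le_one (e := k) (f := 0)
        (by omega) (Nat.zero_le _) ((h0 hF).trans (le_of_eq (by ring))))
      simp [pn]
    | succ j ih =>
      obtain ⟨D, hD, hi⟩ := ih
      set m : ℕ → ℝ := fun i => bilNorm (ContinuousLinearMap.mul ℝ ℝ) * (i + 1) * 2 ^ i *
        ∑ l ∈ range (i + 1), D l * D (i - l)
      have hm : ∀ i, 0 ≤ m i := fun i => by
        have : 0 ≤ ∑ l ∈ range (i + 1), D l * D (i - l) :=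
          sum_nonneg fun l _ => mul_nonneg (hD l) (hD _)
        have := bilNorm_nonneg (ContinuousLinearMap.mul ℝ ℝ)
        positivity
      set L : ℝ →L[ℝ] (R2 →L[ℝ] ℝ) →L[ℝ] R2 →L[ℝ] ℝ := ContinuousLinearMap.lsmul ℝ ℝ
      set V := bilNorm L * (j + 1) * 2 ^ j * ∑ i ∈ range (j + 1), m i * C (j - i + 1)
      refine ⟨Function.update D (j + 1) (1 + |V|), fun i => ?_, fun {F Lam t N} hF i hij hN => ?_⟩
      · rcases eq_or_ne i (j + 1) with rfl | h
        · rw [Function.update_self]; positivity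
        · rw [Function.update_of_ne h]; exact hD i
      rcases eq_or_ne i (j + 1) with rfl | h
      swap
      · rw [Function.update_of_ne h]; exact hi hF i (by omega) hN
      rw [Function.update_self, pn_succ, add_mul]
      have hcs := hc.smooth hF
      have hder : fderiv ℝ (fun p => (c F p)⁻¹)
          = fun p => L ((c F p)⁻¹ * (c F p)⁻¹) (-fderiv ℝ (c F) p) := funext fun p => by
        refine ((hasDerivAt_inv (hpos hF p).ne').comp_hasFDerivAt p
          (hcs.1.differentiable (by simp) p).hasFDerivAt).fderiv.trans ?_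
        simp [L, pow_two]
      refine add_le_add (mono_bound hF.one_le hF.one_le_t zero_le_one (e := k) (f := 0) ?_
        (Nat.zero_le _) ((h0 hF).trans (le_of_eq (by ring)))) ?_
      · exact (Nat.le_add_left k _).trans (Nat.le_mul_of_pos_right Q (by omega))
      have hsq : ∀ i ≤ j, pn i (fun p => (c F p)⁻¹ * (c F p)⁻¹)
          ≤ m i * (Lam ^ (Q * (2 * i + 2)) * t ^ (i + r - B.a)) := fun i hi' =>
        pn_bilin_bound (ContinuousLinearMap.mul ℝ ℝ) (hs hF) (hs hF) i hF.one_le hF.one_le_t hD hD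
          (fun l hl => hi hF l (by omega) (by omega)) (fun l hl => hi hF l (by omega) (by omega))
          (fun l hl => by rw [← Nat.mul_add]; exact Nat.mul_le_mul_left Q (by omega))
          (fun l hl => by omega)
      have hns : Smooth2 (fun p => -fderiv ℝ (c F) p) :=
        ⟨hcs.fderiv.1.neg, fun p => by simp only [hcs.fderiv.2.1],
          fun p => by simp only [hcs.fderiv.2.2]⟩
      have hV := pn_bilin_bound L ((hs hF).bilin (hs hF) (ContinuousLinearMap.mul ℝ ℝ)) hns j
        hF.one_le hF.one_le_t hm (fun l => hC (l + 1)) hsq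
        (e2 := fun l => q * (l + 2)) (f2 := fun l => l + 1 + r - B.a)
        (e := Q * (2 * (j + 1) + 1)) (f := j + 1 + r - B.a)
        (fun l hl => by
          rw [pn_neg]
          exact (pn_fderiv_le hcs l).trans (hb hF (l + 1) (by omega)))
        (fun l hl => by
          have h1 : q * (j - l + 2) ≤ Q * (2 * (j - l) + 1) :=
            calc q * (j - l + 2) ≤ q * (2 * (2 * (j - l) + 1)) := Nat.mul_le_mul_left q (by omega)
              _ = 2 * q * (2 * (j - l) + 1) := by ring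
              _ ≤ _ := Nat.mul_le_mul_right _ (Nat.le_add_right _ _)
          calc Q * (2 * l + 2) + q * (j - l + 2) ≤ Q * (2 * l + 2) + Q * (2 * (j - l) + 1) :=
                Nat.add_le_add_left h1 _
            _ = _ := by rw [← Nat.mul_add]; congr 1; omega)
        (fun l hl => by omega)
      rw [hder]
      refine le_trans hV (mul_le_mul_of_nonneg_right (le_abs_self _) ?_)
      have := hF.nonneg.1; have := hF.nonneg.2; positivity
  choose D hD hDb using main
  have hinv : ∀ {F Lam t N}, B.Good F Lam t N → ∀ j, j + r ≤ N →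
      pn j (fun p => (c F p)⁻¹) ≤ D j j * (Lam ^ (2 * Q * (j + 1)) * t ^ (j + r - B.a)) :=
    fun hF j hj => mono_bound hF.one_le hF.one_le_t (hD j j)
      (by rw [Nat.mul_comm 2 Q, Nat.mul_assoc]; exact Nat.mul_le_mul_left Q (by omega)) le_rfl
      (hDb j hF j le_rfl hj)
  refine ⟨hs, ⟨2 * Q, fun j => D j j, fun j => hD j j, hinv⟩, ?_⟩
  set w : ℕ → ℝ := fun j => bilNorm (ContinuousLinearMap.mul ℝ ℝ) * (j + 1) * 2 ^ j *
    ∑ i ∈ range (j + 1), D i i * D (j - i) (j - i)
  have hw : ∀ j, 0 ≤ w j := fun j => by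
    have : 0 ≤ ∑ i ∈ range (j + 1), D i i * D (j - i) (j - i) :=
      sum_nonneg fun i _ => mul_nonneg (hD i i) (hD _ _)
    have := bilNorm_nonneg (ContinuousLinearMap.mul ℝ ℝ)
    positivity
  refine ⟨4 * Q * (B.a + 1) + q', fun j => bilNorm (ContinuousLinearMap.mul ℝ ℝ) * (j + 1) * 2 ^ j *
      ∑ i ∈ range (j + 1), C' i * w (j - i), fun j => ?_, fun {F F' Lam} hF hF' j hj => ?_⟩
  · have : 0 ≤ ∑ i ∈ range (j + 1), C' i * w (j - i) :=
      sum_nonneg fun i _ => mul_nonneg (hC' i) (hw _)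
    have := bilNorm_nonneg (ContinuousLinearMap.mul ℝ ℝ)
    positivity
  have hL := hF.one_le
  set E := pn B.a (fun p => F p - F' p)
  have hE : 0 ≤ E := pn_nonneg _ _
  have hprod : ∀ i ≤ j, pn i (fun p => (c F p)⁻¹ * (c F' p)⁻¹)
      ≤ w i * (Lam ^ (4 * Q * (B.a + 1)) * Lam ^ 0) := fun i hi =>
    pn_bilin_bound (ContinuousLinearMap.mul ℝ ℝ) (hs hF) (hs hF') i hL hL (fun l => hD l l)
      (fun l => hD l l) (fun l hl => hinv hF l (by omega)) (fun l hl => hinv hF' l (by omega))
      (fun l hl => by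
        rw [← Nat.mul_add, show 4 * Q * (B.a + 1) = 2 * Q * (2 * (B.a + 1)) by ring]
        exact Nat.mul_le_mul_left _ (by omega))
      (fun l hl => by omega)
  rw [pn_congr (v := fun p => (c F' p - c F p) * ((c F p)⁻¹ * (c F' p)⁻¹)) (fun p => by
    have := (hpos hF p).ne'; have := (hpos hF' p).ne'; field_simp)]
  refine (pn_bilin_bound (ContinuousLinearMap.mul ℝ ℝ) ((hc.smooth hF').sub (hc.smooth hF))
    ((hs hF).bilin (hs hF') (ContinuousLinearMap.mul ℝ ℝ)) j hL hL (A := fun i => C' i * E)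
    (e1 := fun _ => q') (f1 := fun _ => 0) (e := 4 * Q * (B.a + 1) + q') (f := 0)
    (fun i => mul_nonneg (hC' i) hE) hw (fun i hi => ?_) hprod (fun i _ => (Nat.add_comm _ _).le)
    (fun i _ => le_rfl)).trans (le_of_eq ?_)
  · rw [← pn_neg (u := fun p => c F' p - c F p), pn_congr (fun p => neg_sub (c F' p) (c F p))]
    exact (hl hF hF' i (by omega)).trans (le_of_eq (by ring))
  · simp only [mul_sum, sum_mul, pow_zero, mul_one]
    exact sum_congr rfl fun i _ => by ring

end Tame

end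

end Vale.Agent.P205.Algebra
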