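import Vale.Agent.P205.Full.Algebra.Pull
import Vale.Agent.P205.Full.Algebra.Inverse

/-!
# P205: multipliers transported from another chart

A `Piece` is a second periodic cell, glued to the own one by a change of coordinates on a set
containing the support of the weight `χ`.  The criterion of the transported map there is a
multiplier in the own cell after multiplication by `χ`.
-/

namespace Vale.Agent.P205.Algebra

open scoped ContDiff Topology RealInnerProductSpace
open Finset Correction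

noncomputable section

/-- The value at `(x, y)` of the symmetric form with components `l`. -/
def sigForm (l : Fin 3 → ℝ) (x y : R2) : ℝ :=
  x.1 * y.1 * l 0 + (x.1 * y.2 + x.2 * y.1) * l 1 + x.2 * y.2 * l 2

/-- The matrix unit. -/
def unitMap (i j : Fin 3) : (Fin 3 → ℝ) →L[ℝ] (Fin 3 → ℝ) :=
  (ContinuousLinearMap.proj (R := ℝ) (φ := fun _ : Fin 3 => ℝ) j).smulRight (Pi.single i (1 : ℝ))

/-- The pullback of symmetric forms by `J`. -/
def tensorMap (J : R2 →L[ℝ] R2) : (Fin 3 → ℝ) →L[ℝ] (Fin 3 → ℝ) :=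
  let a := J (1, 0)
  let b := J (0, 1)
  (a.1 * a.1) • unitMap 0 0 + (2 * a.1 * a.2) • unitMap 0 1 + (a.2 * a.2) • unitMap 0 2
    + (a.1 * b.1) • unitMap 1 0 + (a.1 * b.2 + a.2 * b.1) • unitMap 1 1 + (a.2 * b.2) • unitMap 1 2
    + (b.1 * b.1) • unitMap 2 0 + (2 * b.1 * b.2) • unitMap 2 1 + (b.2 * b.2) • unitMap 2 2

lemma tensorMap_apply (J : R2 →L[ℝ] R2) (l : Fin 3 → ℝ) :
    tensorMap J l = ![sigForm l (J (1, 0)) (J (1, 0)), sigForm l (J (1, 0)) (J (0, 1)),
      sigForm l (J (0, 1)) (J (0, 1))] := by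
  funext k
  fin_cases k <;> simp [-mul_eq_mul_left_iff, -mul_eq_mul_right_iff, tensorMap, unitMap, sigForm] <;> ring

lemma map_eq (J : R2 →L[ℝ] R2) (v : R2) : J v = v.1 • J (1, 0) + v.2 • J (0, 1) := by
  rw [← map_smul, ← map_smul, ← map_add]
  simp

lemma tensorMap_comp (A A' : R2 →L[ℝ] R2) (h : A.comp A' = ContinuousLinearMap.id ℝ R2)
    (l : Fin 3 → ℝ) : tensorMap A' (tensorMap A l) = l := by
  have e : ∀ v, A (A' v) = v := fun v => congrArg (fun L : R2 →L[ℝ] R2 => L v) h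
  have e1 := e (1, 0)
  have e2 := e (0, 1)
  rw [map_eq A] at e1 e2
  simp only [Prod.ext_iff, Prod.fst_add, Prod.snd_add, Prod.smul_fst, Prod.smul_snd,
    smul_eq_mul] at e1 e2
  obtain ⟨u1, u2⟩ := e1
  obtain ⟨u3, u4⟩ := e2
  rw [tensorMap_apply, tensorMap_apply]
  funext k
  fin_cases k <;> simp [sigForm]
  · linear_combination
      (l 0 * ((A' (1, 0)).1 * (A (1, 0)).1 + (A' (1, 0)).2 * (A (0, 1)).1 + 1)
        + 2 * l 1 * ((A' (1, 0)).1 * (A (1, 0)).2 + (A' (1, 0)).2 * (A (0, 1)).2)) * u1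
      + (l 2 * ((A' (1, 0)).1 * (A (1, 0)).2 + (A' (1, 0)).2 * (A (0, 1)).2) + 2 * l 1) * u2
  · linear_combination
      (l 0 * ((A' (0, 1)).1 * (A (1, 0)).1 + (A' (0, 1)).2 * (A (0, 1)).1)
        + l 1 * ((A' (0, 1)).1 * (A (1, 0)).2 + (A' (0, 1)).2 * (A (0, 1)).2)) * u1
      + (l 1 * ((A' (0, 1)).1 * (A (1, 0)).1 + (A' (0, 1)).2 * (A (0, 1)).1)
        + l 2 * ((A' (0, 1)).1 * (A (1, 0)).2 + (A' (0, 1)).2 * (A (0, 1)).2)) * u2
      + l 0 * u3 + l 1 * u4
  · linear_combination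
      (l 0 * ((A' (0, 1)).1 * (A (1, 0)).1 + (A' (0, 1)).2 * (A (0, 1)).1)
        + 2 * l 1 * ((A' (0, 1)).1 * (A (1, 0)).2 + (A' (0, 1)).2 * (A (0, 1)).2)) * u3
      + (l 2 * ((A' (0, 1)).1 * (A (1, 0)).2 + (A' (0, 1)).2 * (A (0, 1)).2) + l 2) * u4

/-- The linearised metric is covariant. -/
lemma linM_comp {F u F' u' : R2 → V4} {ψ : R2 → R2} {p : R2} (hψ : DifferentiableAt ℝ ψ p)
    (hF' : DifferentiableAt ℝ F' (ψ p)) (hu' : DifferentiableAt ℝ u' (ψ p))
    (eF : F =ᶠ[𝓝 p] fun q => F' (ψ q)) (eu : u =ᶠ[𝓝 p] fun q => u' (ψ q)) :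
    linM F u p = tensorMap (fderiv ℝ ψ p) (linM F' u' (ψ p)) := by
  have h : ∀ {G G' : R2 → V4}, DifferentiableAt ℝ G' (ψ p) → (G =ᶠ[𝓝 p] fun q => G' (ψ q)) →
      ∀ v, fderiv ℝ G p v = (fderiv ℝ ψ p v).1 • dx G' (ψ p) + (fderiv ℝ ψ p v).2 • dy G' (ψ p) :=
    fun {G G'} hG e v => by
      rw [e.fderiv_eq, show (fun q => G' (ψ q)) = G' ∘ ψ from rfl, fderiv_comp p hG hψ]
      show fderiv ℝ G' (ψ p) (fderiv ℝ ψ p v) = _
      simp only [dx, dy, ← map_smul, ← map_add]
      simp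
  rw [tensorMap_apply]
  funext k
  have f1 := h hF' eF (1, 0)
  have f2 := h hF' eF (0, 1)
  have g1 := h hu' eu (1, 0)
  have g2 := h hu' eu (0, 1)
  fin_cases k <;>
    simp [linM, sigForm, show dx F p = _ from f1, show dy F p = _ from f2, show dx u p = _ from g1,
      show dy u p = _ from g2, inner_add_left, inner_add_right, inner_smul_left, inner_smul_right] <;>
    ring

/-- A second cell glued to the own one. -/
structure Piece where
  /-- from the second cell to the own one -/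
  fwd : LocMap
  /-- from the own cell to the second one -/
  back : LocMap
  /-- cut of the second cell -/
  w : R2 → ℝ
  /-- cut of the own cell -/
  w' : R2 → ℝ
  /-- weight of the transported multiplier -/
  χ : R2 → ℝ
  /-- cut of the regularised divisions -/
  η : R2 → ℝ
  /-- where the divisions are exact -/
  O : Set R2
  isOpen_O : IsOpen O
  η_smooth : Smooth2 η
  η_eq : ∀ q ∈ O, η q = 1
  η_le : ∀ q, η q ≤ 1
  w_smooth : Smooth2 w
  w_dom : tsupport w ⊆ fwd.dom
  w'_smooth : Smooth2 w'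
  w'_dom : tsupport w' ⊆ back.dom
  χ_smooth : Smooth2 χ
  inverse : ∀ p ∈ tsupport w', ∃ n : ℤ × ℤ,
    ∀ᶠ q in 𝓝 p, fwd.map (back.map q) = q + ((n.1 : ℝ), (n.2 : ℝ))
  core : ∀ p ∈ tsupport χ, w' =ᶠ[𝓝 p] (fun _ => 1) ∧ w =ᶠ[𝓝 (back.map p)] (fun _ => 1) ∧
    back.map p ∈ O ∧ back.map p ∈ fwd.dom

namespace Piece

variable (P : Piece)

/-- The map in the second cell. -/
def G (F : R2 → V4) : R2 → V4 := pullS P.w P.fwd.map F

/-- The weight of the forward transport of right-hand sides. -/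
def tensorW (q : R2) : (Fin 3 → ℝ) →L[ℝ] (Fin 3 → ℝ) :=
  P.w q • tensorMap (fderiv ℝ P.fwd.map q)

/-- The transported multiplier. -/
def mult (F : R2 → V4) : R2 → ℝ := pullS P.χ P.back.map (criterion P.η (P.G F))

/-- The two denominators of the second cell are bounded below. -/
def Adm (F : R2 → V4) (M : ℝ) : Prop :=
  (∀ q, M⁻¹ ≤ detg (P.G F) q + (1 - P.η q)) ∧ ∀ q, M⁻¹ ≤ Wsq P.η (P.G F) q + (1 - P.η q)

/-- The data of the calculus in the second cell, with a condition `A` on the transported map. -/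
def baseA (B : Base) (C : ℕ → ℝ) (A : (R2 → V4) → ℝ → Prop) : Base :=
  ⟨B.a, fun j => C j * |B.K j|, P.O, P.isOpen_O, P.η, P.η_smooth, P.η_eq, P.η_le, A⟩

/-- The data of the calculus in the second cell. -/
def base (B : Base) (C : ℕ → ℝ) : Base :=
  P.baseA B C fun G M =>
    (∀ q, M⁻¹ ≤ detg G q + (1 - P.η q)) ∧ ∀ q, M⁻¹ ≤ Wsq P.η G q + (1 - P.η q)

lemma χ_dom : tsupport P.χ ⊆ P.back.dom := fun p hp => by
  refine P.w'_dom (subset_tsupport _ ?_)
  simp [(P.core p hp).1.eq_of_nhds]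

lemma smooth2_tensorW : Smooth2 P.tensorW ∧ tsupport P.tensorW ⊆ P.fwd.dom := by
  have hper : Periodic2 (1, 0) (0, 1) (fderiv ℝ P.fwd.map) :=
    ⟨fun p => by rw [← fderiv_comp_add_right]; exact congrArg (fderiv ℝ · p) (funext P.fwd.periodic.1),
      fun p => by rw [← fderiv_comp_add_right]; exact congrArg (fderiv ℝ · p) (funext P.fwd.periodic.2)⟩
  refine ⟨smooth2_of_support P.fwd
    ⟨fun q => by simp only [tensorW, P.w_smooth.2.1, hper.1],
      fun q => by simp only [tensorW, P.w_smooth.2.2, hper.2]⟩ (fun q hq => ?_)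
    (isClosed_tsupport P.w) P.w_dom (fun q hq => by simp [tensorW, image_eq_zero_of_notMem_tsupport hq]),
    (tsupport_smul_subset_left P.w fun q => tensorMap (fderiv ℝ P.fwd.map q)).trans P.w_dom⟩
  have hd := (P.fwd.contDiffAt hq).fderiv_right (m := ∞) le_rfl
  have ha : ContDiffAt ℝ ∞ (fun q => fderiv ℝ P.fwd.map q (1, 0)) q := hd.clm_apply contDiffAt_const
  have hb : ContDiffAt ℝ ∞ (fun q => fderiv ℝ P.fwd.map q (0, 1)) q := hd.clm_apply contDiffAt_const
  have := P.w_smooth.1.contDiffAt (x := q)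
  show ContDiffAt ℝ ∞ (fun q => P.w q • tensorMap (fderiv ℝ P.fwd.map q)) q
  simp only [tensorMap]
  fun_prop

lemma periodic_int {U : Type} [NormedAddCommGroup U] [NormedSpace ℝ U] {u : R2 → U}
    (hu : Smooth2 u) (n : ℤ × ℤ) (q : R2) : u (q + ((n.1 : ℝ), (n.2 : ℝ))) = u q := by
  have h1 : Function.Periodic u ((1, 0) : R2) := hu.2.1
  have h2 : Function.Periodic u ((0, 1) : R2) := hu.2.2
  have e := ((h1.zsmul n.1).add_period (h2.zsmul n.2)) q
  simpa using e

lemma exists_bound : ∃ C : ℕ → ℝ, (∀ j, 0 ≤ C j) ∧ ∀ j, ∀ {u : R2 → V4}, Smooth2 u →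
    pn j (P.G u) ≤ C j * pn j u :=
  pn_pullS_le P.fwd P.w_smooth P.w_dom

variable {B : Base} {C : ℕ → ℝ}

lemma good_G (hC : ∀ j, 0 ≤ C j) (hb : ∀ j, ∀ {u : R2 → V4}, Smooth2 u → pn j (P.G u) ≤ C j * pn j u)
    {A : (R2 → V4) → ℝ → Prop} (hadm : ∀ F M, B.adm F M → A (P.G F) M) {F : R2 → V4} {Lam t : ℝ}
    {N : ℕ} (hF : B.Good F Lam t N) : (P.baseA B C A).Good (P.G F) Lam t N where
  smooth := smooth2_pullS P.fwd P.w_smooth P.w_dom hF.smooth
  one_le := hF.one_le
  le_t := hF.le_t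
  adm := hadm F Lam hF.adm
  bound j hj := by
    refine (hb j hF.smooth).trans ?_
    show _ ≤ C j * |B.K j| * (Lam ^ j * t ^ (j - B.a))
    rw [mul_assoc]
    refine mul_le_mul_of_nonneg_left ((hF.bound j hj).trans
      (mul_le_mul_of_nonneg_right (le_abs_self _) ?_)) (hC j)
    have := hF.nonneg.1; have := hF.nonneg.2; positivity

/-- A tame function of the second cell is tame in the own one. -/
lemma tame_G (hC : ∀ j, 0 ≤ C j) (hb : ∀ j, ∀ {u : R2 → V4}, Smooth2 u → pn j (P.G u) ≤ C j * pn j u)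
    {A : (R2 → V4) → ℝ → Prop} (hadm : ∀ F M, B.adm F M → A (P.G F) M) {r : ℕ}
    {c : (R2 → V4) → R2 → ℝ} (hc : Tame (P.baseA B C A) r c) : Tame B r (fun F => c (P.G F)) := by
  obtain ⟨q, D, hD, hd⟩ := hc.bound
  obtain ⟨q', D', hD', hl⟩ := hc.lip
  refine ⟨fun hF => hc.smooth (P.good_G hC hb hadm hF),
    ⟨q, D, hD, fun hF j hj => hd (P.good_G hC hb hadm hF) j hj⟩,
    ⟨q', fun j => D' j * C B.a, fun j => mul_nonneg (hD' j) (hC _),
      fun {F F' Lam} hF hF' j hj => ?_⟩⟩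
  refine (hl (P.good_G hC hb hadm hF) (P.good_G hC hb hadm hF') j hj).trans ?_
  rw [mul_assoc (D' j), show C B.a * (Lam ^ q' * pn B.a fun p => F p - F' p)
    = Lam ^ q' * (C B.a * pn B.a fun p => F p - F' p) by ring]
  refine mul_le_mul_of_nonneg_left (mul_le_mul_of_nonneg_left ?_
    (pow_nonneg hF.nonneg.1 _)) (hD' j)
  show pn B.a (fun p => P.G F p - P.G F' p) ≤ _
  rw [show (fun p => P.G F p - P.G F' p) = P.G fun p => F p - F' p from
    funext fun p => (smul_sub _ _ _).symm]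
  exact hb _ (hF.smooth.sub hF'.smooth)

lemma tame_mult (hC : ∀ j, 0 ≤ C j) (hb : ∀ j, ∀ {u : R2 → V4}, Smooth2 u → pn j (P.G u) ≤ C j * pn j u)
    (ha : 9 ≤ B.a) (hadm : ∀ F M, B.adm F M → P.Adm F M) : Tame B 8 (fun F => P.mult F) :=
  Tame.pullS P.back (P.tame_G hC hb hadm (t_criterion (B := P.base B C) ha (fun hF p => hF.adm.1 p)
    fun hF p => hF.adm.2 p)) P.χ_smooth P.χ_dom

/-- The transported criterion is a multiplier of the own cell. -/
theorem inv1_mult (hC : ∀ j, 0 ≤ C j)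
    (hb : ∀ j, ∀ {u : R2 → V4}, Smooth2 u → pn j (P.G u) ≤ C j * pn j u) (ha : 9 ≤ B.a)
    (hadm : ∀ F M, B.adm F M → P.Adm F M) : Inv1 B (fun F => P.mult F) := by
  classical
  obtain ⟨M, hM, hL⟩ := inv1_criterion (B := P.base B C) ha (fun hF p => hF.adm.1 p)
    (fun hF p => hF.adm.2 p)
  obtain ⟨sT, dT⟩ := P.smooth2_tensorW
  obtain ⟨CT, hCT, hT⟩ := pn_pull_family P.fwd sT dT
  obtain ⟨CW, hCW, hW⟩ := pn_pullS_le P.back (U := V4) P.w'_smooth P.w'_dom
  have ox : Op B (fun _ (h : R2 → Fin 3 → ℝ) q => P.χ q • h q) :=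
    Op.id.smulc (Tame.fix P.χ_smooth) (Nat.zero_le _)
  obtain ⟨rx, qx, CX, hCX, hX⟩ := ox.bound
  obtain ⟨r, q, CM, hCM, hMb⟩ := hM.bound
  set h' : (R2 → Fin 3 → ℝ) → R2 → Fin 3 → ℝ := fun h =>
    pull P.tensorW P.fwd.map (fun q => P.χ q • h q)
  set M' : (R2 → V4) → (R2 → Fin 3 → ℝ) → R2 → V4 := fun F h =>
    if Smooth2 h then pullS P.w' P.back.map (M (P.G F) (h' h)) else 0
  have hs' : ∀ {h}, Smooth2 h → Smooth2 (h' h) := fun hh =>
    smooth2_pull P.fwd sT dT (smooth2_smul P.χ_smooth hh)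
  have hsM : ∀ {F Lam t N h}, B.Good F Lam t N → Smooth2 h → Smooth2 (M (P.G F) (h' h)) :=
    fun hF hh => hM.smooth (P.good_G hC hb hadm hF) (hs' hh)
  have hzero : ∀ (F : R2 → V4) {h : R2 → Fin 3 → ℝ}, Smooth2 h → ∀ p,
      (fun q => P.χ q • h q) =ᶠ[𝓝 p] 0 → pullS P.w' P.back.map (M (P.G F) (h' h)) =ᶠ[𝓝 p] 0 := by
    intro F h hh p he
    by_cases hp : p ∈ tsupport P.w'
    · have cb : ContinuousAt P.back.map p := (P.back.contDiffAt (P.w'_dom hp)).continuousAt
      have z : h' h =ᶠ[𝓝 (P.back.map p)] 0 := by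
        by_cases hq : P.back.map p ∈ tsupport P.w
        · obtain ⟨n, hn⟩ := P.inverse p hp
          have cf : Filter.Tendsto P.fwd.map (𝓝 (P.back.map p))
              (𝓝 (p + ((n.1 : ℝ), (n.2 : ℝ)))) :=
            hn.self_of_nhds ▸ (P.fwd.contDiffAt (P.w_dom hq)).continuousAt
          have cs : Filter.Tendsto (fun q => P.fwd.map q - ((n.1 : ℝ), (n.2 : ℝ)))
              (𝓝 (P.back.map p)) (𝓝 p) := by simpa using cf.sub_const ((n.1 : ℝ), (n.2 : ℝ))
          filter_upwards [cs.eventually he] with q hq'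
          have hu := periodic_int (smooth2_smul P.χ_smooth hh) n
            (P.fwd.map q - ((n.1 : ℝ), (n.2 : ℝ)))
          simp only [sub_add_cancel] at hu
          show P.tensorW q (P.χ (P.fwd.map q) • h (P.fwd.map q)) = 0
          rw [hu, hq', Pi.zero_apply, map_zero]
        · filter_upwards [notMem_tsupport_iff_eventuallyEq.1 hq] with q hq'
          simp [h', pull, tensorW, hq']
      filter_upwards [cb.eventually (hM.loc (P.G F) (h' h) _ z)] with q hq
      simp [pullS, hq]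
    · filter_upwards [notMem_tsupport_iff_eventuallyEq.1 hp] with q hq
      simp [pullS, hq]
  refine ⟨M', ⟨fun {F Lam t N h} hF hh => ?_, fun F h p he => ?_,
    fun {F Lam t N h k} hF hh hk c p => ?_, ?_⟩,
    fun {F Lam t N} hF h hh p _ => ?_⟩
  · simp only [M', if_pos hh]
    exact smooth2_pullS P.back P.w'_smooth P.w'_dom (hsM hF hh)
  · by_cases hh : Smooth2 h
    · simp only [M', if_pos hh]
      exact hzero F hh p (by filter_upwards [he] with q hq; simp [hq])
    · simp only [M', if_neg hh]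
      exact Filter.EventuallyEq.rfl
  · simp only [M', if_pos hh, if_pos hk, if_pos (hh.add (hk.const_smul c))]
    have e : h' (fun q => h q + c • k q) = fun q => h' h q + c • h' k q := funext fun q => by
      simp [h', pull, smul_add, smul_comm c, map_add, map_smul]
    simp [pullS, e, hM.lin (P.good_G hC hb hadm hF) (hs' hh) (hs' hk) c, smul_comm c]
  · refine ⟨r + rx, q + qx * (r + 1),
      fun i => CW i * (CM i * ∑ j ∈ range (i + r + 1), CT j * CX j), fun i => mul_nonneg (hCW i)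
        (mul_nonneg (hCM i) (sum_nonneg fun j _ => mul_nonneg (hCT j) (hCX j))),
      fun {F Lam t N h} hF hh i δ hi hd => ?_⟩
    simp only [M', if_pos hh]
    have hδ := delta_nonneg hd
    have hL1 := hF.one_le
    have ht := hF.one_le_t
    refine (hW i (hsM hF hh)).trans ?_
    rw [mul_assoc (CW i)]
    refine mul_le_mul_of_nonneg_left ((hMb (P.good_G hC hb hadm hF) (hs' hh) i
      ((∑ j ∈ range (i + r + 1), CT j * CX j) * (Lam ^ (qx * (r + 1) * (i + 1)) * t ^ rx * δ))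
      (show i + r ≤ N by omega) fun j hj => ?_).trans (le_of_eq (by ring))) (hCW i)
    refine ((hT j (smooth2_smul P.χ_smooth hh)).trans (mul_le_mul_of_nonneg_left
      (hX hF hh j δ (by omega) fun l hl => hd l (by omega)) (hCT j))).trans ?_
    rw [← mul_assoc (CT j), mul_assoc (∑ l ∈ range (i + r + 1), CT l * CX l)]
    refine mul_le_mul (single_le_sum (fun l _ => mul_nonneg (hCT l) (hCX l))
      (mem_range.mpr (by omega))) ?_ (by positivity)
      (sum_nonneg fun l _ => mul_nonneg (hCT l) (hCX l))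
    calc Lam ^ (qx * (j + 1)) * t ^ (j + rx) * δ
        ≤ Lam ^ (qx * (r + 1) * (i + 1)) * t ^ (j + rx) * δ := by
          gcongr ?_ * _ * _
          refine pow_le_pow_right₀ hL1 ?_
          rw [Nat.mul_assoc]
          exact Nat.mul_le_mul_left qx (by nlinarith)
      _ = _ := by ring
  · simp only [M', if_pos hh]
    by_cases hp : p ∈ tsupport P.χ
    · obtain ⟨e1, e2, hO, hdom⟩ := P.core p hp
      have hpw : p ∈ tsupport P.w' := subset_tsupport _ (by simp [e1.eq_of_nhds])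
      obtain ⟨n, hn⟩ := P.inverse p hpw
      have hb' := (P.back.contDiffAt (P.w'_dom hpw)).differentiableAt (by simp)
      have hGF : (P.base B C).Good (P.G F) Lam t N :=
        P.good_G hC hb (A := fun G M =>
          (∀ q, M⁻¹ ≤ detg G q + (1 - P.η q)) ∧ ∀ q, M⁻¹ ≤ Wsq P.η G q + (1 - P.η q)) hadm hF
      have eu : pullS P.w' P.back.map (M (P.G F) (h' h))
          =ᶠ[𝓝 p] fun q => M (P.G F) (h' h) (P.back.map q) := by
        filter_upwards [e1] with q hq; simp [pullS, hq]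
      have eF : F =ᶠ[𝓝 p] fun q => P.G F (P.back.map q) := by
        filter_upwards [hn, hb'.continuousAt.eventually e2] with q hq hq'
        simp [G, pullS, hq', hq, periodic_int hF.smooth n q]
      rw [linM_comp hb' (Smooth2.diffAt hGF.smooth _) (Smooth2.diffAt (hsM hF hh) _) eF eu,
        hL hGF (h' h) (hs' hh) _ hO, map_smul]
      have hfd : (fderiv ℝ P.fwd.map (P.back.map p)).comp (fderiv ℝ P.back.map p)
          = ContinuousLinearMap.id ℝ R2 := by
        rw [← fderiv_comp p ((P.fwd.contDiffAt hdom).differentiableAt (by simp)) hb']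
        rw [show fderiv ℝ (P.fwd.map ∘ P.back.map) p
          = fderiv ℝ (fun q => q + ((n.1 : ℝ), (n.2 : ℝ))) p from Filter.EventuallyEq.fderiv_eq hn]
        simp
      have hv : h' h (P.back.map p)
          = tensorMap (fderiv ℝ P.fwd.map (P.back.map p)) (P.χ p • h p) := by
        show (P.w (P.back.map p) • tensorMap (fderiv ℝ P.fwd.map (P.back.map p)))
          (P.χ (P.fwd.map (P.back.map p)) • h (P.fwd.map (P.back.map p))) = _
        rw [e2.eq_of_nhds, hn.self_of_nhds, periodic_int P.χ_smooth n p, periodic_int hh n p,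
          one_smul]
      rw [hv, tensorMap_comp _ _ hfd, smul_smul]
      simp [mult, pullS, mul_comm, Piece.base, Piece.baseA]
    · have z := notMem_tsupport_iff_eventuallyEq.1 hp
      have e := hzero F hh p (by filter_upwards [z] with q hq; simp [hq])
      simp [mult, pullS, z.eq_of_nhds, linM, dx, dy, e.fderiv_eq]

end Piece

end

end Vale.Agent.P205.Algebra
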